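import Mathlib

/-!
# Bernstein certificates for bivariate polynomials on the unit square

Polynomials are lists of integers (coefficients in increasing degree); bivariate polynomials are
lists of such lists (outer variable `x`, inner variable `y`).  `chk n k b p` bisects the square at
most `k` times (alternately in the two variables) and checks the signs of the Bernstein
coefficients; it is meant to be evaluated with `decide +kernel`.
-/

namespace Vale.Agent.P154.Bern

def addL : List ℤ → List ℤ → List ℤ
  | [], q => q
  | a :: p, [] => a :: p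
  | a :: p, b :: q => (a + b) :: addL p q

def addM : List (List ℤ) → List (List ℤ) → List (List ℤ)
  | [], q => q
  | a :: p, [] => a :: p
  | a :: p, b :: q => addL a b :: addM p q

def shiftL : List ℤ → List ℤ
  | [] => []
  | c :: cs => addL (c :: shiftL cs) (shiftL cs)

def shiftM : List (List ℤ) → List (List ℤ)
  | [] => []
  | c :: cs => addM (c :: shiftM cs) (shiftM cs)

def halfL : List ℤ → List ℤ
  | [] => []
  | c :: cs => (c * 2 ^ cs.length) :: halfL cs

def scaleL (k : ℤ) : List ℤ → List ℤ
  | [] => []
  | c :: cs => (k * c) :: scaleL k cs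

def halfM : List (List ℤ) → List (List ℤ)
  | [] => []
  | c :: cs => scaleL (2 ^ cs.length) c :: halfM cs

noncomputable def ev (y : ℝ) : List ℤ → ℝ
  | [] => 0
  | c :: cs => (c : ℝ) + y * ev y cs

noncomputable def ev2 (x y : ℝ) : List (List ℤ) → ℝ
  | [] => 0
  | c :: cs => ev y c + x * ev2 x y cs

theorem ev_addL (y : ℝ) (p q : List ℤ) : ev y (addL p q) = ev y p + ev y q := by
  induction p generalizing q with
  | nil => simp [addL, ev]
  | cons a p ih =>
    cases q with
    | nil => simp [addL, ev]
    | cons b q => simp only [addL, ev, ih]; push_cast; ring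

theorem ev2_addM (x y : ℝ) (p q : List (List ℤ)) :
    ev2 x y (addM p q) = ev2 x y p + ev2 x y q := by
  induction p generalizing q with
  | nil => simp [addM, ev2]
  | cons a p ih =>
    cases q with
    | nil => simp [addM, ev2]
    | cons b q => simp only [addM, ev2, ih, ev_addL]; ring

theorem ev_shiftL (y : ℝ) (p : List ℤ) : ev y (shiftL p) = ev (y + 1) p := by
  induction p with
  | nil => simp [shiftL, ev]
  | cons c p ih => simp only [shiftL, ev_addL, ev, ih]; ring

theorem ev2_shiftM (x y : ℝ) (p : List (List ℤ)) : ev2 x y (shiftM p) = ev2 (x + 1) y p := by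
  induction p with
  | nil => simp [shiftM, ev2]
  | cons c p ih => simp only [shiftM, ev2_addM, ev2, ih]; ring

theorem ev2_map_shiftL (x y : ℝ) (p : List (List ℤ)) :
    ev2 x y (p.map shiftL) = ev2 x (y + 1) p := by
  induction p with
  | nil => simp [ev2]
  | cons c p ih => simp only [List.map_cons, ev2, ih, ev_shiftL]

theorem ev_halfL (y : ℝ) (p : List ℤ) :
    ev y (halfL p) * 2 = 2 ^ p.length * ev (y / 2) p := by
  induction p with
  | nil => simp [halfL, ev]
  | cons c p ih =>
    simp only [halfL, ev, List.length_cons, pow_succ]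
    push_cast
    linear_combination y * ih

theorem ev_scaleL (k : ℤ) (y : ℝ) (p : List ℤ) : ev y (scaleL k p) = k * ev y p := by
  induction p with
  | nil => simp [scaleL, ev]
  | cons c p ih => simp only [scaleL, ev, ih]; push_cast; ring

theorem ev2_halfM (x y : ℝ) (p : List (List ℤ)) :
    ev2 x y (halfM p) * 2 = 2 ^ p.length * ev2 (x / 2) y p := by
  induction p with
  | nil => simp [halfM, ev2]
  | cons c p ih =>
    simp only [halfM, ev2, List.length_cons, pow_succ, ev_scaleL]
    push_cast
    linear_combination x * ih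

theorem ev2_map_halfL (x y : ℝ) (n : ℕ) (p : List (List ℤ)) (h : ∀ l ∈ p, l.length = n) :
    ev2 x y (p.map halfL) * 2 = 2 ^ n * ev2 x (y / 2) p := by
  induction p with
  | nil => simp [ev2]
  | cons c p ih =>
    have h1 := ev_halfL y c
    rw [h c (by simp)] at h1
    have h2 := ih (fun l hl => h l (by simp [hl]))
    simp only [List.map_cons, ev2]
    linear_combination h1 + x * h2

theorem ev_append (y : ℝ) (p : List ℤ) (c : ℤ) :
    ev y (p ++ [c]) = ev y p + c * y ^ p.length := by
  induction p with
  | nil => simp [ev]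
  | cons d p ih => simp only [List.cons_append, ev, ih, List.length_cons, pow_succ]; ring

theorem ev2_append (x y : ℝ) (p : List (List ℤ)) (c : List ℤ) :
    ev2 x y (p ++ [c]) = ev2 x y p + ev y c * x ^ p.length := by
  induction p with
  | nil => simp [ev2]
  | cons d p ih => simp only [List.cons_append, ev2, ih, List.length_cons, pow_succ]; ring

theorem ev_reverse {y : ℝ} (hy : y ≠ 0) (p : List ℤ) :
    ev y⁻¹ p.reverse * y ^ p.length = y * ev y p := by
  induction p with
  | nil => simp [ev]
  | cons c p ih =>
    rw [List.reverse_cons, ev_append, List.length_reverse, List.length_cons, pow_succ]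
    have h1 : (y⁻¹) ^ p.length * y ^ p.length = 1 := by
      rw [← mul_pow, inv_mul_cancel₀ hy, one_pow]
    simp only [ev]
    linear_combination y * ih + (c : ℝ) * y * h1

theorem ev2_reverse {x : ℝ} (hx : x ≠ 0) (y : ℝ) (p : List (List ℤ)) :
    ev2 x⁻¹ y p.reverse * x ^ p.length = x * ev2 x y p := by
  induction p with
  | nil => simp [ev2]
  | cons c p ih =>
    rw [List.reverse_cons, ev2_append, List.length_reverse, List.length_cons, pow_succ]
    have h1 : (x⁻¹) ^ p.length * x ^ p.length = 1 := by
      rw [← mul_pow, inv_mul_cancel₀ hx, one_pow]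
    simp only [ev2]
    linear_combination x * ih + (ev y c) * x * h1

theorem ev2_map_reverse {y : ℝ} (hy : y ≠ 0) (x : ℝ) (n : ℕ) (p : List (List ℤ))
    (h : ∀ l ∈ p, l.length = n) :
    ev2 x y⁻¹ (p.map List.reverse) * y ^ n = y * ev2 x y p := by
  induction p with
  | nil => simp [ev2]
  | cons c p ih =>
    have h1 := ev_reverse hy c
    rw [h c (by simp)] at h1
    have h2 := ih (fun l hl => h l (by simp [hl]))
    simp only [List.map_cons, ev2]
    linear_combination h1 + x * h2

def nonnegL (p : List ℤ) : Bool := p.all fun c => decide (0 ≤ c)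

theorem ev_nonneg {y : ℝ} (hy : 0 ≤ y) (p : List ℤ) (h : nonnegL p = true) : 0 ≤ ev y p := by
  induction p with
  | nil => simp [ev]
  | cons c p ih =>
    simp only [nonnegL, List.all_cons, Bool.and_eq_true, decide_eq_true_eq] at h ih
    have h1 : (0 : ℝ) ≤ c := by exact_mod_cast h.1
    have h2 := ih h.2
    simp only [ev]
    positivity

theorem ev2_nonneg {x y : ℝ} (hx : 0 ≤ x) (hy : 0 ≤ y) (p : List (List ℤ))
    (h : p.all nonnegL = true) : 0 ≤ ev2 x y p := by
  induction p with
  | nil => simp [ev2]
  | cons c p ih =>
    simp only [List.all_cons, Bool.and_eq_true] at h ih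
    have h1 := ev_nonneg hy c h.1
    have h2 := ih h.2
    simp only [ev2]
    positivity

def lenOK (n : ℕ) (p : List (List ℤ)) : Bool := p.all fun l => decide (l.length = n)

theorem lenOK_iff {n : ℕ} {p : List (List ℤ)} (h : lenOK n p = true) :
    ∀ l ∈ p, l.length = n := by
  intro l hl
  have := List.all_eq_true.mp h l hl
  simpa using this

/-- all Bernstein coefficients are nonnegative -/
def test (p : List (List ℤ)) : Bool :=
  (shiftM (p.map fun l => shiftL l.reverse).reverse).all nonnegL

theorem test_sound {n : ℕ} {p : List (List ℤ)} (hl : lenOK n p = true) (ht : test p = true)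
    {x y : ℝ} (hx0 : 0 < x) (hx1 : x ≤ 1) (hy0 : 0 < y) (hy1 : y ≤ 1) : 0 ≤ ev2 x y p := by
  have hs : 0 ≤ x⁻¹ - 1 := by
    have := (one_le_inv₀ hx0).mpr hx1
    linarith
  have hu : 0 ≤ y⁻¹ - 1 := by
    have := (one_le_inv₀ hy0).mpr hy1
    linarith
  have h1 := ev2_nonneg hs hu _ ht
  rw [ev2_shiftM, sub_add_cancel] at h1
  have h2 := ev2_reverse hx0.ne' (y⁻¹ - 1) (p.map fun l => shiftL l.reverse)
  have h3 : 0 ≤ ev2 x (y⁻¹ - 1) (p.map fun l => shiftL l.reverse) := by
    have : 0 ≤ x * ev2 x (y⁻¹ - 1) (p.map fun l => shiftL l.reverse) := by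
      rw [← h2]; positivity
    exact nonneg_of_mul_nonneg_right this hx0
  have h4 : (p.map fun l => shiftL l.reverse) = (p.map List.reverse).map shiftL := by
    simp [List.map_map, Function.comp_def]
  rw [h4, ev2_map_shiftL, sub_add_cancel] at h3
  have h5 := ev2_map_reverse hy0.ne' x n p (lenOK_iff hl)
  have : 0 ≤ y * ev2 x y p := by
    rw [← h5]; positivity
  exact nonneg_of_mul_nonneg_right this hy0

/-- bisection with the Bernstein test; `n` is the common length of the inner lists -/
def chk (n : ℕ) : ℕ → Bool → List (List ℤ) → Bool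
  | 0, _, p => lenOK n p && test p
  | k + 1, true, p => (lenOK n p && test p) ||
      (chk n k false (halfM p) && chk n k false (shiftM (halfM p)))
  | k + 1, false, p => (lenOK n p && test p) ||
      (lenOK n p && (chk n k true (p.map halfL) && chk n k true ((p.map halfL).map shiftL)))

theorem chk_sound (n : ℕ) : ∀ (k : ℕ) (b : Bool) (p : List (List ℤ)), chk n k b p = true →
    ∀ x y : ℝ, 0 < x → x ≤ 1 → 0 < y → y ≤ 1 → 0 ≤ ev2 x y p := by
  intro k
  induction k with
  | zero =>
    intro b p h x y hx0 hx1 hy0 hy1
    simp only [chk, Bool.and_eq_true] at h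
    exact test_sound h.1 h.2 hx0 hx1 hy0 hy1
  | succ k ih =>
    intro b p h x y hx0 hx1 hy0 hy1
    cases b with
    | true =>
      simp only [chk, Bool.or_eq_true, Bool.and_eq_true] at h
      rcases h with h | ⟨h1, h2⟩
      · exact test_sound h.1 h.2 hx0 hx1 hy0 hy1
      · rcases le_or_gt x (1 / 2) with hx | hx
        · have h3 := ih false _ h1 (2 * x) y (by linarith) (by linarith) hy0 hy1
          have h4 := ev2_halfM (2 * x) y p
          rw [show 2 * x / 2 = x by ring] at h4
          have h5 : 0 ≤ (2 : ℝ) ^ p.length * ev2 x y p := by rw [← h4]; positivity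
          exact nonneg_of_mul_nonneg_right h5 (by positivity)
        · have h3 := ih false _ h2 (2 * x - 1) y (by linarith) (by linarith) hy0 hy1
          rw [ev2_shiftM, sub_add_cancel] at h3
          have h4 := ev2_halfM (2 * x) y p
          rw [show 2 * x / 2 = x by ring] at h4
          have h5 : 0 ≤ (2 : ℝ) ^ p.length * ev2 x y p := by rw [← h4]; positivity
          exact nonneg_of_mul_nonneg_right h5 (by positivity)
    | false =>
      simp only [chk, Bool.or_eq_true, Bool.and_eq_true] at h
      rcases h with h | ⟨hl, h1, h2⟩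
      · exact test_sound h.1 h.2 hx0 hx1 hy0 hy1
      · rcases le_or_gt y (1 / 2) with hy | hy
        · have h3 := ih true _ h1 x (2 * y) hx0 hx1 (by linarith) (by linarith)
          have h4 := ev2_map_halfL x (2 * y) n p (lenOK_iff hl)
          rw [show 2 * y / 2 = y by ring] at h4
          have h5 : 0 ≤ (2 : ℝ) ^ n * ev2 x y p := by rw [← h4]; positivity
          exact nonneg_of_mul_nonneg_right h5 (by positivity)
        · have h3 := ih true _ h2 x (2 * y - 1) hx0 hx1 (by linarith) (by linarith)
          rw [ev2_map_shiftL, sub_add_cancel] at h3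
          have h4 := ev2_map_halfL x (2 * y) n p (lenOK_iff hl)
          rw [show 2 * y / 2 = y by ring] at h4
          have h5 : 0 ≤ (2 : ℝ) ^ n * ev2 x y p := by rw [← h4]; positivity
          exact nonneg_of_mul_nonneg_right h5 (by positivity)

end Vale.Agent.P154.Bern
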