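import Mathlib

/-!
A reflection based positivity checker for integer polynomials on the unit box `[0,1]^n`,
to be evaluated by the kernel (`by decide +kernel`).

* `PT n`: dense nested integer polynomials in `n` variables (`PT 0 = ℤ`, `PT (n+1) = List (PT n)`,
  lowest degree first); `ev n p x` is the value at `x : ℕ → ℝ` (variable `0` is the outermost).
* `Ex`: polynomial expressions; `Ex.den` their meaning, `Ex.toP` the computed dense form.
* `Tree`: certificates; `chk n ds T p` the checker, `ds` the lengths (degree + 1) in each variable.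
* `chk_sound`, `chk_sound_expr`: soundness.
-/

namespace Vale.Agent.Lib.P154.BoxPos

/-- nested dense polynomials -/
def PT : ℕ → Type
  | 0 => ℤ
  | n + 1 => List (PT n)

section lists
variable {α : Type}

/-- addition of coefficient lists of possibly different lengths -/
def addL (f : α → α → α) : List α → List α → List α
  | [], m => m
  | a :: l, [] => a :: l
  | a :: l, b :: m => f a b :: addL f l m

/-- multiplication of coefficient lists -/
def mulL (f g : α → α → α) (z : α) : List α → List α → List α
  | [], _ => []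
  | a :: l, q => addL f (q.map (g a)) (z :: mulL f g z l q)

/-- carry function for the shift -/
def goL (f : α → α → α) : α → List α → List α
  | c, [] => [c]
  | c, b :: s => f c b :: goL f b s

/-- coefficients of `h (x + y, y)` -/
def shR (f : α → α → α) : List α → List α
  | [] => []
  | a :: l => goL f a (shR f l)

/-- coefficients of `h (x, x + y)` -/
def shL (f : α → α → α) (l : List α) : List α := (shR f l.reverse).reverse

/-- coefficients of `h (2 x, y)`, first power `k` -/
def scR (g : ℕ → α → α) : ℕ → List α → List α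
  | _, [] => []
  | k, a :: l => g k a :: scR g (k + 1) l

/-- coefficients of `h (x, 2 y)` -/
def scL (g : ℕ → α → α) : List α → List α
  | [] => []
  | a :: l => g l.length a :: scL g l

/-- pad with `z` or truncate to length `d` -/
def padL (z : α) : ℕ → List α → List α
  | 0, _ => []
  | d + 1, [] => z :: padL z d []
  | d + 1, a :: l => a :: padL z d l

/-- value of a coefficient list -/
noncomputable def evL (f : α → ℝ) (t : ℝ) : List α → ℝ
  | [] => 0
  | a :: l => f a + t * evL f t l

/-- homogeneous value of a coefficient list -/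
noncomputable def hevL (f : α → ℝ) (x y : ℝ) : List α → ℝ
  | [] => 0
  | a :: l => f a * y ^ l.length + x * hevL f x y l

theorem evL_addL (f : α → α → α) (v : α → ℝ) (t : ℝ) (hf : ∀ a b, v (f a b) = v a + v b) :
    ∀ l m : List α, evL v t (addL f l m) = evL v t l + evL v t m
  | [], m => by simp [addL, evL]
  | a :: l, [] => by simp [addL, evL]
  | a :: l, b :: m => by
    simp only [addL, evL, hf, evL_addL f v t hf l m]
    ring

theorem evL_map_mul (g : α → α → α) (v : α → ℝ) (t : ℝ) (a : α)
    (hg : ∀ b, v (g a b) = v a * v b) :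
    ∀ l : List α, evL v t (l.map (g a)) = v a * evL v t l
  | [] => by simp [evL]
  | b :: l => by
    simp only [List.map_cons, evL, hg, evL_map_mul g v t a hg l]
    ring

theorem evL_mulL (f g : α → α → α) (z : α) (v : α → ℝ) (t : ℝ)
    (hf : ∀ a b, v (f a b) = v a + v b) (hg : ∀ a b, v (g a b) = v a * v b) (hz : v z = 0) :
    ∀ l m : List α, evL v t (mulL f g z l m) = evL v t l * evL v t m
  | [], m => by simp [mulL, evL]
  | a :: l, m => by
    simp only [mulL, evL_addL f v t hf, evL_map_mul g v t a (hg a), evL, hz,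
      evL_mulL f g z v t hf hg hz l m]
    ring

theorem length_goL (f : α → α → α) : ∀ (c : α) (s : List α), (goL f c s).length = s.length + 1
  | _, [] => rfl
  | _, b :: s => by simp [goL, length_goL f b s]

theorem length_shR (f : α → α → α) : ∀ l : List α, (shR f l).length = l.length
  | [] => rfl
  | a :: l => by simp [shR, length_goL, length_shR f l]

theorem length_shL (f : α → α → α) (l : List α) : (shL f l).length = l.length := by
  simp [shL, length_shR]

theorem length_padL (z : α) : ∀ (d : ℕ) (l : List α), (padL z d l).length = d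
  | 0, _ => rfl
  | d + 1, [] => by simp [padL, length_padL z d []]
  | d + 1, a :: l => by simp [padL, length_padL z d l]

theorem forall_goL {f : α → α → α} {P : α → Prop} (hf : ∀ a b, P a → P b → P (f a b)) :
    ∀ (c : α) (s : List α), P c → (∀ u ∈ s, P u) → ∀ u ∈ goL f c s, P u
  | c, [], hc, _ => by simp [goL, hc]
  | c, b :: s, hc, hs => by
    intro u hu
    rcases List.mem_cons.mp hu with h | h
    · rw [h]; exact hf c b hc (hs b (by simp))
    · exact forall_goL hf b s (hs b (by simp)) (fun u hu => hs u (by simp [hu])) u h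

theorem forall_shR {f : α → α → α} {P : α → Prop} (hf : ∀ a b, P a → P b → P (f a b)) :
    ∀ (s : List α), (∀ u ∈ s, P u) → ∀ u ∈ shR f s, P u
  | [], _ => by simp [shR]
  | a :: l, h => forall_goL hf a (shR f l) (h a (by simp))
      (forall_shR hf l (fun u hu => h u (by simp [hu])))

theorem forall_shL {f : α → α → α} {P : α → Prop} (hf : ∀ a b, P a → P b → P (f a b))
    (s : List α) (hs : ∀ u ∈ s, P u) : ∀ u ∈ shL f s, P u := by
  intro u hu
  rw [shL, List.mem_reverse] at hu
  exact forall_shR hf s.reverse (fun u hu => hs u (List.mem_reverse.mp hu)) u hu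

theorem hevL_goL {f : α → α → α} {P : α → Prop} (v : α → ℝ) (x y : ℝ)
    (hf : ∀ a b, P a → P b → v (f a b) = v a + v b) :
    ∀ (c : α) (s : List α), P c → (∀ u ∈ s, P u) →
      hevL v x y (goL f c s) = v c * y ^ s.length + (x + y) * hevL v x y s
  | c, [], _, _ => by simp [goL, hevL]
  | c, b :: s, hc, hs => by
    simp only [goL, hevL, length_goL, hf c b hc (hs b (by simp)), List.length_cons,
      hevL_goL v x y hf b s (hs b (by simp)) (fun u hu => hs u (by simp [hu]))]
    ring

theorem hevL_shR {f : α → α → α} {P : α → Prop} (v : α → ℝ) (x y : ℝ)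
    (hP : ∀ a b, P a → P b → P (f a b))
    (hf : ∀ a b, P a → P b → v (f a b) = v a + v b) :
    ∀ (s : List α), (∀ u ∈ s, P u) → hevL v x y (shR f s) = hevL v (x + y) y s
  | [], _ => by simp [shR, hevL]
  | a :: l, h => by
    simp only [shR, hevL]
    rw [hevL_goL v x y hf a (shR f l) (h a (by simp))
      (forall_shR hP l (fun u hu => h u (by simp [hu]))), length_shR,
      hevL_shR v x y hP hf l (fun u hu => h u (by simp [hu]))]

theorem hevL_append (v : α → ℝ) (x y : ℝ) :
    ∀ (l m : List α), hevL v x y (l ++ m)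
      = hevL v x y l * y ^ m.length + x ^ l.length * hevL v x y m
  | [], m => by simp [hevL]
  | a :: l, m => by
    simp only [List.cons_append, hevL, hevL_append v x y l m, List.length_append,
      List.length_cons]
    ring

theorem hevL_reverse (v : α → ℝ) (x y : ℝ) :
    ∀ (l : List α), hevL v x y l.reverse = hevL v y x l
  | [] => by simp [hevL]
  | a :: l => by
    rw [List.reverse_cons, hevL_append, hevL_reverse v x y l]
    simp only [hevL, List.length_cons, List.length_nil, List.length_reverse]
    ring

theorem hevL_shL {f : α → α → α} {P : α → Prop} (v : α → ℝ) (x y : ℝ)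
    (hP : ∀ a b, P a → P b → P (f a b))
    (hf : ∀ a b, P a → P b → v (f a b) = v a + v b)
    (s : List α) (hs : ∀ u ∈ s, P u) : hevL v x y (shL f s) = hevL v x (x + y) s := by
  rw [shL, hevL_reverse, hevL_shR v y x hP hf s.reverse
    (fun u hu => hs u (List.mem_reverse.mp hu)), hevL_reverse, add_comm]

theorem length_scR (g : ℕ → α → α) : ∀ (k : ℕ) (l : List α), (scR g k l).length = l.length
  | _, [] => rfl
  | k, a :: l => by simp [scR, length_scR g (k + 1) l]

theorem length_scL (g : ℕ → α → α) : ∀ (l : List α), (scL g l).length = l.length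
  | [] => rfl
  | a :: l => by simp [scL, length_scL g l]

theorem forall_scR {g : ℕ → α → α} {P : α → Prop} (hg : ∀ k a, P a → P (g k a)) :
    ∀ (k : ℕ) (l : List α), (∀ u ∈ l, P u) → ∀ u ∈ scR g k l, P u
  | _, [], _ => by simp [scR]
  | k, a :: l, h => by
    intro u hu
    rcases List.mem_cons.mp (show u ∈ g k a :: scR g (k + 1) l from hu) with h' | h'
    · rw [h']; exact hg k a (h a (by simp))
    · exact forall_scR hg (k + 1) l (fun u hu => h u (by simp [hu])) u h'

theorem forall_scL {g : ℕ → α → α} {P : α → Prop} (hg : ∀ k a, P a → P (g k a)) :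
    ∀ (l : List α), (∀ u ∈ l, P u) → ∀ u ∈ scL g l, P u
  | [], _ => by simp [scL]
  | a :: l, h => by
    intro u hu
    rcases List.mem_cons.mp (show u ∈ g l.length a :: scL g l from hu) with h' | h'
    · rw [h']; exact hg _ a (h a (by simp))
    · exact forall_scL hg l (fun u hu => h u (by simp [hu])) u h'

theorem hevL_scR (g : ℕ → α → α) (v : α → ℝ) (hg : ∀ k a, v (g k a) = v a * 2 ^ k) (x y : ℝ) :
    ∀ (k : ℕ) (l : List α), hevL v x y (scR g k l) = 2 ^ k * hevL v (2 * x) y l
  | _, [] => by simp [scR, hevL]
  | k, a :: l => by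
    simp only [scR, hevL, hg, length_scR, hevL_scR g v hg x y (k + 1) l]
    ring

theorem hevL_scL (g : ℕ → α → α) (v : α → ℝ) (hg : ∀ k a, v (g k a) = v a * 2 ^ k) (x y : ℝ) :
    ∀ (l : List α), hevL v x y (scL g l) = hevL v x (2 * y) l
  | [] => by simp [scL, hevL]
  | a :: l => by
    simp only [scL, hevL, hg, length_scL, hevL_scL g v hg x y l]
    ring

theorem hevL_map (g : α → α) (v w : α → ℝ) (x y : ℝ) :
    ∀ (l : List α), (∀ u ∈ l, v (g u) = w u) → hevL v x y (l.map g) = hevL w x y l
  | [], _ => by simp [hevL]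
  | a :: l, h => by
    simp only [List.map_cons, hevL, List.length_map, h a (by simp),
      hevL_map g v w x y l (fun u hu => h u (by simp [hu]))]

theorem hevL_congr (v w : α → ℝ) (x y : ℝ) :
    ∀ (l : List α), (∀ u ∈ l, v u = w u) → hevL v x y l = hevL w x y l
  | [], _ => by simp [hevL]
  | a :: l, h => by
    simp only [hevL, h a (by simp), hevL_congr v w x y l (fun u hu => h u (by simp [hu]))]

theorem hevL_nonneg (v : α → ℝ) (x y : ℝ) (hx : 0 ≤ x) (hy : 0 ≤ y) :
    ∀ (l : List α), (∀ u ∈ l, 0 ≤ v u) → 0 ≤ hevL v x y l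
  | [], _ => by simp [hevL]
  | a :: l, h => by
    have h1 := h a (by simp)
    have h2 := hevL_nonneg v x y hx hy l (fun u hu => h u (by simp [hu]))
    simp only [hevL]
    positivity

theorem hevL_padL (z : α) (v : α → ℝ) (x : ℝ) (hz : v z = 0) :
    ∀ (d : ℕ) (l : List α), l.length ≤ d → hevL v x 1 (padL z d l) = evL v x l
  | 0, l, h => by
    have : l = [] := List.length_eq_zero_iff.mp (by omega)
    subst this
    simp [padL, hevL, evL]
  | d + 1, [], _ => by
    simp only [padL, hevL, hz, hevL_padL z v x hz d [] (by simp), evL]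
    ring
  | d + 1, a :: l, h => by
    simp only [padL, hevL, hevL_padL z v x hz d l (by simpa using h), evL, one_pow]
    ring

end lists

/-! ### Nested operations -/

/-- the integer -/
def toZ (a : PT 0) : ℤ := a

/-- the zero polynomial -/
def zero : (n : ℕ) → PT n
  | 0 => (0 : ℤ)
  | _ + 1 => []

/-- addition -/
def add : (n : ℕ) → PT n → PT n → PT n
  | 0 => Int.add
  | n + 1 => addL (add n)

/-- multiplication -/
def mul : (n : ℕ) → PT n → PT n → PT n
  | 0 => Int.mul
  | n + 1 => mulL (add n) (mul n) (zero n)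

/-- constants -/
def const : (n : ℕ) → ℤ → PT n
  | 0, c => c
  | n + 1, c => [const n c]

/-- variables (`0` outermost; out of range variables give `0`) -/
def vr : (n : ℕ) → ℕ → PT n
  | 0, _ => (0 : ℤ)
  | n + 1, 0 => [zero n, const n 1]
  | n + 1, i + 1 => [vr n i]

/-- powers -/
def pw (n : ℕ) (p : PT n) : ℕ → PT n
  | 0 => const n 1
  | k + 1 => mul n (pw n p k) p

/-- value at `x` -/
noncomputable def ev : (n : ℕ) → PT n → (ℕ → ℝ) → ℝ
  | 0, a, _ => (toZ a : ℝ)
  | n + 1, l, x => evL (fun p => ev n p (fun i => x (i + 1))) (x 0) l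

theorem ev_zero : ∀ (n : ℕ) (x : ℕ → ℝ), ev n (zero n) x = 0
  | 0, _ => by simp [ev, zero, toZ]
  | n + 1, _ => by simp [ev, zero, evL]

theorem ev_add : ∀ (n : ℕ) (p q : PT n) (x : ℕ → ℝ), ev n (add n p q) x = ev n p x + ev n q x
  | 0, p, q, _ => by
    show (((toZ p + toZ q : ℤ)) : ℝ) = ((toZ p : ℤ) : ℝ) + ((toZ q : ℤ) : ℝ)
    exact Int.cast_add _ _
  | n + 1, p, q, x => evL_addL (add n) _ (x 0) (fun a b => ev_add n a b _) p q

theorem ev_mul : ∀ (n : ℕ) (p q : PT n) (x : ℕ → ℝ), ev n (mul n p q) x = ev n p x * ev n q x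
  | 0, p, q, _ => by
    show (((toZ p * toZ q : ℤ)) : ℝ) = ((toZ p : ℤ) : ℝ) * ((toZ q : ℤ) : ℝ)
    exact Int.cast_mul _ _
  | n + 1, p, q, x => evL_mulL (add n) (mul n) (zero n) _ (x 0) (fun a b => ev_add n a b _)
      (fun a b => ev_mul n a b _) (ev_zero n _) p q

theorem ev_const : ∀ (n : ℕ) (c : ℤ) (x : ℕ → ℝ), ev n (const n c) x = c
  | 0, _, _ => rfl
  | n + 1, c, x => by simp [ev, const, evL, ev_const n c]

theorem ev_vr : ∀ (n i : ℕ) (x : ℕ → ℝ), i < n → ev n (vr n i) x = x i
  | 0, i, x, h => absurd h (by omega)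
  | n + 1, 0, x, _ => by simp [ev, vr, evL, ev_zero, ev_const]
  | n + 1, i + 1, x, h => by simp [ev, vr, evL, ev_vr n i _ (by omega)]

theorem ev_pw (n : ℕ) (p : PT n) (x : ℕ → ℝ) : ∀ k, ev n (pw n p k) x = ev n p x ^ k
  | 0 => by simp [pw, ev_const]
  | k + 1 => by simp [pw, ev_mul, ev_pw n p x k, pow_succ]

/-- polynomial expressions -/
inductive Ex : Type
  | v (i : ℕ) : Ex
  | c (z : ℤ) : Ex
  | add (a b : Ex) : Ex
  | sub (a b : Ex) : Ex
  | mul (a b : Ex) : Ex
  | pow (a : Ex) (k : ℕ) : Ex

/-- meaning of an expression -/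
noncomputable def Ex.den (x : ℕ → ℝ) : Ex → ℝ
  | .v i => x i
  | .c z => z
  | .add a b => a.den x + b.den x
  | .sub a b => a.den x - b.den x
  | .mul a b => a.den x * b.den x
  | .pow a k => a.den x ^ k

/-- dense form of an expression -/
def Ex.toP (n : ℕ) : Ex → PT n
  | .v i => vr n i
  | .c z => const n z
  | .add a b => BoxPos.add n (a.toP n) (b.toP n)
  | .sub a b => BoxPos.add n (a.toP n) (BoxPos.mul n (const n (-1)) (b.toP n))
  | .mul a b => BoxPos.mul n (a.toP n) (b.toP n)
  | .pow a k => pw n (a.toP n) k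

/-- all variables are `< n` -/
def Ex.vok (n : ℕ) : Ex → Bool
  | .v i => Nat.blt i n
  | .c _ => true
  | .add a b => a.vok n && b.vok n
  | .sub a b => a.vok n && b.vok n
  | .mul a b => a.vok n && b.vok n
  | .pow a _ => a.vok n

theorem Ex.ev_toP (n : ℕ) (x : ℕ → ℝ) : ∀ e : Ex, e.vok n = true → ev n (e.toP n) x = e.den x
  | .v i, h => ev_vr n i x (by simpa [Ex.vok] using h)
  | .c z, _ => ev_const n z x
  | .add a b, h => by
    simp only [Ex.vok, Bool.and_eq_true] at h
    simp [Ex.toP, Ex.den, ev_add, a.ev_toP n x h.1, b.ev_toP n x h.2]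
  | .sub a b, h => by
    simp only [Ex.vok, Bool.and_eq_true] at h
    simp only [Ex.toP, Ex.den, ev_add, ev_mul, ev_const, a.ev_toP n x h.1, b.ev_toP n x h.2]
    push_cast
    ring
  | .mul a b, h => by
    simp only [Ex.vok, Bool.and_eq_true] at h
    simp [Ex.toP, Ex.den, ev_mul, a.ev_toP n x h.1, b.ev_toP n x h.2]
  | .pow a k, h => by
    simp only [Ex.vok] at h
    simp [Ex.toP, Ex.den, ev_pw, a.ev_toP n x h]

/-! ### Homogeneous form -/

/-- homogeneous value -/
noncomputable def hev : (n : ℕ) → PT n → (ℕ → ℝ) → (ℕ → ℝ) → ℝ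
  | 0, a, _, _ => (toZ a : ℝ)
  | n + 1, l, x, y =>
    hevL (fun p => hev n p (fun i => x (i + 1)) (fun i => y (i + 1))) (x 0) (y 0) l

/-- well-formed: rectangular with lengths `ds` -/
def wf : (n : ℕ) → List ℕ → PT n → Prop
  | 0, _, _ => True
  | _ + 1, [], _ => False
  | n + 1, d :: ds, l => List.length l = d ∧ ∀ u, List.Mem u l → wf n ds u

/-- all lengths are at most `ds` -/
def fits : (n : ℕ) → List ℕ → PT n → Bool
  | 0, _, _ => true
  | _ + 1, [], _ => false
  | n + 1, d :: ds, l => Nat.ble (List.length l) d && List.all l (fits n ds)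

/-- padded zero -/
def pz : (n : ℕ) → List ℕ → PT n
  | 0, _ => (0 : ℤ)
  | _ + 1, [] => []
  | n + 1, d :: ds => List.replicate d (pz n ds)

/-- pad to the shape `ds` -/
def pad : (n : ℕ) → List ℕ → PT n → PT n
  | 0, _, p => p
  | _ + 1, [], _ => []
  | n + 1, d :: ds, l => padL (pz n ds) d (List.map (pad n ds) l)

/-- shift `x v → x v + y v` -/
def shRv : (n : ℕ) → ℕ → PT n → PT n
  | 0, _, a => a
  | n + 1, 0, l => shR (add n) l
  | n + 1, v + 1, l => List.map (shRv n v) l

/-- shift `y v → x v + y v` -/
def shLv : (n : ℕ) → ℕ → PT n → PT n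
  | 0, _, a => a
  | n + 1, 0, l => shL (add n) l
  | n + 1, v + 1, l => List.map (shLv n v) l

/-- multiply by `2 ^ k` -/
def m2 : (n : ℕ) → ℕ → PT n → PT n
  | 0, k, a => Int.mul a (Int.ofNat (Nat.pow 2 k))
  | n + 1, k, l => List.map (m2 n k) l

/-- scaling `x v → 2 x v` -/
def scRv : (n : ℕ) → ℕ → PT n → PT n
  | 0, _, a => a
  | n + 1, 0, l => scR (m2 n) 0 l
  | n + 1, v + 1, l => List.map (scRv n v) l

/-- scaling `y v → 2 y v` -/
def scLv : (n : ℕ) → ℕ → PT n → PT n
  | 0, _, a => a
  | n + 1, 0, l => scL (m2 n) l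
  | n + 1, v + 1, l => List.map (scLv n v) l

/-- all coefficients nonnegative -/
def nn : (n : ℕ) → PT n → Bool
  | 0, a => match toZ a with
    | Int.ofNat _ => true
    | Int.negSucc _ => false
  | n + 1, l => List.all l (nn n)

/-- certificate: subdivision tree; `node` splits the variable `v` dyadically, `far` splits it
at the mediant (no growth of the coefficients by powers of two) -/
inductive Tree : Type
  | leaf : Tree
  | node (v : ℕ) (l r : Tree) : Tree
  | far (v : ℕ) (l r : Tree) : Tree

/-- the checker -/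
def chkT (n : ℕ) : Tree → PT n → Bool
  | .leaf, p => nn n p
  | .node v l r, p => chkT n l (scLv n v (shLv n v p)) && chkT n r (scRv n v (shRv n v p))
  | .far v l r, p => chkT n l (shLv n v p) && chkT n r (shRv n v p)

/-- convert all variables from `y = 1` to `x + y = 1` -/
def shAll (n : ℕ) (p : PT n) : ℕ → PT n
  | 0 => p
  | k + 1 => shLv n k (shAll n p k)

/-- the complete checker -/
def chk (n : ℕ) (ds : List ℕ) (T : Tree) (p : PT n) : Bool :=
  Nat.ble n ds.length && fits n ds p && chkT n T (shAll n (pad n ds p) n)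

theorem wf_add : ∀ (n : ℕ) (ds : List ℕ) (p q : PT n), wf n ds p → wf n ds q →
    wf n ds (add n p q) ∧ ∀ x y, hev n (add n p q) x y = hev n p x y + hev n q x y
  | 0, _, p, q, _, _ => by
    refine ⟨trivial, fun x y => ?_⟩
    show (((toZ p + toZ q : ℤ)) : ℝ) = ((toZ p : ℤ) : ℝ) + ((toZ q : ℤ) : ℝ)
    exact Int.cast_add _ _
  | n + 1, [], _, _, h, _ => absurd h (by simp [wf])
  | n + 1, d :: ds, p, q, hp, hq => by
    have key : ∀ (d : ℕ) (l m : List (PT n)), l.length = d → m.length = d →
        (∀ u ∈ l, wf n ds u) → (∀ u ∈ m, wf n ds u) →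
        (addL (add n) l m).length = d ∧ (∀ u ∈ addL (add n) l m, wf n ds u) ∧
        ∀ (x y : ℕ → ℝ) (s t : ℝ), hevL (fun p => hev n p x y) s t (addL (add n) l m)
          = hevL (fun p => hev n p x y) s t l + hevL (fun p => hev n p x y) s t m := by
      intro d
      induction d with
      | zero =>
        intro l m hl hm _ _
        have e1 := List.length_eq_zero_iff.mp hl
        have e2 := List.length_eq_zero_iff.mp hm
        subst e1 e2
        simp [addL, hevL]
      | succ d ih =>
        intro l m hl hm h1 h2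
        obtain ⟨a, l, rfl⟩ := List.exists_cons_of_length_eq_add_one hl
        obtain ⟨b, m, rfl⟩ := List.exists_cons_of_length_eq_add_one hm
        have hl' : l.length = d := by simpa using hl
        have hm' : m.length = d := by simpa using hm
        obtain ⟨i1, i2, i3⟩ := ih l m hl' hm' (fun u hu => h1 u (by simp [hu]))
          (fun u hu => h2 u (by simp [hu]))
        have hab := wf_add n ds a b (h1 a (by simp)) (h2 b (by simp))
        refine ⟨by simp [addL, i1], ?_, ?_⟩
        · intro u hu
          rcases List.mem_cons.mp (show u ∈ add n a b :: addL (add n) l m from hu) with h | h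
          · rw [h]; exact hab.1
          · exact i2 u h
        · intro x y s t
          simp only [addL, hevL, i3, hab.2, i1, hl', hm']
          ring
    obtain ⟨k1, k2, k3⟩ := key d p q hp.1 hq.1 (fun u hu => hp.2 u hu) (fun u hu => hq.2 u hu)
    exact ⟨⟨k1, fun u hu => k2 u hu⟩, fun x y => k3 _ _ _ _⟩

theorem wf_shLv : ∀ (n : ℕ) (ds : List ℕ) (v : ℕ) (p : PT n), v < n → wf n ds p →
    wf n ds (shLv n v p) ∧ ∀ x y, hev n (shLv n v p) x y
      = hev n p x (Function.update y v (x v + y v))
  | 0, _, v, _, hv, _ => absurd hv (by omega)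
  | n + 1, [], _, _, _, h => absurd h (by simp [wf])
  | n + 1, d :: ds, 0, p, _, hp => by
    have hP : ∀ a b, wf n ds a → wf n ds b → wf n ds (add n a b) :=
      fun a b ha hb => (wf_add n ds a b ha hb).1
    refine ⟨⟨(length_shL (add n) p).trans hp.1, fun u hu => forall_shL hP p hp.2 u hu⟩, ?_⟩
    intro x y
    have := hevL_shL (f := add n) (P := wf n ds)
      (fun p => hev n p (fun i => x (i + 1)) (fun i => y (i + 1))) (x 0) (y 0) hP
      (fun a b ha hb => (wf_add n ds a b ha hb).2 _ _) p hp.2
    show hevL _ (x 0) (y 0) (shL (add n) p) = hevL _ (x 0) _ p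
    rw [this]
    simp
  | n + 1, d :: ds, v + 1, p, hv, hp => by
    have ih := fun u hu => wf_shLv n ds v u (by omega) (hp.2 u hu)
    refine ⟨⟨(List.length_map (shLv n v)).trans hp.1, ?_⟩, ?_⟩
    · intro u hu
      obtain ⟨w, hw1, hw2⟩ := List.mem_map.mp (show u ∈ List.map (shLv n v) p from hu)
      rw [← hw2]
      exact (ih w hw1).1
    · intro x y
      show hevL _ (x 0) (y 0) (List.map (shLv n v) p) = hevL _ (x 0) _ p
      rw [hevL_map (shLv n v) _ (fun p => hev n p (fun i => x (i + 1))
        (Function.update (fun i => y (i + 1)) v (x (v + 1) + y (v + 1)))) _ _ p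
        (fun u hu => (ih u hu).2 _ _)]
      have e1 : Function.update y (v + 1) (x (v + 1) + y (v + 1)) 0 = y 0 := by
        rw [Function.update_of_ne (by omega)]
      have e2 : (fun i => Function.update y (v + 1) (x (v + 1) + y (v + 1)) (i + 1))
          = Function.update (fun i => y (i + 1)) v (x (v + 1) + y (v + 1)) := by
        funext i
        simp [Function.update_apply]
      rw [e1, e2]

theorem wf_shRv : ∀ (n : ℕ) (ds : List ℕ) (v : ℕ) (p : PT n), v < n → wf n ds p →
    wf n ds (shRv n v p) ∧ ∀ x y, hev n (shRv n v p) x y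
      = hev n p (Function.update x v (x v + y v)) y
  | 0, _, v, _, hv, _ => absurd hv (by omega)
  | n + 1, [], _, _, _, h => absurd h (by simp [wf])
  | n + 1, d :: ds, 0, p, _, hp => by
    have hP : ∀ a b, wf n ds a → wf n ds b → wf n ds (add n a b) :=
      fun a b ha hb => (wf_add n ds a b ha hb).1
    refine ⟨⟨(length_shR (add n) p).trans hp.1, fun u hu => forall_shR hP p hp.2 u hu⟩, ?_⟩
    intro x y
    have := hevL_shR (f := add n) (P := wf n ds)
      (fun p => hev n p (fun i => x (i + 1)) (fun i => y (i + 1))) (x 0) (y 0) hP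
      (fun a b ha hb => (wf_add n ds a b ha hb).2 _ _) p hp.2
    show hevL _ (x 0) (y 0) (shR (add n) p) = hevL _ _ (y 0) p
    rw [this]
    simp
  | n + 1, d :: ds, v + 1, p, hv, hp => by
    have ih := fun u hu => wf_shRv n ds v u (by omega) (hp.2 u hu)
    refine ⟨⟨(List.length_map (shRv n v)).trans hp.1, ?_⟩, ?_⟩
    · intro u hu
      obtain ⟨w, hw1, hw2⟩ := List.mem_map.mp (show u ∈ List.map (shRv n v) p from hu)
      rw [← hw2]
      exact (ih w hw1).1
    · intro x y
      show hevL _ (x 0) (y 0) (List.map (shRv n v) p) = hevL _ _ (y 0) p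
      rw [hevL_map (shRv n v) _ (fun p => hev n p
        (Function.update (fun i => x (i + 1)) v (x (v + 1) + y (v + 1))) (fun i => y (i + 1))) _ _ p
        (fun u hu => (ih u hu).2 _ _)]
      have e1 : Function.update x (v + 1) (x (v + 1) + y (v + 1)) 0 = x 0 := by
        rw [Function.update_of_ne (by omega)]
      have e2 : (fun i => Function.update x (v + 1) (x (v + 1) + y (v + 1)) (i + 1))
          = Function.update (fun i => x (i + 1)) v (x (v + 1) + y (v + 1)) := by
        funext i
        simp [Function.update_apply]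
      rw [e1, e2]

theorem wf_m2 : ∀ (n : ℕ) (ds : List ℕ) (k : ℕ) (p : PT n), (wf n ds p → wf n ds (m2 n k p)) ∧
    ∀ x y, hev n (m2 n k p) x y = hev n p x y * 2 ^ k
  | 0, _, k, p => by
    refine ⟨fun _ => trivial, fun x y => ?_⟩
    show ((toZ p * (Int.ofNat (2 ^ k)) : ℤ) : ℝ) = (toZ p : ℝ) * 2 ^ k
    push_cast
    simp
  | n + 1, [], k, p => by
    refine ⟨fun h => absurd h (by simp [wf]), fun x y => ?_⟩
    have key : ∀ l : List (PT n), hevL (fun p => hev n p (fun i => x (i + 1)) (fun i => y (i + 1)))
        (x 0) (y 0) (List.map (m2 n k) l) = hevL (fun p => hev n p (fun i => x (i + 1))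
          (fun i => y (i + 1))) (x 0) (y 0) l * 2 ^ k := by
      intro l
      induction l with
      | nil => simp [hevL]
      | cons a l ih =>
        simp only [List.map_cons, hevL, List.length_map, ih, (wf_m2 n [] k a).2]
        ring
    exact key p
  | n + 1, d :: ds, k, p => by
    refine ⟨fun h => ⟨(List.length_map (m2 n k)).trans h.1, fun u hu => ?_⟩, fun x y => ?_⟩
    · obtain ⟨w, hw1, hw2⟩ := List.mem_map.mp (show u ∈ List.map (m2 n k) p from hu)
      rw [← hw2]
      exact (wf_m2 n ds k w).1 (h.2 w hw1)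
    · have key : ∀ l : List (PT n), hevL (fun p => hev n p (fun i => x (i + 1))
          (fun i => y (i + 1))) (x 0) (y 0) (List.map (m2 n k) l)
          = hevL (fun p => hev n p (fun i => x (i + 1)) (fun i => y (i + 1))) (x 0) (y 0) l
            * 2 ^ k := by
        intro l
        induction l with
        | nil => simp [hevL]
        | cons a l ih =>
          simp only [List.map_cons, hevL, List.length_map, ih, (wf_m2 n ds k a).2]
          ring
      exact key p

theorem wf_scLv : ∀ (n : ℕ) (ds : List ℕ) (v : ℕ) (p : PT n), v < n → wf n ds p →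
    wf n ds (scLv n v p) ∧ ∀ x y, hev n (scLv n v p) x y
      = hev n p x (Function.update y v (2 * y v))
  | 0, _, v, _, hv, _ => absurd hv (by omega)
  | n + 1, [], _, _, _, h => absurd h (by simp [wf])
  | n + 1, d :: ds, 0, p, _, hp => by
    refine ⟨⟨(length_scL (m2 n) p).trans hp.1,
      fun u hu => forall_scL (fun k a => (wf_m2 n ds k a).1) p hp.2 u hu⟩, ?_⟩
    intro x y
    have := hevL_scL (m2 n) (fun p => hev n p (fun i => x (i + 1)) (fun i => y (i + 1)))
      (fun k a => (wf_m2 n ds k a).2 _ _) (x 0) (y 0) p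
    show hevL _ (x 0) (y 0) (scL (m2 n) p) = hevL _ (x 0) _ p
    rw [this]
    simp
  | n + 1, d :: ds, v + 1, p, hv, hp => by
    have ih := fun u hu => wf_scLv n ds v u (by omega) (hp.2 u hu)
    refine ⟨⟨(List.length_map (scLv n v)).trans hp.1, ?_⟩, ?_⟩
    · intro u hu
      obtain ⟨w, hw1, hw2⟩ := List.mem_map.mp (show u ∈ List.map (scLv n v) p from hu)
      rw [← hw2]
      exact (ih w hw1).1
    · intro x y
      show hevL _ (x 0) (y 0) (List.map (scLv n v) p) = hevL _ (x 0) _ p
      rw [hevL_map (scLv n v) _ (fun p => hev n p (fun i => x (i + 1))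
        (Function.update (fun i => y (i + 1)) v (2 * y (v + 1)))) _ _ p
        (fun u hu => (ih u hu).2 _ _)]
      have e1 : Function.update y (v + 1) (2 * y (v + 1)) 0 = y 0 := by
        rw [Function.update_of_ne (by omega)]
      have e2 : (fun i => Function.update y (v + 1) (2 * y (v + 1)) (i + 1))
          = Function.update (fun i => y (i + 1)) v (2 * y (v + 1)) := by
        funext i
        simp [Function.update_apply]
      rw [e1, e2]

theorem wf_scRv : ∀ (n : ℕ) (ds : List ℕ) (v : ℕ) (p : PT n), v < n → wf n ds p →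
    wf n ds (scRv n v p) ∧ ∀ x y, hev n (scRv n v p) x y
      = hev n p (Function.update x v (2 * x v)) y
  | 0, _, v, _, hv, _ => absurd hv (by omega)
  | n + 1, [], _, _, _, h => absurd h (by simp [wf])
  | n + 1, d :: ds, 0, p, _, hp => by
    refine ⟨⟨(length_scR (m2 n) 0 p).trans hp.1,
      fun u hu => forall_scR (fun k a => (wf_m2 n ds k a).1) 0 p hp.2 u hu⟩, ?_⟩
    intro x y
    have := hevL_scR (m2 n) (fun p => hev n p (fun i => x (i + 1)) (fun i => y (i + 1)))
      (fun k a => (wf_m2 n ds k a).2 _ _) (x 0) (y 0) 0 p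
    show hevL _ (x 0) (y 0) (scR (m2 n) 0 p) = hevL _ _ (y 0) p
    rw [this]
    simp
  | n + 1, d :: ds, v + 1, p, hv, hp => by
    have ih := fun u hu => wf_scRv n ds v u (by omega) (hp.2 u hu)
    refine ⟨⟨(List.length_map (scRv n v)).trans hp.1, ?_⟩, ?_⟩
    · intro u hu
      obtain ⟨w, hw1, hw2⟩ := List.mem_map.mp (show u ∈ List.map (scRv n v) p from hu)
      rw [← hw2]
      exact (ih w hw1).1
    · intro x y
      show hevL _ (x 0) (y 0) (List.map (scRv n v) p) = hevL _ _ (y 0) p
      rw [hevL_map (scRv n v) _ (fun p => hev n p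
        (Function.update (fun i => x (i + 1)) v (2 * x (v + 1))) (fun i => y (i + 1))) _ _ p
        (fun u hu => (ih u hu).2 _ _)]
      have e1 : Function.update x (v + 1) (2 * x (v + 1)) 0 = x 0 := by
        rw [Function.update_of_ne (by omega)]
      have e2 : (fun i => Function.update x (v + 1) (2 * x (v + 1)) (i + 1))
          = Function.update (fun i => x (i + 1)) v (2 * x (v + 1)) := by
        funext i
        simp [Function.update_apply]
      rw [e1, e2]

theorem nn_sound : ∀ (n : ℕ) (p : PT n), nn n p = true → ∀ x y : ℕ → ℝ, (∀ i, 0 ≤ x i) →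
    (∀ i, 0 ≤ y i) → 0 ≤ hev n p x y
  | 0, p, h, x, y, _, _ => by
    have h' : (match toZ p with | Int.ofNat _ => true | Int.negSucc _ => false) = true := h
    show (0 : ℝ) ≤ (toZ p : ℝ)
    cases hz : toZ p with
    | ofNat a => simp
    | negSucc a => rw [hz] at h'; simp at h'
  | n + 1, p, h, x, y, hx, hy => by
    apply hevL_nonneg _ _ _ (hx 0) (hy 0)
    intro u hu
    have h1 : List.all p (nn n) = true := h
    exact nn_sound n u (List.all_eq_true.mp h1 u hu) _ _ (fun i => hx _) (fun i => hy _)

/-- all split variables are in range -/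
def Tree.ok (n : ℕ) : Tree → Bool
  | .leaf => true
  | .node v l r => Nat.blt v n && l.ok n && r.ok n
  | .far v l r => Nat.blt v n && l.ok n && r.ok n

theorem chkT_sound (n : ℕ) (ds : List ℕ) : ∀ (T : Tree) (p : PT n), T.ok n = true → wf n ds p →
    chkT n T p = true → ∀ x y : ℕ → ℝ, (∀ i, 0 ≤ x i) → (∀ i, 0 ≤ y i) → 0 ≤ hev n p x y
  | .leaf, p, _, _, h, x, y, hx, hy => nn_sound n p h x y hx hy
  | .node v l r, p, hok, hp, h, x, y, hx, hy => by
    simp only [Tree.ok, Bool.and_eq_true, Nat.blt_eq] at hok
    simp only [chkT, Bool.and_eq_true] at h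
    have hL := wf_shLv n ds v p hok.1.1 hp
    have hR := wf_shRv n ds v p hok.1.1 hp
    have hL' := wf_scLv n ds v _ hok.1.1 hL.1
    have hR' := wf_scRv n ds v _ hok.1.1 hR.1
    rcases le_total (x v) (y v) with hxy | hxy
    · have h1 := chkT_sound n ds l _ hok.1.2 hL'.1 h.1 x
        (Function.update y v ((y v - x v) / 2)) hx (by
        intro i
        by_cases hi : i = v
        · subst hi
          rw [Function.update_self]
          linarith
        · rw [Function.update_of_ne hi]; exact hy i)
      rw [hL'.2, hL.2] at h1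
      convert h1 using 2
      funext i
      by_cases hi : i = v
      · subst hi
        simp only [Function.update_self]
        ring
      · simp [Function.update_of_ne hi]
    · have h1 := chkT_sound n ds r _ hok.2 hR'.1 h.2
        (Function.update x v ((x v - y v) / 2)) y (by
        intro i
        by_cases hi : i = v
        · subst hi
          rw [Function.update_self]
          linarith
        · rw [Function.update_of_ne hi]; exact hx i) hy
      rw [hR'.2, hR.2] at h1
      convert h1 using 2
      funext i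
      by_cases hi : i = v
      · subst hi
        simp only [Function.update_self]
        ring
      · simp [Function.update_of_ne hi]
  | .far v l r, p, hok, hp, h, x, y, hx, hy => by
    simp only [Tree.ok, Bool.and_eq_true, Nat.blt_eq] at hok
    simp only [chkT, Bool.and_eq_true] at h
    have hL := wf_shLv n ds v p hok.1.1 hp
    have hR := wf_shRv n ds v p hok.1.1 hp
    rcases le_total (x v) (y v) with hxy | hxy
    · have h1 := chkT_sound n ds l _ hok.1.2 hL.1 h.1 x (Function.update y v (y v - x v)) hx (by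
        intro i
        by_cases hi : i = v
        · subst hi; simpa using hxy
        · rw [Function.update_of_ne hi]; exact hy i)
      rw [hL.2] at h1
      convert h1 using 2
      funext i
      by_cases hi : i = v
      · subst hi
        simp only [Function.update_self]
        ring
      · simp [Function.update_of_ne hi]
    · have h1 := chkT_sound n ds r _ hok.2 hR.1 h.2 (Function.update x v (x v - y v)) y (by
        intro i
        by_cases hi : i = v
        · subst hi; simpa using hxy
        · rw [Function.update_of_ne hi]; exact hx i) hy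
      rw [hR.2] at h1
      convert h1 using 2
      funext i
      by_cases hi : i = v
      · subst hi
        simp only [Function.update_self]
        ring
      · simp [Function.update_of_ne hi]

theorem wf_shAll (n : ℕ) (ds : List ℕ) (p : PT n) (hp : wf n ds p) : ∀ k : ℕ, k ≤ n →
    wf n ds (shAll n p k) ∧ ∀ x y : ℕ → ℝ, (∀ i, k ≤ i → y i = 1) → (∀ i, i < k → y i = 1 - x i) →
      hev n (shAll n p k) x y = hev n p x (fun _ => 1)
  | 0, _ => ⟨hp, fun x y h1 _ => by
      have : y = fun _ => 1 := by funext i; exact h1 i (Nat.zero_le i)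
      rw [this]; rfl⟩
  | k + 1, hk => by
    have ih := wf_shAll n ds p hp k (by omega)
    have h1 := wf_shLv n ds k (shAll n p k) (by omega) ih.1
    refine ⟨h1.1, ?_⟩
    intro x y hy1 hy2
    show hev n (shLv n k (shAll n p k)) x y = _
    rw [h1.2]
    apply ih.2
    · intro i hi
      by_cases hik : i = k
      · subst hik
        rw [Function.update_self, hy2 i (by omega)]
        ring
      · rw [Function.update_of_ne hik]
        exact hy1 i (by omega)
    · intro i hi
      rw [Function.update_of_ne (by omega)]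
      exact hy2 i (by omega)

theorem pz_wf : ∀ (n : ℕ) (ds : List ℕ), n ≤ ds.length →
    wf n ds (pz n ds) ∧ ∀ x y, hev n (pz n ds) x y = 0
  | 0, _, _ => ⟨trivial, fun _ _ => by simp [hev, pz, toZ]⟩
  | n + 1, [], h => absurd h (by simp)
  | n + 1, d :: ds, h => by
    have ih := pz_wf n ds (by simpa using h)
    refine ⟨⟨List.length_replicate, fun u hu => ?_⟩, fun x y => ?_⟩
    · have : u = pz n ds := List.eq_of_mem_replicate hu
      rw [this]; exact ih.1
    · show hevL _ (x 0) (y 0) (List.replicate d (pz n ds)) = 0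
      induction d with
      | zero => rfl
      | succ d ihd =>
        rw [List.replicate_succ, hevL]
        rw [ihd (by simpa using h), ih.2]
        ring

theorem pad_wf : ∀ (n : ℕ) (ds : List ℕ) (p : PT n), n ≤ ds.length → fits n ds p = true →
    wf n ds (pad n ds p) ∧ ∀ x : ℕ → ℝ, hev n (pad n ds p) x (fun _ => 1) = ev n p x
  | 0, _, p, _, _ => ⟨trivial, fun _ => rfl⟩
  | n + 1, [], _, h, _ => absurd h (by simp)
  | n + 1, d :: ds, p, h, hf => by
    have hlen : n ≤ ds.length := by simpa using h
    have hf' : (Nat.ble (List.length p) d && List.all p (fits n ds)) = true := hf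
    rw [Bool.and_eq_true] at hf'
    have hpl : List.length p ≤ d := Nat.ble_eq.mp hf'.1
    have hpa := List.all_eq_true.mp hf'.2
    have ih := fun u hu => pad_wf n ds u hlen (hpa u hu)
    have hz := pz_wf n ds hlen
    refine ⟨⟨length_padL _ _ _, ?_⟩, ?_⟩
    · have key : ∀ (d : ℕ) (l : List (PT n)), (∀ u ∈ l, wf n ds u) →
          ∀ u ∈ padL (pz n ds) d l, wf n ds u := by
        intro d
        induction d with
        | zero => intro l _ u hu; simp [padL] at hu
        | succ d ihd =>
          intro l hl u hu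
          cases l with
          | nil =>
            rcases List.mem_cons.mp (show u ∈ pz n ds :: padL (pz n ds) d [] from hu) with h | h
            · rw [h]; exact hz.1
            · exact ihd [] (by simp) u h
          | cons a l =>
            rcases List.mem_cons.mp (show u ∈ a :: padL (pz n ds) d l from hu) with h | h
            · rw [h]; exact hl a (by simp)
            · exact ihd l (fun u hu => hl u (by simp [hu])) u h
      intro u hu
      apply key d (List.map (pad n ds) p) _ u hu
      intro w hw
      obtain ⟨w', hw1, hw2⟩ := List.mem_map.mp hw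
      rw [← hw2]
      exact (ih w' hw1).1
    · intro x
      show hevL _ (x 0) 1 (padL (pz n ds) d (List.map (pad n ds) p)) = evL _ (x 0) p
      rw [hevL_padL (pz n ds) _ (x 0) (hz.2 _ _) d _
        ((List.length_map (pad n ds)).le.trans hpl)]
      have key : ∀ l : List (PT n), (∀ u ∈ l, List.Mem u p) →
          evL (fun p => hev n p (fun i => x (i + 1)) (fun _ => 1)) (x 0) (List.map (pad n ds) l)
          = evL (fun p => ev n p (fun i => x (i + 1))) (x 0) l := by
        intro l
        induction l with
        | nil => intro _; rfl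
        | cons a l ihl =>
          intro hl
          rw [List.map_cons, evL, evL, ihl (fun u hu => hl u (by simp [hu])),
            (ih a (hl a (by simp))).2]
      exact key p (fun u hu => hu)

/-- Soundness of the checker. -/
theorem chk_sound (n : ℕ) (ds : List ℕ) (T : Tree) (p : PT n) (hT : T.ok n = true)
    (h : chk n ds T p = true) (x : ℕ → ℝ) (hx0 : ∀ i, 0 ≤ x i) (hx1 : ∀ i, x i ≤ 1) :
    0 ≤ ev n p x := by
  simp only [chk, Bool.and_eq_true, Nat.ble_eq] at h
  obtain ⟨⟨h1, h2⟩, h3⟩ := h
  have hp := pad_wf n ds p h1 h2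
  have hs := wf_shAll n ds _ hp.1 n le_rfl
  rw [← hp.2]
  have hpos := chkT_sound n ds T _ hT hs.1 h3 x (fun i => if i < n then 1 - x i else 1) hx0 (by
    intro i
    show 0 ≤ if i < n then 1 - x i else 1
    split_ifs
    · linarith [hx1 i]
    · norm_num)
  rwa [hs.2 x _ (fun i hi => by simp [Nat.not_lt.mpr hi]) (fun i hi => by simp [hi])] at hpos

/-- Soundness for expressions: `0 ≤ e` on the unit box. -/
theorem chk_sound_expr (n : ℕ) (ds : List ℕ) (T : Tree) (e : Ex)
    (h : (T.ok n && e.vok n && chk n ds T (e.toP n)) = true) (x : ℕ → ℝ)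
    (hx0 : ∀ i, 0 ≤ x i) (hx1 : ∀ i, x i ≤ 1) : 0 ≤ e.den x := by
  simp only [Bool.and_eq_true] at h
  rw [← Ex.ev_toP n x e h.1.2]
  exact chk_sound n ds T _ h.1.1 h.2 x hx0 hx1

end Vale.Agent.Lib.P154.BoxPos
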