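import Vale.Agent.Lib.P154.BoxPos

/-!
Faster kernel evaluation for the positivity checker of `BoxPos`: coefficients are split into
positive and negative parts, lists of naturals are processed with explicit recursors.

* `qchk n ds T p` : the fast checker, `qchk_sound`, `qchk_sound_expr` soundness.
-/

namespace Vale.Agent.Lib.P154.BoxPos

/-- nested dense polynomials with natural coefficients -/
def QT : ℕ → Type
  | 0 => ℕ
  | n + 1 => List (QT n)

section
variable {α β : Type}

noncomputable def qaddL (f : α → α → α) : List α → List α → List α :=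
  List.rec (motive := fun _ => List α → List α) (fun m => m)
    (fun a l ih m => List.rec (motive := fun _ => List α) (a :: l) (fun b m _ => f a b :: ih m) m)

noncomputable def qgoL (f : α → α → α) : List α → α → List α :=
  List.rec (motive := fun _ => α → List α) (fun c => [c]) (fun b _ ih c => f c b :: ih b)

noncomputable def qshR (f : α → α → α) : List α → List α :=
  List.rec (motive := fun _ => List α) [] (fun a _ ih => qgoL f ih a)

noncomputable def qrev (l : List α) : List α :=
  List.rec (motive := fun _ => List α → List α) (fun m => m) (fun a _ ih m => ih (a :: m)) l []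

noncomputable def qshL (f : α → α → α) (l : List α) : List α := qrev (qshR f (qrev l))

noncomputable def qmap (g : α → α) : List α → List α :=
  List.rec (motive := fun _ => List α) [] (fun a _ ih => g a :: ih)

noncomputable def qscR (g : ℕ → α → α) (l : List α) : List α :=
  List.rec (motive := fun _ => ℕ → List α) (fun _ => [])
    (fun a _ ih k => g k a :: ih (Nat.succ k)) l 0

noncomputable def qlen (l : List α) : ℕ :=
  List.rec (motive := fun _ => ℕ) 0 (fun _ _ ih => Nat.succ ih) l

noncomputable def qscLg (g : ℕ → α → α) : List α → ℕ → List α :=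
  List.rec (motive := fun _ => ℕ → List α) (fun _ => [])
    (fun a _ ih k => g k a :: ih (Nat.sub k 1))

noncomputable def qscL (g : ℕ → α → α) (l : List α) : List α := qscLg g l (Nat.sub (qlen l) 1)

theorem qmap_eq (g : α → α) : ∀ l : List α, qmap g l = List.map g l
  | [] => rfl
  | a :: l => by
    show g a :: qmap g l = _
    rw [qmap_eq g l]; rfl

theorem qlen_eq : ∀ l : List α, qlen l = l.length
  | [] => rfl
  | a :: l => by
    show Nat.succ (qlen l) = _
    rw [qlen_eq l]; rfl

theorem qrev_eq (l : List α) : qrev l = l.reverse := by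
  have key : ∀ l m : List α, List.rec (motive := fun _ => List α → List α) (fun m => m)
      (fun a _ ih m => ih (a :: m)) l m = l.reverse ++ m := by
    intro l
    induction l with
    | nil => intro m; rfl
    | cons a l ih => intro m; simpa using ih (a :: m)
  have := key l []
  rw [List.append_nil] at this
  exact this

theorem map_qaddL (f : α → α → α) (f' : β → β → β) (g : α → β)
    (h : ∀ a b, g (f a b) = f' (g a) (g b)) :
    ∀ l m : List α, List.map g (qaddL f l m) = addL f' (List.map g l) (List.map g m)
  | [], m => by simp [qaddL, addL]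
  | a :: l, [] => by simp [qaddL, addL]
  | a :: l, b :: m => by
    show g (f a b) :: List.map g (qaddL f l m) = _
    rw [map_qaddL f f' g h l m, h]
    rfl

theorem map_qgoL (f : α → α → α) (f' : β → β → β) (g : α → β)
    (h : ∀ a b, g (f a b) = f' (g a) (g b)) :
    ∀ (l : List α) (c : α), List.map g (qgoL f l c) = goL f' (g c) (List.map g l)
  | [], c => by simp [qgoL, goL]
  | b :: l, c => by
    show g (f c b) :: List.map g (qgoL f l b) = _
    rw [map_qgoL f f' g h l b, h]
    rfl

theorem map_qshR (f : α → α → α) (f' : β → β → β) (g : α → β)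
    (h : ∀ a b, g (f a b) = f' (g a) (g b)) :
    ∀ l : List α, List.map g (qshR f l) = shR f' (List.map g l)
  | [] => rfl
  | a :: l => by
    show List.map g (qgoL f (qshR f l) a) = _
    rw [map_qgoL f f' g h, map_qshR f f' g h l]
    rfl

theorem map_qshL (f : α → α → α) (f' : β → β → β) (g : α → β)
    (h : ∀ a b, g (f a b) = f' (g a) (g b)) (l : List α) :
    List.map g (qshL f l) = shL f' (List.map g l) := by
  rw [qshL, qrev_eq, qrev_eq, List.map_reverse, map_qshR f f' g h, List.map_reverse]
  rfl

theorem map_qscR (m : ℕ → α → α) (m' : ℕ → β → β) (g : α → β)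
    (h : ∀ k a, g (m k a) = m' k (g a)) (l : List α) :
    List.map g (qscR m l) = scR m' 0 (List.map g l) := by
  have key : ∀ (l : List α) (k : ℕ), List.map g (List.rec (motive := fun _ => ℕ → List α)
      (fun _ => []) (fun a _ ih k => m k a :: ih (Nat.succ k)) l k) = scR m' k (List.map g l) := by
    intro l
    induction l with
    | nil => intro k; rfl
    | cons a l ih =>
      intro k
      simp only [List.map_cons, scR, h]
      rw [← ih (k + 1)]
  exact key l 0

theorem map_qscL (m : ℕ → α → α) (m' : ℕ → β → β) (g : α → β)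
    (h : ∀ k a, g (m k a) = m' k (g a)) (l : List α) :
    List.map g (qscL m l) = scL m' (List.map g l) := by
  have key : ∀ (l : List α), List.map g (qscLg m l (l.length - 1)) = scL m' (List.map g l) := by
    intro l
    induction l with
    | nil => rfl
    | cons a l ih =>
      show g (m (l.length + 1 - 1) a) :: List.map g (qscLg m l (l.length + 1 - 1 - 1)) = _
      rw [Nat.add_sub_cancel, ih, h]
      simp [scL]
  rw [qscL, qlen_eq]
  exact key l

end

/-- addition -/
noncomputable def qadd : (n : ℕ) → QT n → QT n → QT n :=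
  Nat.rec (motive := fun n => QT n → QT n → QT n) Nat.add (fun _ ih => qaddL ih)

/-- multiplication by powers of two -/
noncomputable def qm2 : (n : ℕ) → ℕ → QT n → QT n :=
  Nat.rec (motive := fun n => ℕ → QT n → QT n) (fun k a => Nat.shiftLeft a k)
    (fun _ ih k => qmap (ih k))

/-- apply `F` in the variable `v` -/
noncomputable def qat (F : (n : ℕ) → QT (n + 1) → QT (n + 1)) : (n : ℕ) → ℕ → QT n → QT n :=
  Nat.rec (motive := fun n => ℕ → QT n → QT n) (fun _ a => a)
    (fun n ih v => Nat.rec (motive := fun _ => QT (n + 1) → QT (n + 1)) (F n)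
      (fun v' _ => qmap (ih v')) v)

noncomputable def qFL (n : ℕ) (l : QT (n + 1)) : QT (n + 1) := qscL (qm2 n) (qshL (qadd n) l)
noncomputable def qFR (n : ℕ) (l : QT (n + 1)) : QT (n + 1) := qscR (qm2 n) (qshR (qadd n) l)
noncomputable def qGL (n : ℕ) (l : QT (n + 1)) : QT (n + 1) := qshL (qadd n) l
noncomputable def qGR (n : ℕ) (l : QT (n + 1)) : QT (n + 1) := qshR (qadd n) l

/-- coefficientwise `Q ≤ P` -/
noncomputable def qle : (n : ℕ) → QT n → QT n → Bool :=
  Nat.rec (motive := fun n => QT n → QT n → Bool) (fun a b => Nat.ble b a)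
    (fun n ih => List.rec (motive := fun _ => List (QT n) → Bool) (fun _ => true)
      (fun a _ ihl m => List.rec (motive := fun _ => Bool) false
        (fun b m' _ => and (ih a b) (ihl m')) m))

/-- the checker -/
noncomputable def qchkT (n : ℕ) : Tree → QT n → QT n → Bool :=
  Tree.rec (motive := fun _ => QT n → QT n → Bool) (qle n)
    (fun v _ _ ihl ihr P Q => and (ihl (qat qFL n v P) (qat qFL n v Q))
      (ihr (qat qFR n v P) (qat qFR n v Q)))
    (fun v _ _ ihl ihr P Q => and (ihl (qat qGL n v P) (qat qGL n v Q))
      (ihr (qat qGR n v P) (qat qGR n v Q)))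

noncomputable def qshAll (n : ℕ) (p : QT n) : ℕ → QT n :=
  Nat.rec (motive := fun _ => QT n) p (fun k ih => qat qGL n k ih)

/-- positive part -/
def qpos : (n : ℕ) → PT n → QT n
  | 0, a => match toZ a with
    | Int.ofNat k => k
    | Int.negSucc _ => (0 : ℕ)
  | n + 1, l => List.map (qpos n) l

/-- negative part -/
def qneg : (n : ℕ) → PT n → QT n
  | 0, a => match toZ a with
    | Int.ofNat _ => (0 : ℕ)
    | Int.negSucc k => Nat.succ k
  | n + 1, l => List.map (qneg n) l

/-- the complete fast checker -/
noncomputable def qchk (n : ℕ) (ds : List ℕ) (T : Tree) (p : PT n) : Bool :=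
  Nat.ble n ds.length && fits n ds p &&
    qchkT n T (qshAll n (qpos n (pad n ds p)) n) (qshAll n (qneg n (pad n ds p)) n)

/-- inclusion of natural coefficients -/
def toPT : (n : ℕ) → QT n → PT n
  | 0, a => Int.ofNat a
  | n + 1, l => List.map (toPT n) l

theorem toPT_qadd : ∀ (n : ℕ) (p q : QT n), toPT n (qadd n p q) = add n (toPT n p) (toPT n q)
  | 0, _, _ => rfl
  | n + 1, p, q => map_qaddL (qadd n) (add n) (toPT n) (toPT_qadd n) p q

theorem toPT_qm2 : ∀ (n k : ℕ) (p : QT n), toPT n (qm2 n k p) = m2 n k (toPT n p)
  | 0, k, p => by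
    have key : ∀ a : ℕ, Int.ofNat (Nat.shiftLeft a k) = Int.mul (Int.ofNat a) (Int.ofNat (Nat.pow 2 k)) := by
      intro a
      have h1 : Nat.shiftLeft a k = a * 2 ^ k := Nat.shiftLeft_eq a k
      rw [h1]
      rfl
    exact key p
  | n + 1, k, p => by
    have key : ∀ l : List (QT n),
        List.map (toPT n) (qmap (qm2 n k) l) = List.map (m2 n k) (List.map (toPT n) l) := by
      intro l
      rw [qmap_eq, List.map_map, List.map_map]
      apply List.map_congr_left
      intro a _
      exact toPT_qm2 n k a
    exact key p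

theorem toPT_qFL (n : ℕ) (p : QT (n + 1)) :
    toPT (n + 1) (qFL n p) = scLv (n + 1) 0 (shLv (n + 1) 0 (toPT (n + 1) p)) := by
  have key : ∀ l : List (QT n), List.map (toPT n) (qscL (qm2 n) (qshL (qadd n) l))
      = scL (m2 n) (shL (add n) (List.map (toPT n) l)) := by
    intro l
    rw [map_qscL (qm2 n) (m2 n) (toPT n) (toPT_qm2 n),
      map_qshL (qadd n) (add n) (toPT n) (toPT_qadd n)]
  exact key p

theorem toPT_qFR (n : ℕ) (p : QT (n + 1)) :
    toPT (n + 1) (qFR n p) = scRv (n + 1) 0 (shRv (n + 1) 0 (toPT (n + 1) p)) := by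
  have key : ∀ l : List (QT n), List.map (toPT n) (qscR (qm2 n) (qshR (qadd n) l))
      = scR (m2 n) 0 (shR (add n) (List.map (toPT n) l)) := by
    intro l
    rw [map_qscR (qm2 n) (m2 n) (toPT n) (toPT_qm2 n),
      map_qshR (qadd n) (add n) (toPT n) (toPT_qadd n)]
  exact key p

theorem toPT_qGL (n : ℕ) (p : QT (n + 1)) :
    toPT (n + 1) (qGL n p) = shLv (n + 1) 0 (toPT (n + 1) p) :=
  map_qshL (qadd n) (add n) (toPT n) (toPT_qadd n) p

theorem toPT_qGR (n : ℕ) (p : QT (n + 1)) :
    toPT (n + 1) (qGR n p) = shRv (n + 1) 0 (toPT (n + 1) p) :=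
  map_qshR (qadd n) (add n) (toPT n) (toPT_qadd n) p

theorem toPT_qat (F : (n : ℕ) → QT (n + 1) → QT (n + 1)) (G : (n : ℕ) → ℕ → PT n → PT n)
    (h0 : ∀ v a, G 0 v a = a) (h1 : ∀ n p, toPT (n + 1) (F n p) = G (n + 1) 0 (toPT (n + 1) p))
    (h2 : ∀ n v (p : PT (n + 1)), G (n + 1) (v + 1) p = List.map (G n v) p) :
    ∀ (n v : ℕ) (p : QT n), toPT n (qat F n v p) = G n v (toPT n p)
  | 0, v, p => (h0 v _).symm
  | n + 1, 0, p => h1 n p
  | n + 1, v + 1, p => by
    rw [h2]
    have key : ∀ l : List (QT n), List.map (toPT n) (qmap (qat F n v) l)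
        = List.map (G n v) (List.map (toPT n) l) := by
      intro l
      rw [qmap_eq, List.map_map, List.map_map]
      apply List.map_congr_left
      intro a _
      exact toPT_qat F G h0 h1 h2 n v a
    exact key p

theorem toPT_L (n v : ℕ) (p : QT n) :
    toPT n (qat qFL n v p) = scLv n v (shLv n v (toPT n p)) := by
  refine toPT_qat qFL (fun n v p => scLv n v (shLv n v p)) (fun _ _ => rfl) toPT_qFL ?_ n v p
  intro n v p
  have key : ∀ l : List (PT n), List.map (scLv n v) (List.map (shLv n v) l)
      = List.map (fun p => scLv n v (shLv n v p)) l := by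
    intro l
    rw [List.map_map]
    rfl
  exact key p

theorem toPT_R (n v : ℕ) (p : QT n) :
    toPT n (qat qFR n v p) = scRv n v (shRv n v (toPT n p)) := by
  refine toPT_qat qFR (fun n v p => scRv n v (shRv n v p)) (fun _ _ => rfl) toPT_qFR ?_ n v p
  intro n v p
  have key : ∀ l : List (PT n), List.map (scRv n v) (List.map (shRv n v) l)
      = List.map (fun p => scRv n v (shRv n v p)) l := by
    intro l
    rw [List.map_map]
    rfl
  exact key p

theorem toPT_GL (n v : ℕ) (p : QT n) : toPT n (qat qGL n v p) = shLv n v (toPT n p) :=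
  toPT_qat qGL (fun n v p => shLv n v p) (fun _ _ => rfl) toPT_qGL (fun _ _ _ => rfl) n v p

theorem toPT_GR (n v : ℕ) (p : QT n) : toPT n (qat qGR n v p) = shRv n v (toPT n p) :=
  toPT_qat qGR (fun n v p => shRv n v p) (fun _ _ => rfl) toPT_qGR (fun _ _ _ => rfl) n v p

theorem toPT_shAll (n : ℕ) (p : QT n) : ∀ k, toPT n (qshAll n p k) = shAll n (toPT n p) k
  | 0 => rfl
  | k + 1 => by
    show toPT n (qat qGL n k (qshAll n p k)) = shLv n k (shAll n (toPT n p) k)
    rw [toPT_GL, toPT_shAll n p k]

theorem hevL_mono {α : Type} (v : α → ℝ) (x y : ℝ) (hx : 0 ≤ x) (hy : 0 ≤ y) (w : α → ℝ) :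
    ∀ (l m : List α), l.length = m.length → (∀ i (h : i < l.length) (h' : i < m.length),
      w (m[i]) ≤ v (l[i])) → hevL w x y m ≤ hevL v x y l
  | [], m, h, _ => by
    have := List.length_eq_zero_iff.mp h.symm
    subst this
    simp [hevL]
  | a :: l, [], h, _ => absurd h (by simp)
  | a :: l, b :: m, h, hle => by
    have hlen : l.length = m.length := by simpa using h
    have h1 : w b ≤ v a := hle 0 (by simp) (by simp)
    have h2 := hevL_mono v x y hx hy w l m hlen (fun i hi hi' => hle (i + 1) (by simpa using hi)
      (by simpa using hi'))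
    simp only [hevL, hlen]
    gcongr

theorem qle_sound : ∀ (n : ℕ) (ds : List ℕ) (P Q : QT n), qle n P Q = true →
    wf n ds (toPT n P) → wf n ds (toPT n Q) → ∀ x y : ℕ → ℝ, (∀ i, 0 ≤ x i) → (∀ i, 0 ≤ y i) →
    hev n (toPT n Q) x y ≤ hev n (toPT n P) x y
  | 0, _, P, Q, h, _, _, x, y, _, _ => by
    have key : ∀ a b : ℕ, Nat.ble b a = true →
        (((Int.ofNat b) : ℤ) : ℝ) ≤ (((Int.ofNat a) : ℤ) : ℝ) := by
      intro a b hab
      have h2 : b ≤ a := Nat.ble_eq.mp hab
      simpa using h2
    exact key P Q h
  | n + 1, [], _, _, _, h, _, _, _, _, _ => absurd h (by simp [wf])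
  | n + 1, d :: ds, P, Q, h, hP, hQ, x, y, hx, hy => by
    have key : ∀ (P Q : List (QT n)), qle (n + 1) P Q = true → P.length = Q.length →
        (∀ u ∈ P, wf n ds (toPT n u)) → (∀ u ∈ Q, wf n ds (toPT n u)) →
        hevL (fun p => hev n p (fun i => x (i + 1)) (fun i => y (i + 1))) (x 0) (y 0)
          (List.map (toPT n) Q)
        ≤ hevL (fun p => hev n p (fun i => x (i + 1)) (fun i => y (i + 1))) (x 0) (y 0)
          (List.map (toPT n) P) := by
      intro P
      induction P with
      | nil =>
        intro Q _ hl _ _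
        have := List.length_eq_zero_iff.mp hl.symm
        subst this
        simp [hevL]
      | cons a P ih =>
        intro Q hq hl hPa hQa
        cases Q with
        | nil => simp at hl
        | cons b Q =>
          have hq' : (qle n a b && qle (n + 1) P Q) = true := hq
          rw [Bool.and_eq_true] at hq'
          have hlen : P.length = Q.length := by simpa using hl
          have h1 := qle_sound n ds a b hq'.1 (hPa a (by simp)) (hQa b (by simp))
            (fun i => x (i + 1)) (fun i => y (i + 1)) (fun i => hx _) (fun i => hy _)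
          have h2 := ih Q hq'.2 hlen (fun u hu => hPa u (by simp [hu]))
            (fun u hu => hQa u (by simp [hu]))
          have hx0 := hx 0
          have hy0 := hy 0
          simp only [List.map_cons, hevL, List.length_map, hlen]
          gcongr
    have hl : List.length P = d := (List.length_map (toPT n)).symm.trans hP.1
    have hl' : List.length Q = d := (List.length_map (toPT n)).symm.trans hQ.1
    refine key P Q h (hl.trans hl'.symm) ?_ ?_
    · intro u hu
      exact hP.2 _ (List.mem_map.mpr ⟨u, hu, rfl⟩)
    · intro u hu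
      exact hQ.2 _ (List.mem_map.mpr ⟨u, hu, rfl⟩)

theorem qchkT_sound (n : ℕ) (ds : List ℕ) : ∀ (T : Tree) (P Q : QT n), T.ok n = true →
    wf n ds (toPT n P) → wf n ds (toPT n Q) →
    qchkT n T P Q = true → ∀ x y : ℕ → ℝ, (∀ i, 0 ≤ x i) → (∀ i, 0 ≤ y i) →
      hev n (toPT n Q) x y ≤ hev n (toPT n P) x y
  | .leaf, P, Q, _, hP, hQ, h, x, y, hx, hy => qle_sound n ds P Q h hP hQ x y hx hy
  | .node v l r, P, Q, hok, hP, hQ, h, x, y, hx, hy => by
    simp only [Tree.ok, Bool.and_eq_true, Nat.blt_eq] at hok
    have h' : (qchkT n l (qat qFL n v P) (qat qFL n v Q)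
      && qchkT n r (qat qFR n v P) (qat qFR n v Q)) = true := h
    rw [Bool.and_eq_true] at h'
    have hPL := wf_shLv n ds v _ hok.1.1 hP
    have hQL := wf_shLv n ds v _ hok.1.1 hQ
    have hPR := wf_shRv n ds v _ hok.1.1 hP
    have hQR := wf_shRv n ds v _ hok.1.1 hQ
    have hPL' := wf_scLv n ds v _ hok.1.1 hPL.1
    have hQL' := wf_scLv n ds v _ hok.1.1 hQL.1
    have hPR' := wf_scRv n ds v _ hok.1.1 hPR.1
    have hQR' := wf_scRv n ds v _ hok.1.1 hQR.1
    rcases le_total (x v) (y v) with hxy | hxy
    · have h1 := qchkT_sound n ds l _ _ hok.1.2 (by rw [toPT_L]; exact hPL'.1)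
        (by rw [toPT_L]; exact hQL'.1) h'.1 x
        (Function.update y v ((y v - x v) / 2)) hx (by
        intro i
        by_cases hi : i = v
        · subst hi
          rw [Function.update_self]
          linarith
        · rw [Function.update_of_ne hi]; exact hy i)
      rw [toPT_L, toPT_L, hPL'.2, hQL'.2, hPL.2, hQL.2] at h1
      have e : Function.update (Function.update (Function.update y v ((y v - x v) / 2)) v
          (2 * Function.update y v ((y v - x v) / 2) v)) v
          (x v + Function.update (Function.update y v ((y v - x v) / 2)) v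
            (2 * Function.update y v ((y v - x v) / 2) v) v) = y := by
        funext i
        by_cases hi : i = v
        · subst hi
          simp only [Function.update_self]
          ring
        · simp [Function.update_of_ne hi]
      rw [e] at h1
      exact h1
    · have h1 := qchkT_sound n ds r _ _ hok.2 (by rw [toPT_R]; exact hPR'.1)
        (by rw [toPT_R]; exact hQR'.1) h'.2
        (Function.update x v ((x v - y v) / 2)) y (by
        intro i
        by_cases hi : i = v
        · subst hi
          rw [Function.update_self]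
          linarith
        · rw [Function.update_of_ne hi]; exact hx i) hy
      rw [toPT_R, toPT_R, hPR'.2, hQR'.2, hPR.2, hQR.2] at h1
      have e : Function.update (Function.update (Function.update x v ((x v - y v) / 2)) v
          (2 * Function.update x v ((x v - y v) / 2) v)) v
          (Function.update (Function.update x v ((x v - y v) / 2)) v
            (2 * Function.update x v ((x v - y v) / 2) v) v + y v) = x := by
        funext i
        by_cases hi : i = v
        · subst hi
          simp only [Function.update_self]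
          ring
        · simp [Function.update_of_ne hi]
      rw [e] at h1
      exact h1
  | .far v l r, P, Q, hok, hP, hQ, h, x, y, hx, hy => by
    simp only [Tree.ok, Bool.and_eq_true, Nat.blt_eq] at hok
    have h' : (qchkT n l (qat qGL n v P) (qat qGL n v Q)
      && qchkT n r (qat qGR n v P) (qat qGR n v Q)) = true := h
    rw [Bool.and_eq_true] at h'
    have hPL := wf_shLv n ds v _ hok.1.1 hP
    have hQL := wf_shLv n ds v _ hok.1.1 hQ
    have hPR := wf_shRv n ds v _ hok.1.1 hP
    have hQR := wf_shRv n ds v _ hok.1.1 hQ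
    rcases le_total (x v) (y v) with hxy | hxy
    · have h1 := qchkT_sound n ds l _ _ hok.1.2 (by rw [toPT_GL]; exact hPL.1)
        (by rw [toPT_GL]; exact hQL.1) h'.1 x
        (Function.update y v (y v - x v)) hx (by
        intro i
        by_cases hi : i = v
        · subst hi; simpa using hxy
        · rw [Function.update_of_ne hi]; exact hy i)
      rw [toPT_GL, toPT_GL, hPL.2, hQL.2] at h1
      have e : Function.update (Function.update y v (y v - x v)) v
          (x v + Function.update y v (y v - x v) v) = y := by
        funext i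
        by_cases hi : i = v
        · subst hi
          simp only [Function.update_self]
          ring
        · simp [Function.update_of_ne hi]
      rw [e] at h1
      exact h1
    · have h1 := qchkT_sound n ds r _ _ hok.2 (by rw [toPT_GR]; exact hPR.1)
        (by rw [toPT_GR]; exact hQR.1) h'.2 (Function.update x v (x v - y v)) y (by
        intro i
        by_cases hi : i = v
        · subst hi; simpa using hxy
        · rw [Function.update_of_ne hi]; exact hx i) hy
      rw [toPT_GR, toPT_GR, hPR.2, hQR.2] at h1
      have e : Function.update (Function.update x v (x v - y v)) v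
          (Function.update x v (x v - y v) v + y v) = x := by
        funext i
        by_cases hi : i = v
        · subst hi
          simp only [Function.update_self]
          ring
        · simp [Function.update_of_ne hi]
      rw [e] at h1
      exact h1

theorem wf_posneg : ∀ (n : ℕ) (ds : List ℕ) (p : PT n), wf n ds p →
    wf n ds (toPT n (qpos n p)) ∧ wf n ds (toPT n (qneg n p)) ∧ ∀ x y,
      hev n p x y = hev n (toPT n (qpos n p)) x y - hev n (toPT n (qneg n p)) x y
  | 0, _, p, _ => by
    refine ⟨trivial, trivial, fun x y => ?_⟩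
    show (toZ p : ℝ) = ((Int.ofNat (match toZ p with
      | Int.ofNat k => k
      | Int.negSucc _ => (0 : ℕ)) : ℤ) : ℝ) - ((Int.ofNat (match toZ p with
      | Int.ofNat _ => (0 : ℕ)
      | Int.negSucc k => Nat.succ k) : ℤ) : ℝ)
    cases toZ p with
    | ofNat a => simp
    | negSucc a => simp
  | n + 1, [], _, h => absurd h (by simp [wf])
  | n + 1, d :: ds, p, hp => by
    have ih := fun u hu => wf_posneg n ds u (hp.2 u hu)
    refine ⟨⟨?_, ?_⟩, ⟨?_, ?_⟩, ?_⟩
    · exact ((List.length_map (toPT n)).trans (List.length_map (qpos n))).trans hp.1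
    · intro u hu
      obtain ⟨w, hw1, hw2⟩ := List.mem_map.mp
        (show u ∈ List.map (toPT n) (List.map (qpos n) p) from hu)
      obtain ⟨z, hz1, hz2⟩ := List.mem_map.mp hw1
      rw [← hw2, ← hz2]
      exact (ih z hz1).1
    · exact ((List.length_map (toPT n)).trans (List.length_map (qneg n))).trans hp.1
    · intro u hu
      obtain ⟨w, hw1, hw2⟩ := List.mem_map.mp
        (show u ∈ List.map (toPT n) (List.map (qneg n) p) from hu)
      obtain ⟨z, hz1, hz2⟩ := List.mem_map.mp hw1
      rw [← hw2, ← hz2]
      exact (ih z hz1).2.1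
    · intro x y
      have key : ∀ l : List (PT n), (∀ u ∈ l, List.Mem u p) →
          hevL (fun p => hev n p (fun i => x (i + 1)) (fun i => y (i + 1))) (x 0) (y 0) l
          = hevL (fun p => hev n p (fun i => x (i + 1)) (fun i => y (i + 1))) (x 0) (y 0)
              (List.map (toPT n) (List.map (qpos n) l))
            - hevL (fun p => hev n p (fun i => x (i + 1)) (fun i => y (i + 1))) (x 0) (y 0)
              (List.map (toPT n) (List.map (qneg n) l)) := by
        intro l
        induction l with
        | nil => intro _; simp [hevL]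
        | cons a l ihl =>
          intro hl
          have h1 := (ih a (hl a (by simp))).2.2 (fun i => x (i + 1)) (fun i => y (i + 1))
          have h2 := ihl (fun u hu => hl u (by simp [hu]))
          simp only [List.map_cons, hevL, List.length_map]
          rw [h1, h2]
          ring
      exact key p (fun u hu => hu)

/-- Soundness of the fast checker. -/
theorem qchk_sound (n : ℕ) (ds : List ℕ) (T : Tree) (p : PT n) (hT : T.ok n = true)
    (h : qchk n ds T p = true) (x : ℕ → ℝ) (hx0 : ∀ i, 0 ≤ x i) (hx1 : ∀ i, x i ≤ 1) :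
    0 ≤ ev n p x := by
  simp only [qchk, Bool.and_eq_true, Nat.ble_eq] at h
  obtain ⟨⟨h1, h2⟩, h3⟩ := h
  have hp := pad_wf n ds p h1 h2
  obtain ⟨hP, hQ, hPQ⟩ := wf_posneg n ds _ hp.1
  have hsP := wf_shAll n ds _ hP n le_rfl
  have hsQ := wf_shAll n ds _ hQ n le_rfl
  rw [← hp.2, hPQ]
  have hpos := qchkT_sound n ds T _ _ hT (by rw [toPT_shAll]; exact hsP.1)
    (by rw [toPT_shAll]; exact hsQ.1) h3 x (fun i => if i < n then 1 - x i else 1) hx0 (by
    intro i
    show 0 ≤ if i < n then 1 - x i else 1
    split_ifs
    · linarith [hx1 i]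
    · norm_num)
  rw [toPT_shAll, toPT_shAll,
    hsP.2 x _ (fun i hi => by simp [Nat.not_lt.mpr hi]) (fun i hi => by simp [hi]),
    hsQ.2 x _ (fun i hi => by simp [Nat.not_lt.mpr hi]) (fun i hi => by simp [hi])] at hpos
  linarith

/-- Soundness of the fast checker for expressions: `0 ≤ e` on the unit box. -/
theorem qchk_sound_expr (n : ℕ) (ds : List ℕ) (T : Tree) (e : Ex)
    (h : (T.ok n && e.vok n && qchk n ds T (e.toP n)) = true) (x : ℕ → ℝ)
    (hx0 : ∀ i, 0 ≤ x i) (hx1 : ∀ i, x i ≤ 1) : 0 ≤ e.den x := by
  simp only [Bool.and_eq_true] at h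
  rw [← Ex.ev_toP n x e h.1.2]
  exact qchk_sound n ds T _ h.1.1 h.2 x hx0 hx1

end Vale.Agent.Lib.P154.BoxPos
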