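import Vale.Agent.Lib.P154.Defs

/-!
# Certificates for nonreconstruction

A certificate is a pair of functionals `Phi`, `g` of (nonnegative, unnormalised) likelihood
vectors `w : Fin q → ℝ` satisfying three pointwise inequalities.
-/

open scoped BigOperators

namespace Vale.Agent.P154

/-- average of the coordinates -/
noncomputable def mass {q : ℕ} (w : Fin q → ℝ) : ℝ := (∑ i, w i) / q

/-- normalised chi-square functional (`0` when `w = 0`) -/
noncomputable def chi {q : ℕ} (w : Fin q → ℝ) : ℝ :=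
  ((q : ℝ) * (∑ i, w i ^ 2) / (∑ i, w i) - ∑ i, w i) / (q * (q - 1))

/-- the edge operator: `(smooth lam w) i = ∑ j, pottsKernel q lam i j * w j` -/
noncomputable def smooth {q : ℕ} (lam : ℝ) (w : Fin q → ℝ) : Fin q → ℝ :=
  fun i => lam * w i + (1 - lam) / q * ∑ j, w j

structure Certificate (q : ℕ) (lam : ℝ) where
  Phi : (Fin q → ℝ) → ℝ
  g : (Fin q → ℝ) → ℝ
  eps : ℝ
  gam : ℝ
  eps_pos : 0 < eps
  gam_pos : 0 < gam
  g_lower : ∀ w : Fin q → ℝ, (∀ i, 0 ≤ w i) → gam * chi w ≤ g w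
  Phi_single : ∀ i : Fin q, 0 ≤ Phi (fun j => if j = i then 1 else 0)
  Phi_one : 0 ≤ Phi (fun _ => 1)
  prodA : ∀ w w' : Fin q → ℝ, (∀ i, 0 ≤ w i) → (∀ i, 0 ≤ w' i) →
    ∑ s : Equiv.Perm (Fin q), chi (fun i => w i * w' (s i)) ≤
      (Nat.factorial q : ℝ) *
        (chi w * mass w' + mass w * chi w' - Phi w * g w' - Phi w' * g w)
  prodB : ∀ w w' : Fin q → ℝ, (∀ i, 0 ≤ w i) → (∀ i, 0 ≤ w' i) →
      (Nat.factorial q : ℝ) *
        (Phi w * (mass w' - chi w') + Phi w' * (mass w - chi w) + eps * chi w * chi w') ≤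
    ∑ s : Equiv.Perm (Fin q), Phi (fun i => w i * w' (s i))
  smoothC : ∀ w : Fin q → ℝ, (∀ i, 0 ≤ w i) → lam ^ 3 * Phi w ≤ Phi (smooth lam w)

/-! Target theorems of the framework (to be proved by co-workers):

theorem nonreconstruction_reg {q d : ℕ} {lam : ℝ} (hq : 2 ≤ q) (hd : 2 ≤ d)
    (h0 : 0 ≤ lam) (h1 : lam ≤ 1) (C : Certificate q lam) (h : (d : ℝ) * lam ^ 2 ≤ 1) :
    Nonreconstruction (regA q d lam)

theorem nonreconstruction_gw {q : ℕ} {d lam : ℝ} (hq : 2 ≤ q) (hd : 0 < d)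
    (h0 : 0 ≤ lam) (h1 : lam ≤ 1) (C : Certificate q lam) (h : d * lam ^ 2 ≤ 1) :
    Nonreconstruction (gwA q d lam)

theorem reconstruction_reg {q d : ℕ} {lam : ℝ} (hq : 2 ≤ q) (hd : 1 ≤ d)
    (h0 : -1 / ((q : ℝ) - 1) ≤ lam) (h1 : lam ≤ 1) (h : 1 < (d : ℝ) * lam ^ 2) :
    Reconstruction (regA q d lam)

theorem reconstruction_gw {q : ℕ} {d lam : ℝ} (hq : 2 ≤ q) (hd : 0 < d)
    (h0 : -1 / ((q : ℝ) - 1) ≤ lam) (h1 : lam ≤ 1) (h : 1 < d * lam ^ 2) :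
    Reconstruction (gwA q d lam)
-/

end Vale.Agent.P154
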