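import Mathlib

/-!
# Broadcasting of the `q`-state Potts channel on trees: definitions

* `pottsKernel q lam i j` is the transition probability `P_lam (j ∣ i)`.
* `RegCfg q d n` is the type of spin configurations on the `d ^ n` vertices at distance `n`
  from the root of the rooted `d`-ary tree; `regLik q d lam n i x` is the conditional probability
  of seeing `x` on level `n` given that the root spin is `i`.
* `GWTree n` is the (countable) type of rooted plane trees cut at level `n`;
  `gwProb d n t` is the probability that the Galton-Watson tree with Poisson(`d`) offspring,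
  cut at level `n`, equals `t`; `GWCfg q n t` is the type of spin configurations on the vertices
  of `t` at distance exactly `n` from the root, `gwLik q lam n t i x` the conditional probability
  of `x` given that the root spin is `i`.
* `avgBias L` is, for the likelihoods `L i x = Pr (observation = x ∣ root spin = i)`, the
  expectation of half the `ℓ¹`-distance between the posterior law of the (uniform) root spin and
  the uniform law.
-/

open scoped BigOperators

namespace Vale.Agent.P154

/-- The `q`-state Potts channel: `lam * 1_{i=j} + (1-lam)/q`. -/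
noncomputable def pottsKernel (q : ℕ) (lam : ℝ) (i j : Fin q) : ℝ :=
  lam * (if i = j then 1 else 0) + (1 - lam) / q

/-- Probability of the observation `x` when the hidden spin is uniform on `Fin q`. -/
noncomputable def obsProb {q : ℕ} {Ω : Type} (L : Fin q → Ω → ℝ) (x : Ω) : ℝ :=
  ∑ i, (1 / (q : ℝ)) * L i x

/-- Posterior probability of the hidden (uniform) spin being `i` given the observation `x`. -/
noncomputable def posterior {q : ℕ} {Ω : Type} (L : Fin q → Ω → ℝ) (x : Ω) (i : Fin q) : ℝ :=
  (1 / (q : ℝ)) * L i x / obsProb L x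

/-- `E[ (1/2) ∑ i |Pr(spin = i ∣ observation) - 1/q| ]`. -/
noncomputable def avgBias {q : ℕ} {Ω : Type} [Fintype Ω] (L : Fin q → Ω → ℝ) : ℝ :=
  ∑ x, obsProb L x * ((1 / 2) * ∑ i, |posterior L x i - 1 / (q : ℝ)|)

/-! ### The regular tree -/

/-- Spin configurations on level `n` of the rooted `d`-ary tree. -/
def RegCfg (q d : ℕ) : ℕ → Type
  | 0 => Fin q
  | n + 1 => Fin d → RegCfg q d n

instance instFintypeRegCfg (q d : ℕ) : (n : ℕ) → Fintype (RegCfg q d n)
  | 0 => inferInstanceAs (Fintype (Fin q))
  | n + 1 =>
    haveI := instFintypeRegCfg q d n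
    inferInstanceAs (Fintype (Fin d → RegCfg q d n))

/-- `regLik q d lam n i x = Pr (level n spins = x ∣ root spin = i)` on the `d`-ary tree. -/
noncomputable def regLik (q d : ℕ) (lam : ℝ) : (n : ℕ) → Fin q → RegCfg q d n → ℝ
  | 0 => fun i (x : Fin q) => if i = x then 1 else 0
  | n + 1 => fun i x => ∏ k : Fin d, ∑ j : Fin q, pottsKernel q lam i j * regLik q d lam n j (x k)

/-- `a_n` for the `d`-ary tree. -/
noncomputable def regA (q d : ℕ) (lam : ℝ) (n : ℕ) : ℝ :=
  avgBias (regLik q d lam n)

/-! ### The Galton-Watson tree with Poisson offspring -/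

/-- Rooted plane trees cut at level `n`. -/
def GWTree : ℕ → Type
  | 0 => Unit
  | n + 1 => Σ k : ℕ, Fin k → GWTree n

/-- Probability that the Poisson(`d`) Galton-Watson tree cut at level `n` is `t`. -/
noncomputable def gwProb (d : ℝ) : (n : ℕ) → GWTree n → ℝ
  | 0 => fun _ => 1
  | n + 1 => fun t => Real.exp (-d) * d ^ t.1 / (Nat.factorial t.1 : ℝ) *
      ∏ i : Fin t.1, gwProb d n (t.2 i)

/-- Spin configurations on the vertices of `t` at distance exactly `n` from the root. -/
def GWCfg (q : ℕ) : (n : ℕ) → GWTree n → Type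
  | 0 => fun _ => Fin q
  | n + 1 => fun t => (i : Fin t.1) → GWCfg q n (t.2 i)

instance instFintypeGWCfg (q : ℕ) : (n : ℕ) → (t : GWTree n) → Fintype (GWCfg q n t)
  | 0 => fun _ => inferInstanceAs (Fintype (Fin q))
  | n + 1 => fun t =>
    haveI := fun i => instFintypeGWCfg q n (t.2 i)
    inferInstanceAs (Fintype ((i : Fin t.1) → GWCfg q n (t.2 i)))

/-- `gwLik q lam n t i x = Pr (level n spins = x ∣ root spin = i)` on the tree `t`. -/
noncomputable def gwLik (q : ℕ) (lam : ℝ) : (n : ℕ) → (t : GWTree n) → Fin q → GWCfg q n t → ℝ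
  | 0 => fun _ i (x : Fin q) => if i = x then 1 else 0
  | n + 1 => fun t i x =>
      ∏ k : Fin t.1, ∑ j : Fin q, pottsKernel q lam i j * gwLik q lam n (t.2 k) j (x k)

/-- `a_n` for the Galton-Watson tree: the average over the tree and over the spins. -/
noncomputable def gwA (q : ℕ) (d lam : ℝ) (n : ℕ) : ℝ :=
  ∑' t : GWTree n, gwProb d n t * avgBias (gwLik q lam n t)

/-- Reconstruction: the sequence `a_n` has a positive limit. -/
def Reconstruction (a : ℕ → ℝ) : Prop := ∃ L : ℝ, 0 < L ∧ Filter.Tendsto a Filter.atTop (nhds L)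

/-- Nonreconstruction: the sequence `a_n` tends to zero. -/
def Nonreconstruction (a : ℕ → ℝ) : Prop := Filter.Tendsto a Filter.atTop (nhds 0)

end Vale.Agent.P154
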