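import Vale.Agent.Lib.P154.FrameNR

/-!
# Nonreconstruction from a certificate: Galton-Watson trees
-/

open scoped BigOperators
open Finset

namespace Vale.Agent.P154

/-! ### Sums over the Galton-Watson trees -/

theorem hasSum_of_eq {α : Type} {f g : α → ℝ} {a b : ℝ} (h : HasSum f a)
    (e : ∀ x, g x = f x) (e' : b = a) : HasSum g b := by
  have : g = f := funext e
  rw [this, e']
  exact h

/-- sums of products over tuples -/
theorem hasSum_pi_prod {α : Type} : ∀ {k : ℕ} {h : Fin k → α → ℝ} {a : Fin k → ℝ},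
    (∀ i x, 0 ≤ h i x) → (∀ i, HasSum (h i) (a i)) →
    HasSum (fun ts : Fin k → α => ∏ i, h i (ts i)) (∏ i, a i)
  | 0, h, a, _, _ => by
    simp only [Finset.univ_eq_empty, Finset.prod_empty]
    exact hasSum_unique _
  | k + 1, h, a, h0, hs => by
    have ih : HasSum (fun ts : Fin k → α => ∏ i : Fin k, h i.succ (ts i))
        (∏ i : Fin k, a i.succ) :=
      hasSum_pi_prod (fun i x => h0 i.succ x) (fun i => hs i.succ)
    have h1 : HasSum (fun z : α × (Fin k → α) => h 0 z.1 * ∏ i : Fin k, h i.succ (z.2 i))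
        (a 0 * ∏ i : Fin k, a i.succ) := by
      apply (hs 0).mul ih
      apply Summable.mul_of_nonneg (hs 0).summable ih.summable
      · exact fun x => h0 0 x
      · exact fun x => Finset.prod_nonneg (fun i _ => h0 i.succ (x i))
    rw [← (Fin.consEquiv (fun _ : Fin (k + 1) => α)).hasSum_iff, Fin.prod_univ_succ]
    convert h1 using 1
    funext z
    simp only [Function.comp]
    rw [Fin.prod_univ_succ]
    rfl

theorem gwProb_nonneg {d : ℝ} (hd : 0 ≤ d) : ∀ (n : ℕ) (t : GWTree n), 0 ≤ gwProb d n t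
  | 0, _ => zero_le_one
  | n + 1, t => by
    unfold gwProb
    have : 0 ≤ ∏ i : Fin t.1, gwProb d n (t.2 i) :=
      Finset.prod_nonneg (fun i _ => gwProb_nonneg hd n (t.2 i))
    have h2 := Real.exp_pos (-d)
    positivity

/-- the Poisson weights -/
noncomputable def poi (d : ℝ) (k : ℕ) : ℝ := Real.exp (-d) * d ^ k / (Nat.factorial k : ℝ)

theorem poi_nonneg {d : ℝ} (hd : 0 ≤ d) (k : ℕ) : 0 ≤ poi d k := by
  unfold poi
  have h2 := Real.exp_pos (-d)
  positivity

theorem hasSum_exp_real (d : ℝ) :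
    HasSum (fun k : ℕ => d ^ k / (Nat.factorial k : ℝ)) (Real.exp d) := by
  rw [Real.exp_eq_exp_ℝ]
  exact NormedSpace.expSeries_div_hasSum_exp d

theorem hasSum_poi (d : ℝ) : HasSum (poi d) 1 := by
  have h := (hasSum_exp_real d).mul_left (Real.exp (-d))
  rw [← Real.exp_add, neg_add_cancel, Real.exp_zero] at h
  refine hasSum_of_eq h (fun k => ?_) rfl
  unfold poi
  ring

theorem hasSum_poi_mul (d : ℝ) : HasSum (fun k : ℕ => poi d k * k) d := by
  rw [← hasSum_nat_add_iff' 1]
  simp only [Finset.sum_range_one, Nat.cast_zero, mul_zero, sub_zero]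
  have h := (hasSum_poi d).mul_left d
  rw [mul_one] at h
  refine hasSum_of_eq h (fun k => ?_) rfl
  unfold poi
  rw [Nat.factorial_succ, pow_succ]
  push_cast
  have h1 : ((k : ℝ) + 1) ≠ 0 := by positivity
  have h2 : (Nat.factorial k : ℝ) ≠ 0 := by positivity
  field_simp

/-- sums over a sigma type, of a nonnegative function -/
theorem hasSum_sigma_nonneg {α : Type} {F : (Σ k : ℕ, Fin k → α) → ℝ} (hF : ∀ t, 0 ≤ F t)
    {b : ℕ → ℝ} {B : ℝ} (h1 : ∀ k, HasSum (fun ts : Fin k → α => F ⟨k, ts⟩) (b k))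
    (h2 : HasSum b B) : HasSum F B := by
  apply HasSum.sigma_of_hasSum h2 h1
  rw [summable_sigma_of_nonneg hF]
  refine ⟨fun k => (h1 k).summable, ?_⟩
  have : (fun k => ∑' ts : Fin k → α, F ⟨k, ts⟩) = b := by
    funext k
    exact (h1 k).tsum_eq
  rw [this]
  exact h2.summable

theorem hasSum_gwProb {d : ℝ} (hd : 0 ≤ d) : ∀ n : ℕ, HasSum (gwProb d n) 1
  | 0 => by
    have : HasSum (fun _ : Unit => (1 : ℝ)) 1 := hasSum_unique _
    exact this
  | n + 1 => by
    refine hasSum_sigma_nonneg (α := GWTree n) (F := gwProb d (n + 1))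
      (fun t => gwProb_nonneg hd (n + 1) t) (b := poi d) (fun k => ?_) (hasSum_poi d)
    have h := (hasSum_pi_prod (k := k) (h := fun _ => gwProb d n) (a := fun _ => 1)
      (fun _ t => gwProb_nonneg hd n t) (fun _ => hasSum_gwProb hd n)).mul_left (poi d k)
    rw [Finset.prod_const_one, mul_one] at h
    exact h

/-- the sum of `f` over the subtrees of the root -/
noncomputable def sumU {n : ℕ} (f : GWTree n → ℝ) (t : GWTree (n + 1)) : ℝ :=
  ∑ j : Fin t.1, f (t.2 j)

/-- `f ⊗ g` over the two subtrees if the root has exactly two children -/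
noncomputable def pairF {n : ℕ} (f g : GWTree n → ℝ) (t : GWTree (n + 1)) : ℝ :=
  if h : t.1 = 2 then f (t.2 ⟨0, by omega⟩) * g (t.2 ⟨1, by omega⟩) else 0

theorem hasSum_sumU {d : ℝ} (hd : 0 ≤ d) {n : ℕ} {f : GWTree n → ℝ} (hf : ∀ t, 0 ≤ f t) {F : ℝ}
    (hF : HasSum (fun t => gwProb d n t * f t) F) :
    HasSum (fun t : GWTree (n + 1) => gwProb d (n + 1) t * sumU f t) (d * F) := by
  refine hasSum_sigma_nonneg (α := GWTree n) (F := fun t => gwProb d (n + 1) t * sumU f t)
    (fun t => mul_nonneg (gwProb_nonneg hd (n + 1) t) (Finset.sum_nonneg (fun j _ => hf _)))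
    (b := fun k => poi d k * k * F) (fun k => ?_) ((hasSum_poi_mul d).mul_right F)
  have h1 : ∀ j : Fin k, HasSum (fun ts : Fin k → GWTree n =>
      ∏ i, (if i = j then gwProb d n (ts i) * f (ts i) else gwProb d n (ts i))) F := by
    intro j
    have h2 := hasSum_pi_prod (k := k)
      (h := fun i t => if i = j then gwProb d n t * f t else gwProb d n t)
      (a := fun i => if i = j then F else 1)
      (fun i t => by
        split_ifs
        · exact mul_nonneg (gwProb_nonneg hd n t) (hf t)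
        · exact gwProb_nonneg hd n t)
      (fun i => by
        split_ifs
        · exact hF
        · exact hasSum_gwProb hd n)
    rw [Finset.prod_ite_eq' Finset.univ j (fun _ => F)] at h2
    simpa using h2
  have h3 := (hasSum_sum (s := (univ : Finset (Fin k))) (fun j _ => h1 j)).mul_left (poi d k)
  rw [Finset.sum_const, Finset.card_univ, Fintype.card_fin, nsmul_eq_mul, ← mul_assoc] at h3
  refine hasSum_of_eq h3 (fun ts => ?_) rfl
  have h4 : ∀ j : Fin k, ∏ i, (if i = j then gwProb d n (ts i) * f (ts i) else gwProb d n (ts i))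
      = (∏ i, gwProb d n (ts i)) * f (ts j) := by
    intro j
    have h5 : ∀ i, (if i = j then gwProb d n (ts i) * f (ts i) else gwProb d n (ts i))
        = gwProb d n (ts i) * (if i = j then f (ts i) else 1) := by
      intro i
      split_ifs
      · rfl
      · rw [mul_one]
    simp_rw [h5]
    rw [Finset.prod_mul_distrib]
    congr 1
    rw [Finset.prod_ite_eq' Finset.univ j (fun i => f (ts i))]
    simp
  simp_rw [h4]
  rw [← Finset.mul_sum, ← mul_assoc]
  rfl

theorem hasSum_pairF {d : ℝ} (hd : 0 ≤ d) {n : ℕ} {f g : GWTree n → ℝ} (hf : ∀ t, 0 ≤ f t)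
    (hg : ∀ t, 0 ≤ g t) {F G : ℝ} (hF : HasSum (fun t => gwProb d n t * f t) F)
    (hG : HasSum (fun t => gwProb d n t * g t) G) :
    HasSum (fun t : GWTree (n + 1) => gwProb d (n + 1) t * pairF f g t)
      (poi d 2 * (F * G)) := by
  refine hasSum_sigma_nonneg (α := GWTree n) (F := fun t => gwProb d (n + 1) t * pairF f g t)
    (fun t => mul_nonneg (gwProb_nonneg hd (n + 1) t) ?_)
    (b := fun k => if k = 2 then poi d 2 * (F * G) else 0) (fun k => ?_)
    (hasSum_ite_eq 2 (poi d 2 * (F * G)))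
  · unfold pairF
    split_ifs
    · exact mul_nonneg (hf _) (hg _)
    · exact le_refl 0
  · by_cases hk : k = 2
    · subst hk
      have h1 := (hasSum_pi_prod (k := 2)
        (h := fun i t => if i = 0 then gwProb d n t * f t else gwProb d n t * g t)
        (a := fun i => if i = 0 then F else G)
        (fun i t => by
          split_ifs
          · exact mul_nonneg (gwProb_nonneg hd n t) (hf t)
          · exact mul_nonneg (gwProb_nonneg hd n t) (hg t))
        (fun i => by
          split_ifs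
          · exact hF
          · exact hG)).mul_left (poi d 2)
      simp only [Fin.prod_univ_two] at h1
      simp only [if_true]
      refine hasSum_of_eq h1 (fun ts => ?_) (by simp)
      have e1 : pairF f g ⟨2, ts⟩ = f (ts 0) * g (ts 1) := by
        unfold pairF
        simp
      rw [e1]
      have e2 : gwProb d (n + 1) ⟨2, ts⟩ = poi d 2 * (gwProb d n (ts 0) * gwProb d n (ts 1)) := by
        show poi d 2 * ∏ i, gwProb d n (ts i) = _
        rw [Fin.prod_univ_two]
      rw [e2]
      simp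
      ring
    · have e1 : ∀ ts : Fin k → GWTree n, pairF f g ⟨k, ts⟩ = 0 := by
        intro ts
        unfold pairF
        exact dif_neg hk
      simp only [e1, mul_zero, if_neg hk]
      exact hasSum_zero

section fam
variable {q : ℕ} {lam : ℝ} {C : FrameCert q lam}

theorem gwGood (hq : 2 ≤ q) (h0 : -1 / ((q : ℝ) - 1) ≤ lam) (h1 : lam ≤ 1) :
    ∀ (n : ℕ) (t : GWTree n), GoodL C (gwLik q lam n t)
  | 0, _ => goodL_zero
  | n + 1, t => by
    have h : ∀ k : Fin t.1, GoodL C (edgeL lam (gwLik q lam n (t.2 k))) :=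
      fun k => (gwGood hq h0 h1 n (t.2 k)).edge hq h0 h1
    exact GoodL.prodL hq h

theorem gw_quenched_aux (hq : 2 ≤ q) (h0 : -1 / ((q : ℝ) - 1) ≤ lam) (h1 : lam ≤ 1)
    (n : ℕ) (k : ℕ) (ts : Fin k → GWTree n) :
    sumF chi (prodL (fun j : Fin k => edgeL lam (gwLik q lam n (ts j))))
      + C.gam * C.cc * lam ^ 2 * pairF (n := n) (fun s => sumF C.Phi (gwLik q lam n s))
          (fun s => sumF chi (gwLik q lam n s)) ⟨k, ts⟩
      ≤ lam ^ 2 * sumU (n := n) (fun s => sumF chi (gwLik q lam n s)) ⟨k, ts⟩ := by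
  have hq0 : 0 < q := by omega
  have hG : ∀ s : GWTree n, GoodL C (gwLik q lam n s) := gwGood hq h0 h1 n
  have h : ∀ j : Fin k, GoodL C (edgeL lam (gwLik q lam n (ts j))) :=
    fun j => (hG (ts j)).edge hq h0 h1
  have hU : lam ^ 2 * sumU (n := n) (fun s => sumF chi (gwLik q lam n s)) ⟨k, ts⟩
      = ∑ j : Fin k, sumF chi (edgeL lam (gwLik q lam n (ts j))) := by
    unfold sumU
    rw [Finset.mul_sum]
    apply Finset.sum_congr rfl
    intro j _
    rw [sumF_chi_edgeL _ hq0]
  rw [hU]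
  by_cases hk : k = 2
  · subst hk
    have e1 : pairF (n := n) (fun s => sumF C.Phi (gwLik q lam n s))
          (fun s => sumF chi (gwLik q lam n s)) ⟨2, ts⟩
        = sumF C.Phi (gwLik q lam n (ts 0)) * sumF chi (gwLik q lam n (ts 1)) := by
      unfold pairF
      simp
    rw [e1, sumF_prodL_two, Fin.sum_univ_two]
    have h2 := chi_tens_le hq0 (h 0) (h 1)
    have h3 := sumF_Phi_edgeL (C := C) (hG (ts 0)).nonneg
    have h4 : 0 ≤ C.gam * (sumF C.Phi (edgeL lam (gwLik q lam n (ts 1)))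
        * sumF chi (edgeL lam (gwLik q lam n (ts 0)))) :=
      mul_nonneg C.gam_pos.le (mul_nonneg (h 1).ynn (sumF_chi_nonneg (h 0).nonneg))
    have h5 : sumF chi (edgeL lam (gwLik q lam n (ts 1)))
        = lam ^ 2 * sumF chi (gwLik q lam n (ts 1)) := sumF_chi_edgeL _ hq0
    have h6 : 0 ≤ C.gam * (lam ^ 2 * sumF chi (gwLik q lam n (ts 1))) :=
      mul_nonneg C.gam_pos.le (mul_nonneg (sq_nonneg _) (sumF_chi_nonneg (hG (ts 1)).nonneg))
    have h7 := mul_le_mul_of_nonneg_left h3 h6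
    rw [h5] at h2 ⊢
    nlinarith [h2, h4, h7]
  · have e1 : pairF (n := n) (fun s => sumF C.Phi (gwLik q lam n s))
          (fun s => sumF chi (gwLik q lam n s)) ⟨k, ts⟩ = 0 := by
      unfold pairF
      exact dif_neg hk
    rw [e1, mul_zero, add_zero]
    exact chi_prodL_le hq h

/-- the quenched inequality -/
theorem gw_quenched (hq : 2 ≤ q) (h0 : -1 / ((q : ℝ) - 1) ≤ lam) (h1 : lam ≤ 1)
    (n : ℕ) (t : GWTree (n + 1)) :
    sumF chi (gwLik q lam (n + 1) t)
      + C.gam * C.cc * lam ^ 2 * pairF (fun s => sumF C.Phi (gwLik q lam n s))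
          (fun s => sumF chi (gwLik q lam n s)) t
      ≤ lam ^ 2 * sumU (fun s => sumF chi (gwLik q lam n s)) t :=
  gw_quenched_aux (C := C) hq h0 h1 n t.1 t.2

theorem gw_Phi_ge_aux (hq : 2 ≤ q) (h0 : -1 / ((q : ℝ) - 1) ≤ lam) (h1 : lam ≤ 1)
    (n : ℕ) (k : ℕ) (ts : Fin k → GWTree n) :
    C.eps * (lam ^ 2) ^ 2 * pairF (n := n) (fun s => sumF chi (gwLik q lam n s))
          (fun s => sumF chi (gwLik q lam n s)) ⟨k, ts⟩
      ≤ sumF C.Phi (prodL (fun j : Fin k => edgeL lam (gwLik q lam n (ts j)))) := by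
  have hq0 : 0 < q := by omega
  have hG : ∀ s : GWTree n, GoodL C (gwLik q lam n s) := gwGood hq h0 h1 n
  have h : ∀ j : Fin k, GoodL C (edgeL lam (gwLik q lam n (ts j))) :=
    fun j => (hG (ts j)).edge hq h0 h1
  by_cases hk : k = 2
  · subst hk
    have e1 : pairF (n := n) (fun s => sumF chi (gwLik q lam n s))
          (fun s => sumF chi (gwLik q lam n s)) ⟨2, ts⟩
        = sumF chi (gwLik q lam n (ts 0)) * sumF chi (gwLik q lam n (ts 1)) := by
      unfold pairF
      simp
    rw [e1, sumF_prodL_two]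
    have h2 := Phi_tens_ge hq0 (h 0) (h 1)
    have h3 := mul_nonneg (h 0).ynn
      (sub_nonneg.2 (sumF_chi_le_one hq (h 1).nonneg (h 1).norm))
    have h4 := mul_nonneg (h 1).ynn
      (sub_nonneg.2 (sumF_chi_le_one hq (h 0).nonneg (h 0).norm))
    have h5 : sumF chi (edgeL lam (gwLik q lam n (ts 0)))
        = lam ^ 2 * sumF chi (gwLik q lam n (ts 0)) := sumF_chi_edgeL _ hq0
    have h6 : sumF chi (edgeL lam (gwLik q lam n (ts 1)))
        = lam ^ 2 * sumF chi (gwLik q lam n (ts 1)) := sumF_chi_edgeL _ hq0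
    have h7 : C.eps * sumF chi (edgeL lam (gwLik q lam n (ts 0)))
          * sumF chi (edgeL lam (gwLik q lam n (ts 1)))
        = C.eps * (lam ^ 2) ^ 2 *
          (sumF chi (gwLik q lam n (ts 0)) * sumF chi (gwLik q lam n (ts 1))) := by
      rw [h5, h6]
      ring
    linarith
  · have e1 : pairF (n := n) (fun s => sumF chi (gwLik q lam n s))
          (fun s => sumF chi (gwLik q lam n s)) ⟨k, ts⟩ = 0 := by
      unfold pairF
      exact dif_neg hk
    rw [e1, mul_zero]
    exact (GoodL.prodL hq h).ynn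

theorem gw_Phi_ge (hq : 2 ≤ q) (h0 : -1 / ((q : ℝ) - 1) ≤ lam) (h1 : lam ≤ 1)
    (n : ℕ) (t : GWTree (n + 1)) :
    C.eps * (lam ^ 2) ^ 2 * pairF (fun s => sumF chi (gwLik q lam n s))
          (fun s => sumF chi (gwLik q lam n s)) t ≤ sumF C.Phi (gwLik q lam (n + 1) t) :=
  gw_Phi_ge_aux (C := C) hq h0 h1 n t.1 t.2

end fam

theorem nonreconstruction_gw_frame {q : ℕ} {d lam : ℝ} (hq : 2 ≤ q) (hd : 0 < d)
    (h0 : -1 / ((q : ℝ) - 1) ≤ lam) (h1 : lam ≤ 1) (C : FrameCert q lam)
    (h : d * lam ^ 2 ≤ 1) : Nonreconstruction (gwA q d lam) := by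
  have hG : ∀ n (t : GWTree n), GoodL C (gwLik q lam n t) := gwGood hq h0 h1
  have hq0 : 0 < q := by omega
  set x : ∀ n, GWTree n → ℝ := fun n t => sumF chi (gwLik q lam n t) with hx
  have hx0 : ∀ n t, 0 ≤ x n t := fun n t => sumF_chi_nonneg (hG n t).nonneg
  have hx1 : ∀ n t, x n t ≤ 1 := fun n t => sumF_chi_le_one hq (hG n t).nonneg (hG n t).norm
  have hp0 : ∀ n t, 0 ≤ gwProb d n t := fun n t => gwProb_nonneg hd.le n t
  have hpS : ∀ n, HasSum (gwProb d n) 1 := fun n => hasSum_gwProb hd.le n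
  set X : ℕ → ℝ := fun n => ∑' t, gwProb d n t * x n t with hX
  have hXs : ∀ n, HasSum (fun t => gwProb d n t * x n t) (X n) := by
    intro n
    apply Summable.hasSum
    apply Summable.of_nonneg_of_le (fun t => mul_nonneg (hp0 n t) (hx0 n t)) (fun t => ?_)
      (hpS n).summable
    exact mul_le_of_le_one_right (hp0 n t) (hx1 n t)
  have hX0 : ∀ n, 0 ≤ X n := fun n => tsum_nonneg (fun t => mul_nonneg (hp0 n t) (hx0 n t))
  have hpair0 : ∀ n (f g : GWTree n → ℝ), (∀ t, 0 ≤ f t) → (∀ t, 0 ≤ g t) →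
      ∀ t, 0 ≤ pairF f g t := by
    intro n f g hf hg t
    unfold pairF
    split_ifs
    · exact mul_nonneg (hf _) (hg _)
    · exact le_refl 0
  have hpoi : 0 < poi d 2 := by
    unfold poi
    have := Real.exp_pos (-d)
    positivity
  -- the averaged inequality
  have hrec1 : ∀ n, X (n + 1) ≤ lam ^ 2 * (d * X n) := by
    intro n
    have hU := (hasSum_sumU hd.le (hx0 n) (hXs n)).mul_left (lam ^ 2)
    refine hasSum_le (fun t => ?_) (hXs (n + 1)) hU
    have h2 := gw_quenched (C := C) hq h0 h1 n t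
    have h3 : 0 ≤ C.gam * C.cc * lam ^ 2 * pairF (fun s => sumF C.Phi (gwLik q lam n s))
          (fun s => sumF chi (gwLik q lam n s)) t := by
      apply mul_nonneg (mul_nonneg (mul_nonneg C.gam_pos.le C.cc_nonneg) (sq_nonneg _))
      exact hpair0 n _ _ (fun s => (hG n s).ynn) (fun s => hx0 n s) t
    have h4 : x (n + 1) t ≤ lam ^ 2 * sumU (x n) t := by
      show sumF chi (gwLik q lam (n + 1) t) ≤ _
      linarith
    have h5 := mul_le_mul_of_nonneg_left h4 (hp0 (n + 1) t)
    linarith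
  have hrec2 : ∀ n, X (n + 2) + C.gam * C.cc * lam ^ 2 *
      (poi d 2 * ((C.eps * (lam ^ 2) ^ 2 * (poi d 2 * (X n * X n))) * X (n + 1)))
      ≤ lam ^ 2 * (d * X (n + 1)) := by
    intro n
    have hU := (hasSum_sumU hd.le (hx0 (n + 1)) (hXs (n + 1))).mul_left (lam ^ 2)
    have hz := (hasSum_pairF hd.le (hx0 n) (hx0 n) (hXs n) (hXs n)).mul_left
      (C.eps * (lam ^ 2) ^ 2)
    have hz' : HasSum (fun t : GWTree (n + 1) => gwProb d (n + 1) t *
        (C.eps * (lam ^ 2) ^ 2 * pairF (x n) (x n) t))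
        (C.eps * (lam ^ 2) ^ 2 * (poi d 2 * (X n * X n))) := by
      refine hasSum_of_eq hz (fun t => ?_) rfl
      ring
    have hz0 : ∀ t : GWTree (n + 1), 0 ≤ C.eps * (lam ^ 2) ^ 2 * pairF (x n) (x n) t :=
      fun t => mul_nonneg (mul_nonneg C.eps_pos.le (sq_nonneg _))
        (hpair0 n _ _ (hx0 n) (hx0 n) t)
    have hP := (hasSum_pairF hd.le hz0 (hx0 (n + 1)) hz' (hXs (n + 1))).mul_left
      (C.gam * C.cc * lam ^ 2)
    refine hasSum_le (fun t => ?_) ((hXs (n + 2)).add hP) hU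
    have h2 := gw_quenched (C := C) hq h0 h1 (n + 1) t
    have h3 : pairF (fun t => C.eps * (lam ^ 2) ^ 2 * pairF (x n) (x n) t) (x (n + 1)) t
        ≤ pairF (fun s => sumF C.Phi (gwLik q lam (n + 1) s))
          (fun s => sumF chi (gwLik q lam (n + 1) s)) t := by
      unfold pairF
      split_ifs with hk
      · apply mul_le_mul_of_nonneg_right _ (hx0 (n + 1) _)
        exact gw_Phi_ge (C := C) hq h0 h1 n _
      · exact le_refl 0
    have h4 : 0 ≤ C.gam * C.cc * lam ^ 2 :=
      mul_nonneg (mul_nonneg C.gam_pos.le C.cc_nonneg) (sq_nonneg _)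
    have h5 := mul_le_mul_of_nonneg_left h3 h4
    have h6 : x (n + 2) t + C.gam * C.cc * lam ^ 2 *
        pairF (fun t => C.eps * (lam ^ 2) ^ 2 * pairF (x n) (x n) t) (x (n + 1)) t
        ≤ lam ^ 2 * sumU (x (n + 1)) t := by
      refine le_trans (add_le_add (le_refl _) h5) h2
    have h7 := mul_le_mul_of_nonneg_left h6 (hp0 (n + 2) t)
    linarith
  have hlim : Filter.Tendsto X Filter.atTop (nhds 0) := by
    by_cases hl : lam = 0
    · have hl2 : lam ^ 2 = 0 := by
        rw [hl]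
        norm_num
      have : ∀ n, X (n + 1) = 0 := by
        intro n
        apply le_antisymm _ (hX0 _)
        refine le_trans (hrec1 n) ?_
        rw [hl2, zero_mul]
      have h8 : Filter.Tendsto (fun n => X (n + 1)) Filter.atTop (nhds 0) := by
        simp_rw [this]
        exact tendsto_const_nhds
      exact (Filter.tendsto_add_atTop_iff_nat 1).1 h8
    · have hcc := C.cc_pos hl
      have hl2 : 0 < lam ^ 2 := by positivity
      have hg := C.gam_pos
      have he := C.eps_pos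
      refine tendsto_zero_of_rec hX0
        (K := C.gam * C.cc * lam ^ 2 * (poi d 2 * (C.eps * (lam ^ 2) ^ 2 * poi d 2)))
        (by positivity) (fun n => ?_)
      have h8 := hrec2 n
      have h9 : lam ^ 2 * (d * X (n + 1)) ≤ X (n + 1) := by
        have := mul_le_mul_of_nonneg_right h (hX0 (n + 1))
        linarith
      have h10 : C.gam * C.cc * lam ^ 2 *
          (poi d 2 * ((C.eps * (lam ^ 2) ^ 2 * (poi d 2 * (X n * X n))) * X (n + 1)))
          = C.gam * C.cc * lam ^ 2 * (poi d 2 * (C.eps * (lam ^ 2) ^ 2 * poi d 2))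
            * X n ^ 2 * X (n + 1) := by ring
      linarith
  have hb0 : ∀ n t, 0 ≤ avgBias (gwLik q lam n t) := fun n t => avgBias_nonneg (hG n t).nonneg
  refine tendsto_zero_of_bias (A := (q : ℝ) / 4) (B := ((q : ℝ) - 1) / (4 * q))
    (fun n => tsum_nonneg (fun t => mul_nonneg (hp0 n t) (hb0 n t))) hlim (fun n δ hδ => ?_)
  have hR : HasSum (fun t => gwProb d n t * (q * δ / 4)
      + (q - 1) / (4 * δ * q) * (gwProb d n t * x n t))
      (1 * (q * δ / 4) + (q - 1) / (4 * δ * q) * X n) :=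
    ((hpS n).mul_right _).add ((hXs n).mul_left _)
  have hle : ∀ t, gwProb d n t * avgBias (gwLik q lam n t)
      ≤ gwProb d n t * (q * δ / 4) + (q - 1) / (4 * δ * q) * (gwProb d n t * x n t) := by
    intro t
    have h2 := avgBias_le hq (hG n t).nonneg (hG n t).norm hδ
    have h3 := mul_le_mul_of_nonneg_left h2 (hp0 n t)
    refine le_trans h3 (le_of_eq ?_)
    show _ = gwProb d n t * (q * δ / 4)
      + (q - 1) / (4 * δ * q) * (gwProb d n t * sumF chi (gwLik q lam n t))
    ring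
  have hS : Summable (fun t => gwProb d n t * avgBias (gwLik q lam n t)) :=
    Summable.of_nonneg_of_le (fun t => mul_nonneg (hp0 n t) (hb0 n t)) hle hR.summable
  have h4 := hasSum_le hle hS.hasSum hR
  unfold gwA
  refine le_trans h4 (le_of_eq ?_)
  have hq0' : (q : ℝ) ≠ 0 := by exact_mod_cast hq0.ne'
  field_simp

theorem nonreconstruction_reg {q d : ℕ} {lam : ℝ} (hq : 2 ≤ q) (hd : 2 ≤ d)
    (h0 : 0 ≤ lam) (h1 : lam ≤ 1) (C : Certificate q lam) (h : (d : ℝ) * lam ^ 2 ≤ 1) :
    Nonreconstruction (regA q d lam) := by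
  have hq2 : (2 : ℝ) ≤ q := by exact_mod_cast hq
  have h2 : -1 / ((q : ℝ) - 1) ≤ lam := by
    refine le_trans ?_ h0
    apply div_nonpos_of_nonpos_of_nonneg (by norm_num)
    linarith
  exact nonreconstruction_reg_frame hq hd h2 h1 (C.toFrame h0) h

theorem nonreconstruction_gw {q : ℕ} {d lam : ℝ} (hq : 2 ≤ q) (hd : 0 < d)
    (h0 : 0 ≤ lam) (h1 : lam ≤ 1) (C : Certificate q lam) (h : d * lam ^ 2 ≤ 1) :
    Nonreconstruction (gwA q d lam) := by
  have hq2 : (2 : ℝ) ≤ q := by exact_mod_cast hq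
  have h2 : -1 / ((q : ℝ) - 1) ≤ lam := by
    refine le_trans ?_ h0
    apply div_nonpos_of_nonpos_of_nonneg (by norm_num)
    linarith
  exact nonreconstruction_gw_frame hq hd h2 h1 (C.toFrame h0) h

end Vale.Agent.P154
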