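import Vale.Agent.Lib.P154.Defs

/-!
# The Kesten-Stigum direction: reconstruction above the threshold (module W2 of P154)
-/

open scoped BigOperators

namespace Vale.Agent.P154

namespace KS

/-! ### Averages of the bias -/

/-- deviation of the likelihoods from their mean -/
noncomputable def dev {q : ℕ} {Ω : Type} (L : Fin q → Ω → ℝ) (x : Ω) (i : Fin q) : ℝ :=
  L i x - (1 / (q : ℝ)) * ∑ j, L j x

theorem avgBias_eq {q : ℕ} (hq : 0 < q) {Ω : Type} [Fintype Ω] (L : Fin q → Ω → ℝ)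
    (hL : ∀ i x, 0 ≤ L i x) :
    avgBias L = (1 / (2 * (q : ℝ))) * ∑ x, ∑ i, |dev L x i| := by
  have hq' : (0 : ℝ) < q := by exact_mod_cast hq
  unfold avgBias
  rw [Finset.mul_sum]
  refine Finset.sum_congr rfl fun x _ => ?_
  have hobs : obsProb L x = (1 / (q : ℝ)) * ∑ j, L j x := by
    unfold obsProb
    rw [Finset.mul_sum]
  by_cases h0 : obsProb L x = 0
  · have hsum : ∑ j, L j x = 0 := by
      rw [hobs] at h0
      rcases mul_eq_zero.mp h0 with h | h
      · exfalso
        have : (0 : ℝ) < 1 / q := by positivity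
        linarith
      · exact h
    have hz : ∀ i, L i x = 0 := by
      intro i
      exact (Finset.sum_eq_zero_iff_of_nonneg (fun j _ => hL j x)).mp hsum i (Finset.mem_univ i)
    have hd : ∀ i, dev L x i = 0 := by
      intro i
      simp [dev, hz]
    rw [h0]
    simp [hd]
  · have hpos : 0 < obsProb L x := by
      rcases lt_or_eq_of_le (show 0 ≤ obsProb L x by
        rw [hobs]
        exact mul_nonneg (by positivity) (Finset.sum_nonneg fun j _ => hL j x)) with h | h
      · exact h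
      · exact absurd h.symm h0
    rw [Finset.mul_sum, Finset.mul_sum, Finset.mul_sum]
    refine Finset.sum_congr rfl fun i _ => ?_
    have h1 : posterior L x i - 1 / (q : ℝ) = (1 / (q : ℝ)) * dev L x i / obsProb L x := by
      unfold posterior dev
      rw [← hobs]
      field_simp
    rw [h1, abs_div, abs_mul, abs_of_pos hpos, abs_of_pos (show (0 : ℝ) < 1 / q by positivity)]
    field_simp

/-- `L'` is a degradation of `L` by a Markov kernel -/
def Degr {q : ℕ} {Ω Ω' : Type} [Fintype Ω] [Fintype Ω'] (L : Fin q → Ω → ℝ)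
    (L' : Fin q → Ω' → ℝ) : Prop :=
  ∃ K : Ω → Ω' → ℝ, (∀ x y, 0 ≤ K x y) ∧ (∀ x, ∑ y, K x y = 1) ∧
    ∀ i y, L' i y = ∑ x, L i x * K x y

theorem avgBias_mono {q : ℕ} (hq : 0 < q) {Ω Ω' : Type} [Fintype Ω] [Fintype Ω']
    (L : Fin q → Ω → ℝ) (L' : Fin q → Ω' → ℝ) (hL : ∀ i x, 0 ≤ L i x) (h : Degr L L') :
    avgBias L' ≤ avgBias L := by
  obtain ⟨K, hK0, hK1, hK⟩ := h
  have hL' : ∀ i y, 0 ≤ L' i y := by
    intro i y
    rw [hK]
    exact Finset.sum_nonneg fun x _ => mul_nonneg (hL i x) (hK0 x y)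
  rw [avgBias_eq hq L hL, avgBias_eq hq L' hL']
  have hq' : (0 : ℝ) < q := by exact_mod_cast hq
  refine mul_le_mul_of_nonneg_left ?_ (by positivity)
  have hdev : ∀ y i, dev L' y i = ∑ x, dev L x i * K x y := by
    intro y i
    unfold dev
    simp only [hK, sub_mul, Finset.sum_sub_distrib]
    congr 1
    rw [Finset.sum_comm, Finset.mul_sum]
    refine Finset.sum_congr rfl fun x _ => ?_
    rw [mul_assoc, Finset.sum_mul]
  calc ∑ y, ∑ i, |dev L' y i| ≤ ∑ y, ∑ i, ∑ x, |dev L x i| * K x y := by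
        refine Finset.sum_le_sum fun y _ => Finset.sum_le_sum fun i _ => ?_
        rw [hdev]
        refine (Finset.abs_sum_le_sum_abs _ _).trans (Finset.sum_le_sum fun x _ => ?_)
        rw [abs_mul, abs_of_nonneg (hK0 x y)]
    _ = ∑ x, ∑ i, |dev L x i| := by
        rw [Finset.sum_comm]
        have : ∀ i, ∑ y, ∑ x, |dev L x i| * K x y = ∑ x, |dev L x i| := by
          intro i
          rw [Finset.sum_comm]
          refine Finset.sum_congr rfl fun x _ => ?_
          rw [← Finset.mul_sum, hK1, mul_one]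
        rw [Finset.sum_congr rfl fun i _ => this i, Finset.sum_comm]

/-- lower bound of the bias by a linear statistic -/
theorem avgBias_lower {q : ℕ} (hq : 0 < q) {Ω : Type} [Fintype Ω]
    (L : Fin q → Ω → ℝ) (hL : ∀ i x, 0 ≤ L i x) (f : Ω → Fin q → ℝ) (m w s : ℝ)
    (hm : ∀ i j, ∑ x, L i x * f x j = m * ((if i = j then 1 else 0) - 1 / (q : ℝ)))
    (hw : ∀ i, ∑ x, L i x * ∑ j, (f x j) ^ 2 = (1 - 1 / (q : ℝ)) * w) :
    (((q : ℝ) - 1) / (2 * q)) * (2 * s * m - s ^ 2 * w) ≤ avgBias L := by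
  have hq' : (0 : ℝ) < q := by exact_mod_cast hq
  have hq1 : (1 : ℝ) ≤ q := by exact_mod_cast hq
  rw [avgBias_eq hq L hL]
  -- the pointwise inequality
  have hpt : ∀ x i, 2 * s * (dev L x i * f x i) - s ^ 2 * ((∑ j, L j x) * (f x i) ^ 2) ≤
      |dev L x i| := by
    intro x i
    have hw0 : 0 ≤ ∑ j, L j x := Finset.sum_nonneg fun j _ => hL j x
    have hle : L i x ≤ ∑ j, L j x :=
      Finset.single_le_sum (fun j _ => hL j x) (Finset.mem_univ i)
    have h1q : (1 / (q : ℝ)) * ∑ j, L j x ≤ ∑ j, L j x := by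
      have : 1 / (q : ℝ) ≤ 1 := by
        rw [div_le_one hq']
        exact hq1
      nlinarith
    have h0q : 0 ≤ (1 / (q : ℝ)) * ∑ j, L j x := by positivity
    have habs : |dev L x i| ≤ ∑ j, L j x := by
      unfold dev
      rw [abs_le]
      constructor
      · have := hL i x
        linarith
      · linarith
    have h2 : dev L x i * (s * f x i) ≤ |dev L x i| * |s * f x i| := by
      rw [← abs_mul]
      exact le_abs_self _
    have h3 : |dev L x i| * (s * f x i) ^ 2 ≤ (∑ j, L j x) * (s * f x i) ^ 2 :=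
      mul_le_mul_of_nonneg_right habs (sq_nonneg _)
    have h4 : 0 ≤ |dev L x i| * (1 - |s * f x i|) ^ 2 := by positivity
    have h5 : |s * f x i| ^ 2 = (s * f x i) ^ 2 := sq_abs _
    nlinarith [h2, h3, h4, h5]
  have hsum : ∑ x, ∑ i, (2 * s * (dev L x i * f x i) -
      s ^ 2 * ((∑ j, L j x) * (f x i) ^ 2)) ≤ ∑ x, ∑ i, |dev L x i| :=
    Finset.sum_le_sum fun x _ => Finset.sum_le_sum fun i _ => hpt x i
  have hcard : (∑ _i : Fin q, (1 : ℝ)) = q := by simp
  have hA : ∑ x, ∑ i, dev L x i * f x i = ((q : ℝ) - 1) * m := by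
    have e1 : ∑ x, ∑ i, dev L x i * f x i =
        ∑ i, ∑ x, L i x * f x i - (1 / (q : ℝ)) * ∑ j, ∑ i, ∑ x, L j x * f x i := by
      unfold dev
      simp only [sub_mul, Finset.sum_sub_distrib]
      congr 1
      · rw [Finset.sum_comm]
      · rw [Finset.mul_sum]
        have : ∀ j, (1 / (q : ℝ)) * ∑ i, ∑ x, L j x * f x i =
            ∑ x, ∑ i, (1 / (q : ℝ)) * L j x * f x i := by
          intro j
          rw [Finset.sum_comm, Finset.mul_sum]
          refine Finset.sum_congr rfl fun x _ => ?_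
          rw [Finset.mul_sum]
          refine Finset.sum_congr rfl fun i _ => ?_
          ring
        rw [Finset.sum_congr rfl fun j _ => this j]
        have e5 : ∑ j, ∑ x, ∑ i, (1 / (q : ℝ)) * L j x * f x i =
            ∑ x, ∑ j, ∑ i, (1 / (q : ℝ)) * L j x * f x i := Finset.sum_comm
        rw [e5]
        refine Finset.sum_congr rfl fun x _ => ?_
        have e4 : ∑ j, ∑ i, (1 / (q : ℝ)) * L j x * f x i =
            ∑ i, ∑ j, (1 / (q : ℝ)) * L j x * f x i := Finset.sum_comm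
        rw [e4]
        refine Finset.sum_congr rfl fun i _ => ?_
        rw [Finset.mul_sum, Finset.sum_mul]
    rw [e1]
    have e2 : ∑ i, ∑ x, L i x * f x i = ((q : ℝ) - 1) * m := by
      rw [Finset.sum_congr rfl fun i _ => hm i i]
      simp only [if_true, Finset.sum_const, Finset.card_univ, Fintype.card_fin, nsmul_eq_mul]
      field_simp
    have e3 : ∀ j, ∑ i, ∑ x, L j x * f x i = 0 := by
      intro j
      rw [Finset.sum_congr rfl fun i _ => hm j i, ← Finset.mul_sum, Finset.sum_sub_distrib]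
      simp only [Finset.sum_ite_eq, Finset.mem_univ, if_true, Finset.sum_const, Finset.card_univ,
        Fintype.card_fin, nsmul_eq_mul]
      field_simp
      ring
    rw [e2, Finset.sum_congr rfl fun j _ => e3 j]
    simp
  have hB : ∑ x, ∑ i, (∑ j, L j x) * (f x i) ^ 2 = ((q : ℝ) - 1) * w := by
    have e1 : ∑ x, ∑ i, (∑ j, L j x) * (f x i) ^ 2 =
        ∑ j, ∑ x, L j x * ∑ i, (f x i) ^ 2 := by
      have e0 : ∑ j, ∑ x, L j x * ∑ i, (f x i) ^ 2 = ∑ x, ∑ j, L j x * ∑ i, (f x i) ^ 2 :=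
        Finset.sum_comm
      rw [e0]
      refine Finset.sum_congr rfl fun x _ => ?_
      rw [← Finset.mul_sum, Finset.sum_mul]
    rw [e1, Finset.sum_congr rfl fun j _ => hw j]
    simp only [Finset.sum_const, Finset.card_univ, Fintype.card_fin, nsmul_eq_mul]
    field_simp
  have hfin : ∑ x, ∑ i, (2 * s * (dev L x i * f x i) -
      s ^ 2 * ((∑ j, L j x) * (f x i) ^ 2)) = ((q : ℝ) - 1) * (2 * s * m - s ^ 2 * w) := by
    simp only [Finset.sum_sub_distrib]
    simp only [← Finset.mul_sum]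
    have hB' : ∑ x, (∑ j, L j x) * ∑ i, (f x i) ^ 2 = ((q : ℝ) - 1) * w := by
      rw [← hB]
      refine Finset.sum_congr rfl fun x _ => ?_
      rw [Finset.mul_sum]
    rw [hA, hB']
    ring
  rw [hfin] at hsum
  calc (((q : ℝ) - 1) / (2 * q)) * (2 * s * m - s ^ 2 * w)
      = (1 / (2 * (q : ℝ))) * (((q : ℝ) - 1) * (2 * s * m - s ^ 2 * w)) := by
        field_simp
    _ ≤ _ := mul_le_mul_of_nonneg_left hsum (by positivity)

/-! ### Finite products -/

section Prod

variable {k : ℕ} {Ω : Fin k → Type} [∀ a, Fintype (Ω a)]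

theorem prod_mass (p : ∀ a, Ω a → ℝ) :
    ∑ x : (∀ a, Ω a), ∏ a, p a (x a) = ∏ a, ∑ y, p a y := by
  rw [Finset.prod_univ_sum]
  simp [Fintype.piFinset_univ]

theorem prod_mean (p : ∀ a, Ω a → ℝ) (hp : ∀ a, ∑ y, p a y = 1) (h : ∀ a, Ω a → ℝ)
    (b : Fin k) :
    ∑ x : (∀ a, Ω a), (∏ a, p a (x a)) * h b (x b) = ∑ y, p b y * h b y := by
  have h1 : ∀ x : (∀ a, Ω a), (∏ a, p a (x a)) * h b (x b) =
      ∏ a, (p a (x a) * if a = b then h a (x a) else 1) := by
    intro x
    rw [Finset.prod_mul_distrib, Finset.prod_ite_eq']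
    simp
  rw [Finset.sum_congr rfl fun x _ => h1 x,
    prod_mass (fun a y => p a y * if a = b then h a y else 1),
    Finset.prod_eq_single b]
  · simp
  · intro a _ hab
    simp [hab, hp]
  · intro hb
    exact absurd (Finset.mem_univ b) hb

theorem prod_mean₂ (p : ∀ a, Ω a → ℝ) (hp : ∀ a, ∑ y, p a y = 1) (h : ∀ a, Ω a → ℝ)
    (b c : Fin k) (hbc : b ≠ c) :
    ∑ x : (∀ a, Ω a), (∏ a, p a (x a)) * (h b (x b) * h c (x c)) =
      (∑ y, p b y * h b y) * (∑ y, p c y * h c y) := by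
  have h1 : ∀ x : (∀ a, Ω a), (∏ a, p a (x a)) * (h b (x b) * h c (x c)) =
      ∏ a, (p a (x a) * ((if a = b then h a (x a) else 1) *
        (if a = c then h a (x a) else 1))) := by
    intro x
    rw [Finset.prod_mul_distrib, Finset.prod_mul_distrib, Finset.prod_ite_eq',
      Finset.prod_ite_eq']
    simp
  rw [Finset.sum_congr rfl fun x _ => h1 x,
    prod_mass (fun a y => p a y * ((if a = b then h a y else 1) * (if a = c then h a y else 1)))]
  have h2 : ∀ a, (∑ y, p a y * ((if a = b then h a y else 1) * (if a = c then h a y else 1))) =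
      (if a = b then (∑ y, p a y * h a y) else 1) *
        (if a = c then (∑ y, p a y * h a y) else 1) := by
    intro a
    by_cases hb : a = b
    · have hc : a ≠ c := fun hc => hbc (hb.symm.trans hc)
      simp [hb, hbc]
    · by_cases hc : a = c
      · simp [hc, hbc.symm]
      · simp [hb, hc, hp]
  rw [Finset.prod_congr rfl fun a _ => h2 a, Finset.prod_mul_distrib, Finset.prod_ite_eq',
    Finset.prod_ite_eq']
  simp

theorem prod_sq (p : ∀ a, Ω a → ℝ) (hp : ∀ a, ∑ y, p a y = 1) (h : ∀ a, Ω a → ℝ) :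
    ∑ x : (∀ a, Ω a), (∏ a, p a (x a)) * (∑ a, h a (x a)) ^ 2 =
      ∑ a, ∑ y, p a y * (h a y) ^ 2 +
        ∑ a, ∑ b, if a = b then 0 else (∑ y, p a y * h a y) * (∑ y, p b y * h b y) := by
  have h1 : ∀ a b, ∑ x : (∀ a, Ω a), (∏ a, p a (x a)) * (h a (x a) * h b (x b)) =
      (if a = b then ∑ y, p a y * (h a y) ^ 2 else 0) +
        if a = b then 0 else (∑ y, p a y * h a y) * (∑ y, p b y * h b y) := by
    intro a b
    by_cases hab : a = b
    · subst hab
      simp only [if_true, add_zero]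
      have h2 := prod_mean p hp (fun a y => (h a y) ^ 2) a
      rw [← h2]
      refine Finset.sum_congr rfl fun x _ => ?_
      rw [sq]
    · simp only [if_neg hab, zero_add]
      exact prod_mean₂ p hp h a b hab
  calc ∑ x : (∀ a, Ω a), (∏ a, p a (x a)) * (∑ a, h a (x a)) ^ 2
      = ∑ x : (∀ a, Ω a), ∑ a, ∑ b, (∏ a, p a (x a)) * (h a (x a) * h b (x b)) := by
        refine Finset.sum_congr rfl fun x _ => ?_
        rw [sq, Finset.sum_mul_sum, Finset.mul_sum]
        refine Finset.sum_congr rfl fun a _ => ?_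
        rw [Finset.mul_sum]
    _ = ∑ a, ∑ b, ∑ x : (∀ a, Ω a), (∏ a, p a (x a)) * (h a (x a) * h b (x b)) := by
        rw [Finset.sum_comm]
        refine Finset.sum_congr rfl fun a _ => ?_
        rw [Finset.sum_comm]
    _ = _ := by
        simp only [h1, Finset.sum_add_distrib]
        simp

end Prod

/-! ### The Potts kernel -/

theorem potts_sum {q : ℕ} (hq : 0 < q) (lam : ℝ) (i : Fin q) :
    ∑ j, pottsKernel q lam i j = 1 := by
  have hq' : (0 : ℝ) < q := by exact_mod_cast hq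
  unfold pottsKernel
  rw [Finset.sum_add_distrib, ← Finset.mul_sum]
  simp only [Finset.sum_ite_eq, Finset.mem_univ, if_true, Finset.sum_const, Finset.card_univ,
    Fintype.card_fin, nsmul_eq_mul]
  field_simp
  ring

theorem potts_nonneg {q : ℕ} (hq : 2 ≤ q) {lam : ℝ} (h0 : -1 / ((q : ℝ) - 1) ≤ lam)
    (h1 : lam ≤ 1) (i j : Fin q) : 0 ≤ pottsKernel q lam i j := by
  have hq' : (2 : ℝ) ≤ q := by exact_mod_cast hq
  have hq1 : (0 : ℝ) < (q : ℝ) - 1 := by linarith
  have hq0 : (0 : ℝ) < q := by linarith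
  unfold pottsKernel
  by_cases hij : i = j
  · simp only [hij, if_true, mul_one]
    rw [div_le_iff₀ hq1] at h0
    have : lam + (1 - lam) / q = (lam * (q - 1) + 1) / q := by
      field_simp
      ring
    rw [this]
    exact div_nonneg (by linarith) hq0.le
  · simp only [hij, if_false, mul_zero, zero_add]
    exact div_nonneg (by linarith) hq0.le

theorem potts_center {q : ℕ} (hq : 0 < q) (lam : ℝ) (i j : Fin q) :
    ∑ k, pottsKernel q lam i k * ((if k = j then 1 else 0) - 1 / (q : ℝ)) =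
      lam * ((if i = j then 1 else 0) - 1 / (q : ℝ)) := by
  have h := potts_sum hq lam i
  simp only [mul_sub, Finset.sum_sub_distrib, ← Finset.sum_mul, h]
  simp only [mul_ite, mul_one, mul_zero, Finset.sum_ite_eq', Finset.mem_univ, if_true]
  unfold pottsKernel
  have hq' : (0 : ℝ) < q := by exact_mod_cast hq
  by_cases hij : i = j
  · simp only [hij, if_true]
    field_simp
    ring
  · simp only [hij, if_false]
    field_simp
    ring

/-! ### Likelihoods on a fixed tree -/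

theorem gwLik_nonneg {q : ℕ} (hq : 2 ≤ q) {lam : ℝ} (h0 : -1 / ((q : ℝ) - 1) ≤ lam)
    (h1 : lam ≤ 1) : ∀ (n : ℕ) (t : GWTree n) (i : Fin q) (x : GWCfg q n t),
    0 ≤ gwLik q lam n t i x
  | 0 => fun _ i (x : Fin q) => by
    change (0 : ℝ) ≤ if i = x then 1 else 0
    split_ifs <;> norm_num
  | n + 1 => fun t i x => by
    change 0 ≤ ∏ k : Fin t.1, ∑ j : Fin q, pottsKernel q lam i j * gwLik q lam n (t.2 k) j (x k)
    exact Finset.prod_nonneg fun k _ => Finset.sum_nonneg fun j _ =>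
      mul_nonneg (potts_nonneg hq h0 h1 i j) (gwLik_nonneg hq h0 h1 n (t.2 k) j (x k))

theorem child_sum {q : ℕ} (hq : 0 < q) {lam : ℝ} {Ω : Type} [Fintype Ω] (L : Fin q → Ω → ℝ)
    (hL : ∀ j, ∑ x, L j x = 1) (i : Fin q) :
    ∑ x, ∑ j, pottsKernel q lam i j * L j x = 1 := by
  rw [Finset.sum_comm]
  simp only [← Finset.mul_sum, hL, mul_one]
  exact potts_sum hq lam i

theorem gwLik_sum {q : ℕ} (hq : 0 < q) (lam : ℝ) : ∀ (n : ℕ) (t : GWTree n) (i : Fin q),
    ∑ x, gwLik q lam n t i x = 1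
  | 0 => fun _ i => by
    change ∑ x : Fin q, (if i = x then (1 : ℝ) else 0) = 1
    simp
  | n + 1 => fun t i => by
    change ∑ x : ((k : Fin t.1) → GWCfg q n (t.2 k)),
      ∏ k : Fin t.1, ∑ j : Fin q, pottsKernel q lam i j * gwLik q lam n (t.2 k) j (x k) = 1
    rw [prod_mass (fun (k : Fin t.1) (y : GWCfg q n (t.2 k)) =>
      ∑ j : Fin q, pottsKernel q lam i j * gwLik q lam n (t.2 k) j y)]
    refine Finset.prod_eq_one fun k _ => ?_
    exact child_sum hq _ (fun j => gwLik_sum hq lam n (t.2 k) j) i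

/-- the linear statistic -/
noncomputable def stat (q : ℕ) : (n : ℕ) → (t : GWTree n) → GWCfg q n t → Fin q → ℝ
  | 0 => fun _ (x : Fin q) j => (if x = j then 1 else 0) - 1 / (q : ℝ)
  | n + 1 => fun t x j => ∑ a : Fin t.1, stat q n (t.2 a) (x a) j

/-- number of vertices on the last level -/
noncomputable def Z : (n : ℕ) → GWTree n → NNReal
  | 0 => fun _ => 1
  | n + 1 => fun t => ∑ a : Fin t.1, Z n (t.2 a)

/-- normalised second moment of the linear statistic -/
noncomputable def W (l : NNReal) : (n : ℕ) → GWTree n → NNReal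
  | 0 => fun _ => 1
  | n + 1 => fun t => ∑ a : Fin t.1, W l n (t.2 a) +
      l ^ (n + 1) * ∑ a : Fin t.1, ∑ b : Fin t.1, if a = b then 0 else Z n (t.2 a) * Z n (t.2 b)

theorem child_mean {q : ℕ} (hq : 0 < q) {lam : ℝ} {Ω : Type} [Fintype Ω] (L : Fin q → Ω → ℝ)
    (f : Ω → Fin q → ℝ) (m : ℝ)
    (hm : ∀ i j, ∑ x, L i x * f x j = m * ((if i = j then 1 else 0) - 1 / (q : ℝ)))
    (i j : Fin q) :
    ∑ x, (∑ k, pottsKernel q lam i k * L k x) * f x j =
      lam * m * ((if i = j then 1 else 0) - 1 / (q : ℝ)) := by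
  have h1 : ∑ x, (∑ k, pottsKernel q lam i k * L k x) * f x j =
      ∑ k, pottsKernel q lam i k * ∑ x, L k x * f x j := by
    simp only [Finset.sum_mul, Finset.mul_sum]
    rw [Finset.sum_comm]
    refine Finset.sum_congr rfl fun k _ => Finset.sum_congr rfl fun x _ => ?_
    ring
  rw [h1]
  have h2 := potts_center hq lam i j
  calc ∑ k, pottsKernel q lam i k * ∑ x, L k x * f x j
      = ∑ k, m * (pottsKernel q lam i k * ((if k = j then 1 else 0) - 1 / (q : ℝ))) := by
        refine Finset.sum_congr rfl fun k _ => ?_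
        rw [hm]
        ring
    _ = m * (lam * ((if i = j then 1 else 0) - 1 / (q : ℝ))) := by
        rw [← Finset.mul_sum, h2]
    _ = _ := by ring

theorem stat_mean {q : ℕ} (hq : 0 < q) (lam : ℝ) : ∀ (n : ℕ) (t : GWTree n) (i j : Fin q),
    ∑ x, gwLik q lam n t i x * stat q n t x j =
      lam ^ n * (Z n t : ℝ) * ((if i = j then 1 else 0) - 1 / (q : ℝ))
  | 0 => fun _ i j => by
    change ∑ x : Fin q, (if i = x then (1 : ℝ) else 0) * ((if x = j then 1 else 0) - 1 / (q : ℝ)) =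
      lam ^ 0 * ((1 : NNReal) : ℝ) * ((if i = j then 1 else 0) - 1 / (q : ℝ))
    simp
  | n + 1 => fun t i j => by
    change ∑ x : ((k : Fin t.1) → GWCfg q n (t.2 k)),
      (∏ k : Fin t.1, ∑ j' : Fin q, pottsKernel q lam i j' * gwLik q lam n (t.2 k) j' (x k)) *
        (∑ a : Fin t.1, stat q n (t.2 a) (x a) j) =
      lam ^ (n + 1) * ((∑ a : Fin t.1, Z n (t.2 a) : NNReal) : ℝ) *
        ((if i = j then 1 else 0) - 1 / (q : ℝ))
    simp only [Finset.mul_sum]
    rw [Finset.sum_comm]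
    push_cast
    rw [Finset.mul_sum, Finset.sum_mul]
    refine Finset.sum_congr rfl fun a _ => ?_
    have h1 := prod_mean (Ω := fun a => GWCfg q n (t.2 a))
      (fun (k : Fin t.1) (y : GWCfg q n (t.2 k)) =>
        ∑ j' : Fin q, pottsKernel q lam i j' * gwLik q lam n (t.2 k) j' y)
      (fun k => child_sum hq _ (fun j => gwLik_sum hq lam n (t.2 k) j) i)
      (fun k y => stat q n (t.2 k) y j) a
    rw [h1, child_mean hq _ _ (lam ^ n * (Z n (t.2 a) : ℝ))
      (fun i j => stat_mean hq lam n (t.2 a) i j)]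
    ring

theorem stat_sq {q : ℕ} (hq : 0 < q) (lam : ℝ) (l : NNReal) (hl : (l : ℝ) = lam ^ 2) :
    ∀ (n : ℕ) (t : GWTree n) (i : Fin q),
    ∑ x, gwLik q lam n t i x * ∑ j, (stat q n t x j) ^ 2 = (1 - 1 / (q : ℝ)) * (W l n t : ℝ)
  | 0 => fun _ i => by
    change ∑ x : Fin q, (if i = x then (1 : ℝ) else 0) *
      ∑ j, ((if x = j then (1 : ℝ) else 0) - 1 / (q : ℝ)) ^ 2 =
      (1 - 1 / (q : ℝ)) * ((1 : NNReal) : ℝ)
    have hq' : (0 : ℝ) < q := by exact_mod_cast hq
    simp only [ite_mul, one_mul, zero_mul, Finset.sum_ite_eq, Finset.mem_univ, if_true, sub_sq,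
      Finset.sum_add_distrib, Finset.sum_sub_distrib, ite_pow, one_pow, mul_ite, mul_one,
      mul_zero, zero_pow, ne_eq, OfNat.ofNat_ne_zero, not_false_eq_true, Finset.sum_const,
      Finset.card_univ, Fintype.card_fin, nsmul_eq_mul, NNReal.coe_one]
    field_simp
    ring
  | n + 1 => fun t i => by
    change ∑ x : ((k : Fin t.1) → GWCfg q n (t.2 k)),
      (∏ k : Fin t.1, ∑ j' : Fin q, pottsKernel q lam i j' * gwLik q lam n (t.2 k) j' (x k)) *
        (∑ j, (∑ a : Fin t.1, stat q n (t.2 a) (x a) j) ^ 2) =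
      (1 - 1 / (q : ℝ)) * ((∑ a : Fin t.1, W l n (t.2 a) +
      l ^ (n + 1) * ∑ a : Fin t.1, ∑ b : Fin t.1,
        if a = b then 0 else Z n (t.2 a) * Z n (t.2 b) : NNReal) : ℝ)
    have hq' : (0 : ℝ) < q := by exact_mod_cast hq
    have hj : ∀ j : Fin q, ∑ x : ((k : Fin t.1) → GWCfg q n (t.2 k)),
      (∏ k : Fin t.1, ∑ j' : Fin q, pottsKernel q lam i j' * gwLik q lam n (t.2 k) j' (x k)) *
        (∑ a : Fin t.1, stat q n (t.2 a) (x a) j) ^ 2 =
        ∑ a, ∑ y, (∑ j' : Fin q, pottsKernel q lam i j' * gwLik q lam n (t.2 a) j' y) *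
          (stat q n (t.2 a) y j) ^ 2 +
        ∑ a, ∑ b, if a = b then 0 else
          (lam * (lam ^ n * (Z n (t.2 a) : ℝ)) * ((if i = j then 1 else 0) - 1 / (q : ℝ))) *
          (lam * (lam ^ n * (Z n (t.2 b) : ℝ)) * ((if i = j then 1 else 0) - 1 / (q : ℝ))) := by
      intro j
      have h1 := prod_sq (Ω := fun a => GWCfg q n (t.2 a))
        (fun (k : Fin t.1) (y : GWCfg q n (t.2 k)) =>
          ∑ j' : Fin q, pottsKernel q lam i j' * gwLik q lam n (t.2 k) j' y)
        (fun k => child_sum hq _ (fun j => gwLik_sum hq lam n (t.2 k) j) i)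
        (fun k y => stat q n (t.2 k) y j)
      rw [h1]
      congr 1
      refine Finset.sum_congr rfl fun a _ => Finset.sum_congr rfl fun b _ => ?_
      rw [child_mean hq _ _ (lam ^ n * (Z n (t.2 a) : ℝ))
        (fun i j => stat_mean hq lam n (t.2 a) i j),
        child_mean hq _ _ (lam ^ n * (Z n (t.2 b) : ℝ))
        (fun i j => stat_mean hq lam n (t.2 b) i j)]
    have hsplit : ∑ x : ((k : Fin t.1) → GWCfg q n (t.2 k)),
      (∏ k : Fin t.1, ∑ j' : Fin q, pottsKernel q lam i j' * gwLik q lam n (t.2 k) j' (x k)) *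
        (∑ j, (∑ a : Fin t.1, stat q n (t.2 a) (x a) j) ^ 2) =
        ∑ j : Fin q, ∑ x : ((k : Fin t.1) → GWCfg q n (t.2 k)),
      (∏ k : Fin t.1, ∑ j' : Fin q, pottsKernel q lam i j' * gwLik q lam n (t.2 k) j' (x k)) *
        (∑ a : Fin t.1, stat q n (t.2 a) (x a) j) ^ 2 := by
      rw [Finset.sum_comm]
      refine Finset.sum_congr rfl fun x _ => ?_
      rw [Finset.mul_sum]
    rw [hsplit, Finset.sum_congr rfl fun j _ => hj j, Finset.sum_add_distrib]
    have hcen : ∑ j : Fin q, ((if i = j then (1 : ℝ) else 0) - 1 / (q : ℝ)) ^ 2 =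
        1 - 1 / (q : ℝ) := by
      simp only [sub_sq, Finset.sum_add_distrib, Finset.sum_sub_distrib, ite_pow, one_pow,
        mul_ite, ite_mul, mul_one,
        mul_zero, zero_mul, zero_pow, ne_eq, OfNat.ofNat_ne_zero, not_false_eq_true,
        Finset.sum_const, Finset.sum_ite_eq, Finset.mem_univ, if_true,
        Finset.card_univ, Fintype.card_fin, nsmul_eq_mul]
      field_simp
      ring
    have hA : ∑ j : Fin q, ∑ a : Fin t.1, ∑ y,
        (∑ j' : Fin q, pottsKernel q lam i j' * gwLik q lam n (t.2 a) j' y) *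
          (stat q n (t.2 a) y j) ^ 2 = (1 - 1 / (q : ℝ)) * ∑ a : Fin t.1, (W l n (t.2 a) : ℝ) := by
      rw [Finset.sum_comm, Finset.mul_sum]
      refine Finset.sum_congr rfl fun a _ => ?_
      have e1 : ∑ j : Fin q, ∑ y,
          (∑ j' : Fin q, pottsKernel q lam i j' * gwLik q lam n (t.2 a) j' y) *
          (stat q n (t.2 a) y j) ^ 2 =
          ∑ j' : Fin q, pottsKernel q lam i j' * ∑ y, gwLik q lam n (t.2 a) j' y *
            ∑ j, (stat q n (t.2 a) y j) ^ 2 := by
        simp only [Finset.sum_mul, Finset.mul_sum]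
        rw [Finset.sum_comm]
        conv_rhs => rw [Finset.sum_comm]
        refine Finset.sum_congr rfl fun y _ => ?_
        rw [Finset.sum_comm]
        refine Finset.sum_congr rfl fun j' _ => Finset.sum_congr rfl fun j _ => ?_
        ring
      rw [e1]
      simp only [stat_sq hq lam l hl n (t.2 a)]
      rw [← Finset.sum_mul, potts_sum hq, one_mul]
    have hB : ∑ j : Fin q, ∑ a : Fin t.1, ∑ b : Fin t.1, (if a = b then 0 else
          (lam * (lam ^ n * (Z n (t.2 a) : ℝ)) * ((if i = j then 1 else 0) - 1 / (q : ℝ))) *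
          (lam * (lam ^ n * (Z n (t.2 b) : ℝ)) * ((if i = j then 1 else 0) - 1 / (q : ℝ)))) =
        (1 - 1 / (q : ℝ)) * ((l : ℝ) ^ (n + 1) * ∑ a : Fin t.1, ∑ b : Fin t.1,
          if a = b then 0 else (Z n (t.2 a) : ℝ) * (Z n (t.2 b) : ℝ)) := by
      have e1 : ∀ j : Fin q, ∑ a : Fin t.1, ∑ b : Fin t.1, (if a = b then 0 else
          (lam * (lam ^ n * (Z n (t.2 a) : ℝ)) * ((if i = j then 1 else 0) - 1 / (q : ℝ))) *
          (lam * (lam ^ n * (Z n (t.2 b) : ℝ)) * ((if i = j then 1 else 0) - 1 / (q : ℝ)))) =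
          ((if i = j then (1 : ℝ) else 0) - 1 / (q : ℝ)) ^ 2 * ((l : ℝ) ^ (n + 1) *
            ∑ a : Fin t.1, ∑ b : Fin t.1,
            if a = b then 0 else (Z n (t.2 a) : ℝ) * (Z n (t.2 b) : ℝ)) := by
        intro j
        simp only [Finset.mul_sum]
        refine Finset.sum_congr rfl fun a _ => Finset.sum_congr rfl fun b _ => ?_
        by_cases hab : a = b
        · simp [hab]
        · simp only [hab, if_false, hl]
          ring
      rw [Finset.sum_congr rfl fun j _ => e1 j, ← Finset.sum_mul, hcen]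
    rw [hA, hB, ← mul_add]
    congr 1
    push_cast
    congr 1
    congr 1
    refine Finset.sum_congr rfl fun a _ => Finset.sum_congr rfl fun b _ => ?_
    by_cases hab : a = b
    · simp [hab]
    · simp [hab]

/-- lower bound of the bias on a fixed tree -/
theorem avgBias_gw_lower {q : ℕ} (hq : 2 ≤ q) {lam : ℝ} (h0 : -1 / ((q : ℝ) - 1) ≤ lam)
    (h1 : lam ≤ 1) (l : NNReal) (hl : (l : ℝ) = lam ^ 2) (n : ℕ) (t : GWTree n) (s : ℝ) :
    (((q : ℝ) - 1) / (2 * q)) * (2 * s * (lam ^ n * (Z n t : ℝ)) - s ^ 2 * (W l n t : ℝ)) ≤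
      avgBias (gwLik q lam n t) :=
  avgBias_lower (by omega) _ (gwLik_nonneg hq h0 h1 n t) (stat q n t) _ _ s
    (stat_mean (by omega) lam n t) (stat_sq (by omega) lam l hl n t)

/-! ### Restriction of trees and monotonicity -/

/-- forget the last level of a tree -/
def restr : (n : ℕ) → GWTree (n + 1) → GWTree n
  | 0 => fun _ => ()
  | n + 1 => fun t => ⟨t.1, fun a => restr n (t.2 a)⟩

theorem degr_prod {q k : ℕ} {Ω Ω' : Fin k → Type} [∀ a, Fintype (Ω a)] [∀ a, Fintype (Ω' a)]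
    (lam : ℝ) (L : ∀ a, Fin q → Ω a → ℝ) (L' : ∀ a, Fin q → Ω' a → ℝ)
    (h : ∀ a, Degr (L a) (L' a)) :
    Degr (fun i (x : ∀ a, Ω a) => ∏ a, ∑ j, pottsKernel q lam i j * L a j (x a))
      (fun i (y : ∀ a, Ω' a) => ∏ a, ∑ j, pottsKernel q lam i j * L' a j (y a)) := by
  choose K hK0 hK1 hK using h
  refine ⟨fun x y => ∏ a, K a (x a) (y a), fun x y => Finset.prod_nonneg fun a _ => hK0 a _ _,
    fun x => ?_, fun i y => ?_⟩
  · rw [prod_mass (fun a y => K a (x a) y)]
    exact Finset.prod_eq_one fun a _ => hK1 a _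
  · have h1 : ∀ a, ∑ j, pottsKernel q lam i j * L' a j (y a) =
        ∑ z, (∑ j, pottsKernel q lam i j * L a j z) * K a z (y a) := by
      intro a
      simp only [hK, Finset.mul_sum, Finset.sum_mul]
      rw [Finset.sum_comm]
      refine Finset.sum_congr rfl fun z _ => Finset.sum_congr rfl fun j _ => ?_
      ring
    simp only [h1]
    rw [← prod_mass (fun a z => (∑ j, pottsKernel q lam i j * L a j z) * K a z (y a))]
    refine Finset.sum_congr rfl fun x _ => ?_
    rw [Finset.prod_mul_distrib]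

theorem degr_gw {q : ℕ} (hq : 2 ≤ q) {lam : ℝ} (h0 : -1 / ((q : ℝ) - 1) ≤ lam)
    (h1 : lam ≤ 1) : ∀ (n : ℕ) (t : GWTree (n + 1)),
    Degr (gwLik q lam n (restr n t)) (gwLik q lam (n + 1) t)
  | 0 => fun t => by
    refine ⟨fun (x : Fin q) y => gwLik q lam 1 t x y,
      fun x y => gwLik_nonneg hq h0 h1 1 t x y,
      fun x => gwLik_sum (by omega) lam 1 t x, fun i y => ?_⟩
    change gwLik q lam 1 t i y = ∑ x : Fin q, (if i = x then (1 : ℝ) else 0) *
      gwLik q lam 1 t x y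
    simp
  | n + 1 => fun t =>
    degr_prod lam (fun a => gwLik q lam n (restr n (t.2 a)))
      (fun a => gwLik q lam (n + 1) (t.2 a)) (fun a => degr_gw hq h0 h1 n (t.2 a))

theorem avgBias_restr {q : ℕ} (hq : 2 ≤ q) {lam : ℝ} (h0 : -1 / ((q : ℝ) - 1) ≤ lam)
    (h1 : lam ≤ 1) (n : ℕ) (t : GWTree (n + 1)) :
    avgBias (gwLik q lam (n + 1) t) ≤ avgBias (gwLik q lam n (restr n t)) :=
  avgBias_mono (by omega) _ _ (gwLik_nonneg hq h0 h1 n _) (degr_gw hq h0 h1 n t)

theorem avgBias_nonneg {q : ℕ} (hq : 0 < q) {Ω : Type} [Fintype Ω] (L : Fin q → Ω → ℝ)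
    (hL : ∀ i x, 0 ≤ L i x) : 0 ≤ avgBias L := by
  rw [avgBias_eq hq L hL]
  positivity

theorem avgBias_le_one {q : ℕ} (hq : 0 < q) {Ω : Type} [Fintype Ω] (L : Fin q → Ω → ℝ)
    (hL : ∀ i x, 0 ≤ L i x) (hL1 : ∀ i, ∑ x, L i x = 1) : avgBias L ≤ 1 := by
  rw [avgBias_eq hq L hL]
  have hq' : (0 : ℝ) < q := by exact_mod_cast hq
  have h1 : ∑ x, ∑ i, |dev L x i| ≤ ∑ x, ∑ i, (L i x + (1 / (q : ℝ)) * ∑ j, L j x) := by
    refine Finset.sum_le_sum fun x _ => Finset.sum_le_sum fun i _ => ?_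
    have h2 : 0 ≤ (1 / (q : ℝ)) * ∑ j, L j x :=
      mul_nonneg (by positivity) (Finset.sum_nonneg fun j _ => hL j x)
    have h3 := hL i x
    unfold dev
    rw [abs_le]
    constructor <;> linarith
  have h2 : ∑ x, ∑ i, (L i x + (1 / (q : ℝ)) * ∑ j, L j x) = 2 * q := by
    simp only [Finset.sum_add_distrib, Finset.sum_const, Finset.card_univ, Fintype.card_fin,
      nsmul_eq_mul]
    have h3 : ∑ x, ∑ i, L i x = q := by
      rw [Finset.sum_comm]
      simp [hL1]
    have h4 : ∑ x, (q : ℝ) * ((1 / (q : ℝ)) * ∑ j, L j x) = q := by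
      rw [← h3]
      refine Finset.sum_congr rfl fun x _ => ?_
      rw [h3]
      field_simp
    rw [h3, h4]
    ring
  rw [h2] at h1
  calc (1 / (2 * (q : ℝ))) * ∑ x, ∑ i, |dev L x i| ≤ (1 / (2 * (q : ℝ))) * (2 * q) :=
        mul_le_mul_of_nonneg_left h1 (by positivity)
    _ = 1 := by field_simp

/-! ### The regular tree -/

/-- the `d`-ary tree as a plane tree -/
def regTree (d : ℕ) : (n : ℕ) → GWTree n
  | 0 => ()
  | n + 1 => ⟨d, fun _ => regTree d n⟩

/-- configurations on the regular tree -/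
def cfgEquiv (q d : ℕ) : (n : ℕ) → RegCfg q d n ≃ GWCfg q n (regTree d n)
  | 0 => Equiv.refl (Fin q)
  | n + 1 => Equiv.piCongrRight (fun _ : Fin d => cfgEquiv q d n)

theorem regLik_eq (q d : ℕ) (lam : ℝ) : ∀ (n : ℕ) (i : Fin q) (x : RegCfg q d n),
    regLik q d lam n i x = gwLik q lam n (regTree d n) i (cfgEquiv q d n x)
  | 0 => fun i x => rfl
  | n + 1 => fun i x => by
    change ∏ k : Fin d, ∑ j : Fin q, pottsKernel q lam i j * regLik q d lam n j (x k) =
      ∏ k : Fin d, ∑ j : Fin q, pottsKernel q lam i j *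
        gwLik q lam n (regTree d n) j (cfgEquiv q d n (x k))
    refine Finset.prod_congr rfl fun k _ => Finset.sum_congr rfl fun j _ => ?_
    rw [regLik_eq q d lam n j (x k)]

theorem regA_eq (q d : ℕ) (lam : ℝ) (n : ℕ) :
    regA q d lam n = avgBias (gwLik q lam n (regTree d n)) := by
  have h : regLik q d lam n = fun i x => gwLik q lam n (regTree d n) i (cfgEquiv q d n x) := by
    funext i x
    exact regLik_eq q d lam n i x
  unfold regA
  rw [h]
  unfold avgBias
  exact (cfgEquiv q d n).sum_comp (fun y => obsProb (gwLik q lam n (regTree d n)) y *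
    ((1 / 2) * ∑ i, |posterior (gwLik q lam n (regTree d n)) y i - 1 / (q : ℝ)|))

theorem restr_regTree (d : ℕ) : ∀ n, restr n (regTree d (n + 1)) = regTree d n
  | 0 => rfl
  | n + 1 => by
    change (⟨d, fun _ => restr n (regTree d (n + 1))⟩ : Σ k : ℕ, Fin k → GWTree n) =
      ⟨d, fun _ => regTree d n⟩
    rw [restr_regTree d n]

theorem Z_regTree (d : ℕ) : ∀ n, (Z n (regTree d n) : ℝ) = (d : ℝ) ^ n
  | 0 => by
    change ((1 : NNReal) : ℝ) = (d : ℝ) ^ 0
    simp
  | n + 1 => by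
    change ((∑ _a : Fin d, Z n (regTree d n) : NNReal) : ℝ) = (d : ℝ) ^ (n + 1)
    push_cast
    rw [Z_regTree d n]
    simp [pow_succ]
    ring

/-- the recursion bound -/
theorem rec_bound {d l K : ℝ} (hd : 0 < d) (hdl : 1 < d * l) (hK : K = d * l / (d * l - 1))
    (n : ℕ) : d * (K * (d ^ 2 * l) ^ n) + l ^ (n + 1) * (d ^ (n + 1)) ^ 2 =
      K * (d ^ 2 * l) ^ (n + 1) := by
  have h1 : 0 < d * l - 1 := by linarith
  have h2 : l ^ (n + 1) * (d ^ (n + 1)) ^ 2 = (d ^ 2 * l) ^ n * (d ^ 2 * l) := by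
    rw [← pow_succ, mul_pow, ← pow_mul, ← pow_mul, mul_comm (n + 1) 2, mul_comm]
  have h3 : d * K + d ^ 2 * l = K * (d ^ 2 * l) := by
    rw [hK]
    field_simp
    ring
  rw [h2, pow_succ]
  calc d * (K * (d ^ 2 * l) ^ n) + (d ^ 2 * l) ^ n * (d ^ 2 * l)
      = (d ^ 2 * l) ^ n * (d * K + d ^ 2 * l) := by ring
    _ = _ := by
      rw [h3]
      ring

theorem K_ge_one {d l K : ℝ} (hdl : 1 < d * l) (hK : K = d * l / (d * l - 1)) : 1 ≤ K := by
  have h1 : 0 < d * l - 1 := by linarith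
  rw [hK, le_div_iff₀ h1]
  linarith

theorem W_regTree (d : ℕ) (l : NNReal) (K : ℝ) (hdl : 1 < (d : ℝ) * l)
    (hK : K = (d : ℝ) * l / ((d : ℝ) * l - 1)) :
    ∀ n, (W l n (regTree d n) : ℝ) ≤ K * ((d : ℝ) ^ 2 * l) ^ n
  | 0 => by
    change ((1 : NNReal) : ℝ) ≤ K * ((d : ℝ) ^ 2 * l) ^ 0
    simpa using K_ge_one hdl hK
  | n + 1 => by
    have hd : (0 : ℝ) < d := by
      by_contra h
      have h2 : (d : ℝ) = 0 := le_antisymm (not_lt.mp h) (Nat.cast_nonneg d)
      rw [h2] at hdl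
      linarith
    change ((∑ _a : Fin d, W l n (regTree d n) + l ^ (n + 1) * ∑ a : Fin d, ∑ b : Fin d,
      if a = b then 0 else Z n (regTree d n) * Z n (regTree d n) : NNReal) : ℝ) ≤ _
    rw [← rec_bound hd hdl hK n]
    push_cast
    have ih := W_regTree d l K hdl hK n
    refine add_le_add ?_ ?_
    · simp only [Finset.sum_const, Finset.card_univ, Fintype.card_fin, nsmul_eq_mul]
      exact mul_le_mul_of_nonneg_left ih hd.le
    · refine mul_le_mul_of_nonneg_left ?_ (by positivity)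
      calc ∑ a : Fin d, ∑ b : Fin d, (((if a = b then 0 else
            Z n (regTree d n) * Z n (regTree d n) : NNReal)) : ℝ)
          ≤ ∑ a : Fin d, ∑ b : Fin d, ((d : ℝ) ^ n) ^ 2 := by
            refine Finset.sum_le_sum fun a _ => Finset.sum_le_sum fun b _ => ?_
            by_cases hab : a = b
            · simp only [hab, if_true, NNReal.coe_zero]
              positivity
            · simp only [hab, if_false, NNReal.coe_mul, Z_regTree]
              rw [sq]
        _ = ((d : ℝ) ^ (n + 1)) ^ 2 := by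
            simp only [Finset.sum_const, Finset.card_univ, Fintype.card_fin, nsmul_eq_mul]
            ring

/-- an antitone sequence bounded below by a positive constant has a positive limit -/
theorem reconstruction_of_antitone {a : ℕ → ℝ} {c : ℝ} (hc : 0 < c) (ha : Antitone a)
    (hl : ∀ n, c ≤ a n) : Reconstruction a := by
  have hbdd : BddBelow (Set.range a) := ⟨c, by
    rintro _ ⟨n, rfl⟩
    exact hl n⟩
  exact ⟨⨅ n, a n, lt_of_lt_of_le hc (le_ciInf hl), tendsto_atTop_ciInf ha hbdd⟩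

end KS

theorem reconstruction_reg {q d : ℕ} {lam : ℝ} (hq : 2 ≤ q) (hd : 1 ≤ d)
    (h0 : -1 / ((q : ℝ) - 1) ≤ lam) (h1 : lam ≤ 1) (h : 1 < (d : ℝ) * lam ^ 2) :
    Reconstruction (regA q d lam) := by
  have hq' : (2 : ℝ) ≤ q := by exact_mod_cast hq
  obtain ⟨l, hl⟩ : ∃ l : NNReal, (l : ℝ) = lam ^ 2 := ⟨⟨lam ^ 2, sq_nonneg _⟩, rfl⟩
  have hdl : 1 < (d : ℝ) * l := by rw [hl]; exact h
  obtain ⟨K, hK⟩ : ∃ K : ℝ, K = (d : ℝ) * l / ((d : ℝ) * l - 1) := ⟨_, rfl⟩
  have hK1 : 1 ≤ K := KS.K_ge_one hdl hK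
  have hK0 : 0 < K := by linarith
  have hc : 0 < (((q : ℝ) - 1) / (2 * q)) := div_pos (by linarith) (by linarith)
  have hlam : lam * d ≠ 0 := by
    intro h2
    have : (d : ℝ) * lam ^ 2 = lam * d * lam := by ring
    rw [this, h2] at h
    linarith
  refine KS.reconstruction_of_antitone (c := (((q : ℝ) - 1) / (2 * q)) * (1 / K))
    (by positivity) ?_ ?_
  · refine antitone_nat_of_succ_le fun n => ?_
    rw [KS.regA_eq, KS.regA_eq]
    have h3 := KS.avgBias_restr hq h0 h1 n (KS.regTree d (n + 1))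
    rw [KS.restr_regTree] at h3
    exact h3
  · intro n
    rw [KS.regA_eq]
    have h3 := KS.avgBias_gw_lower hq h0 h1 l hl n (KS.regTree d n)
      ((1 / K) / (lam * d) ^ n)
    refine le_trans (mul_le_mul_of_nonneg_left ?_ hc.le) h3
    have hp : (lam * d) ^ n ≠ 0 := pow_ne_zero n hlam
    have e1 : 2 * ((1 / K) / (lam * d) ^ n) * (lam ^ n * (KS.Z n (KS.regTree d n) : ℝ)) =
        2 / K := by
      rw [KS.Z_regTree, ← mul_pow]
      field_simp
    have e2 : ((1 / K) / (lam * d) ^ n) ^ 2 * (KS.W l n (KS.regTree d n) : ℝ) ≤ 1 / K := by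
      have h4 := KS.W_regTree d l K hdl hK n
      have h5 : ((d : ℝ) ^ 2 * l) ^ n = ((lam * d) ^ n) ^ 2 := by
        rw [hl]
        ring
      rw [h5] at h4
      calc ((1 / K) / (lam * d) ^ n) ^ 2 * (KS.W l n (KS.regTree d n) : ℝ)
          ≤ ((1 / K) / (lam * d) ^ n) ^ 2 * (K * ((lam * d) ^ n) ^ 2) :=
            mul_le_mul_of_nonneg_left h4 (sq_nonneg _)
        _ = 1 / K := by
            field_simp
    rw [e1]
    have e3 : 2 / K - 1 / K = 1 / K := by ring
    linarith

namespace KS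

/-! ### Sums over products -/

theorem tsum_pi_succ {α : Type} (k : ℕ) (G : (Fin (k + 1) → α) → ENNReal) :
    ∑' x : Fin (k + 1) → α, G x = ∑' a : α, ∑' x : Fin k → α, G (Fin.cons a x) := by
  rw [← (Fin.consEquiv (fun _ : Fin (k + 1) => α)).tsum_eq, ENNReal.tsum_prod']
  rfl

theorem tsum_pi_prod {α : Type} : ∀ (k : ℕ) (F : Fin k → α → ENNReal),
    ∑' x : Fin k → α, ∏ i, F i (x i) = ∏ i, ∑' a, F i a
  | 0 => fun F => by
    simp
  | k + 1 => fun F => by
    rw [tsum_pi_succ, Fin.prod_univ_succ, ← ENNReal.tsum_mul_right]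
    refine tsum_congr fun a => ?_
    rw [← tsum_pi_prod k, ← ENNReal.tsum_mul_left]
    refine tsum_congr fun x => ?_
    rw [Fin.prod_univ_succ]
    simp

theorem tsum_pi_map {α β : Type} (p : α → ENNReal) (p' : β → ENNReal) (r : α → β)
    (h : ∀ g : β → ENNReal, ∑' a, p a * g (r a) = ∑' b, p' b * g b) :
    ∀ (k : ℕ) (g : (Fin k → β) → ENNReal),
    ∑' x : Fin k → α, (∏ i, p (x i)) * g (fun i => r (x i)) =
      ∑' y : Fin k → β, (∏ i, p' (y i)) * g y
  | 0 => fun g => by
    have h1 : ∀ x : Fin 0 → α, (fun i => r (x i)) = (Fin.elim0 : Fin 0 → β) :=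
      fun x => Subsingleton.elim _ _
    have h2 : ∀ y : Fin 0 → β, g y = g (Fin.elim0 : Fin 0 → β) :=
      fun y => congrArg g (Subsingleton.elim _ _)
    simp only [h1, Finset.univ_eq_empty, Finset.prod_empty, one_mul]
    rw [tsum_congr h2]
    simp
  | k + 1 => fun g => by
    rw [tsum_pi_succ, tsum_pi_succ]
    have h1 : ∀ a : α, ∑' x : Fin k → α, (∏ i, p ((Fin.cons a x : Fin (k + 1) → α) i)) *
        g (fun i => r ((Fin.cons a x : Fin (k + 1) → α) i)) =
        p a * ∑' y : Fin k → β, (∏ i, p' (y i)) * g (Fin.cons (r a) y) := by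
      intro a
      rw [← tsum_pi_map p p' r h k (fun y => g (Fin.cons (r a) y)), ← ENNReal.tsum_mul_left]
      refine tsum_congr fun x => ?_
      rw [Fin.prod_univ_succ]
      simp only [Fin.cons_zero, Fin.cons_succ]
      have h2 : (fun i => r ((Fin.cons a x : Fin (k + 1) → α) i)) =
          (Fin.cons (r a) (fun i => r (x i)) : Fin (k + 1) → β) := by
        funext i
        refine Fin.cases ?_ (fun i => ?_) i
        · simp
        · simp
      rw [h2, mul_assoc]
    rw [tsum_congr h1, h (fun b => ∑' y : Fin k → β, (∏ i, p' (y i)) * g (Fin.cons b y))]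
    refine tsum_congr fun b => ?_
    rw [← ENNReal.tsum_mul_left]
    refine tsum_congr fun y => ?_
    rw [Fin.prod_univ_succ]
    simp only [Fin.cons_zero, Fin.cons_succ]
    rw [mul_assoc]

theorem tsum_pi_one {α : Type} (p : α → ENNReal) (hp : ∑' a, p a = 1) (k : ℕ) :
    ∑' x : Fin k → α, (∏ i, p (x i)) = 1 := by
  rw [tsum_pi_prod k (fun _ a => p a)]
  simp [hp]

theorem tsum_pi_single {α : Type} (p : α → ENNReal) (hp : ∑' a, p a = 1) (h : α → ENNReal)
    (k : ℕ) (b : Fin k) :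
    ∑' x : Fin k → α, (∏ i, p (x i)) * h (x b) = ∑' a, p a * h a := by
  have h1 : ∀ x : Fin k → α, (∏ i, p (x i)) * h (x b) =
      ∏ i, (p (x i) * if i = b then h (x i) else 1) := by
    intro x
    rw [Finset.prod_mul_distrib, Finset.prod_ite_eq']
    simp
  rw [tsum_congr h1, tsum_pi_prod k (fun i a => p a * if i = b then h a else 1),
    Finset.prod_eq_single b]
  · simp
  · intro a _ hab
    simp [hab, hp]
  · intro hb
    exact absurd (Finset.mem_univ b) hb

theorem tsum_pi_pair {α : Type} (p : α → ENNReal) (hp : ∑' a, p a = 1) (h : α → ENNReal)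
    (k : ℕ) (b c : Fin k) (hbc : b ≠ c) :
    ∑' x : Fin k → α, (∏ i, p (x i)) * (h (x b) * h (x c)) = (∑' a, p a * h a) ^ 2 := by
  have h1 : ∀ x : Fin k → α, (∏ i, p (x i)) * (h (x b) * h (x c)) =
      ∏ i, (p (x i) * ((if i = b then h (x i) else 1) * (if i = c then h (x i) else 1))) := by
    intro x
    rw [Finset.prod_mul_distrib, Finset.prod_mul_distrib, Finset.prod_ite_eq',
      Finset.prod_ite_eq']
    simp
  rw [tsum_congr h1, tsum_pi_prod k
    (fun i a => p a * ((if i = b then h a else 1) * (if i = c then h a else 1)))]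
  have h2 : ∀ i : Fin k, (∑' a, p a * ((if i = b then h a else 1) * (if i = c then h a else 1))) =
      (if i = b then (∑' a, p a * h a) else 1) * (if i = c then (∑' a, p a * h a) else 1) := by
    intro i
    by_cases hb : i = b
    · simp [hb, hbc]
    · by_cases hc : i = c
      · simp [hc, hbc.symm]
      · simp [hb, hc, hp]
  rw [Finset.prod_congr rfl fun i _ => h2 i, Finset.prod_mul_distrib, Finset.prod_ite_eq',
    Finset.prod_ite_eq']
  simp [sq]

/-! ### Poisson weights -/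

/-- Poisson weights -/
noncomputable def pois (d : ℝ) (k : ℕ) : ENNReal :=
  ENNReal.ofReal (Real.exp (-d) * d ^ k / (Nat.factorial k : ℝ))

theorem pois_sum {d : ℝ} (hd : 0 < d) : ∑' k, pois d k = 1 := by
  unfold pois
  have h1 : HasSum (fun k : ℕ => Real.exp (-d) * d ^ k / (Nat.factorial k : ℝ)) 1 := by
    have h2 := (NormedSpace.expSeries_div_hasSum_exp (d : ℝ)).mul_left (Real.exp (-d))
    rw [← Real.exp_eq_exp_ℝ, ← Real.exp_add, neg_add_cancel, Real.exp_zero] at h2
    simpa only [mul_div_assoc] using h2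
  rw [← ENNReal.ofReal_tsum_of_nonneg (fun k => by positivity) h1.summable, h1.tsum_eq]
  simp

theorem pois_succ {d : ℝ} (hd : 0 < d) (k : ℕ) :
    pois d (k + 1) * ((k + 1 : ℕ) : ENNReal) = ENNReal.ofReal d * pois d k := by
  unfold pois
  rw [← ENNReal.ofReal_natCast, ← ENNReal.ofReal_mul (by positivity),
    ← ENNReal.ofReal_mul hd.le]
  congr 1
  rw [Nat.factorial_succ]
  push_cast
  field_simp
  ring

theorem pois_mean {d : ℝ} (hd : 0 < d) : ∑' k, pois d k * (k : ENNReal) = ENNReal.ofReal d := by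
  rw [tsum_eq_zero_add' ENNReal.summable]
  simp only [pois_succ hd, Nat.cast_zero, mul_zero, zero_add]
  rw [ENNReal.tsum_mul_left, pois_sum hd, mul_one]

theorem pois_sq {d : ℝ} (hd : 0 < d) :
    ∑' k, pois d k * ((k * (k - 1) : ℕ) : ENNReal) = ENNReal.ofReal d ^ 2 := by
  rw [tsum_eq_zero_add' ENNReal.summable]
  have h1 : ∀ k, pois d (k + 1) * (((k + 1) * (k + 1 - 1) : ℕ) : ENNReal) =
      ENNReal.ofReal d * (pois d k * (k : ENNReal)) := by
    intro k
    rw [Nat.add_sub_cancel, Nat.cast_mul, ← mul_assoc, pois_succ hd, mul_assoc]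
  rw [tsum_congr h1, ENNReal.tsum_mul_left, pois_mean hd]
  simp [sq]

/-! ### Expectation over the Galton-Watson tree -/

/-- weight of a tree -/
noncomputable def wt (d : ℝ) (n : ℕ) (t : GWTree n) : ENNReal := ENNReal.ofReal (gwProb d n t)

theorem gwProb_nonneg {d : ℝ} (hd : 0 < d) : ∀ (n : ℕ) (t : GWTree n), 0 ≤ gwProb d n t
  | 0 => fun _ => zero_le_one
  | n + 1 => fun t => by
    change 0 ≤ Real.exp (-d) * d ^ t.1 / (Nat.factorial t.1 : ℝ) *
      ∏ i : Fin t.1, gwProb d n (t.2 i)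
    exact mul_nonneg (by positivity) (Finset.prod_nonneg fun i _ => gwProb_nonneg hd n _)

/-- expectation over the tree -/
noncomputable def Ex (d : ℝ) (n : ℕ) (g : GWTree n → ENNReal) : ENNReal := ∑' t, wt d n t * g t

theorem tsum_unit (g : Unit → ENNReal) : ∑' t, g t = g () := by
  rw [tsum_fintype]
  simp

theorem Ex_zero (d : ℝ) (g : GWTree 0 → ENNReal) : Ex d 0 g = g () := by
  change ∑' t : Unit, ENNReal.ofReal 1 * g t = g ()
  simp only [ENNReal.ofReal_one, one_mul]
  exact tsum_unit g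

theorem Ex_succ {d : ℝ} (hd : 0 < d) (n : ℕ) (g : GWTree (n + 1) → ENNReal) :
    Ex d (n + 1) g = ∑' k, pois d k * ∑' x : Fin k → GWTree n,
      (∏ i, wt d n (x i)) * g (⟨k, x⟩ : Σ k : ℕ, Fin k → GWTree n) := by
  change ∑' t : (Σ k : ℕ, Fin k → GWTree n), wt d (n + 1) t * g t = _
  rw [ENNReal.tsum_sigma']
  refine tsum_congr fun k => ?_
  rw [← ENNReal.tsum_mul_left]
  refine tsum_congr fun x => ?_
  rw [← mul_assoc]
  congr 1
  change ENNReal.ofReal (Real.exp (-d) * d ^ k / (Nat.factorial k : ℝ) *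
      ∏ i : Fin k, gwProb d n (x i)) = pois d k * ∏ i, ENNReal.ofReal (gwProb d n (x i))
  rw [ENNReal.ofReal_mul (by positivity),
    ENNReal.ofReal_prod_of_nonneg (fun i _ => gwProb_nonneg hd n _)]
  rfl

theorem Ex_mono {d : ℝ} (n : ℕ) {g g' : GWTree n → ENNReal} (h : ∀ t, g t ≤ g' t) :
    Ex d n g ≤ Ex d n g' :=
  ENNReal.tsum_le_tsum fun t => mul_le_mul_right (h t) _

theorem Ex_one {d : ℝ} (hd : 0 < d) : ∀ n, ∑' t, wt d n t = 1
  | 0 => by
    change ∑' t : Unit, ENNReal.ofReal 1 = 1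
    simp
  | n + 1 => by
    have h1 := Ex_succ hd n (fun _ => 1)
    unfold Ex at h1
    simp only [mul_one] at h1
    rw [h1]
    simp only [tsum_pi_one _ (Ex_one hd n), mul_one, pois_sum hd]

theorem Ex_restr {d : ℝ} (hd : 0 < d) : ∀ (n : ℕ) (g : GWTree n → ENNReal),
    ∑' t, wt d (n + 1) t * g (restr n t) = ∑' t, wt d n t * g t
  | 0 => fun g => by
    have h1 : ∀ t : GWTree 1, g (restr 0 t) = g () := fun t => rfl
    simp only [h1]
    rw [ENNReal.tsum_mul_right, Ex_one hd 1, one_mul]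
    exact (Ex_zero d g).symm
  | n + 1 => fun g => by
    have h1 := Ex_succ hd (n + 1) (fun t => g (restr (n + 1) t))
    have h2 := Ex_succ hd n g
    unfold Ex at h1 h2
    rw [h1, h2]
    refine tsum_congr fun k => ?_
    congr 1
    exact tsum_pi_map (wt d (n + 1)) (wt d n) (restr n) (Ex_restr hd n) k
      (fun y => g (⟨k, y⟩ : Σ k : ℕ, Fin k → GWTree n))

theorem Ex_Z {d : ℝ} (hd : 0 < d) : ∀ n, Ex d n (fun t => (Z n t : ENNReal)) =
    ENNReal.ofReal d ^ n
  | 0 => by
    rw [Ex_zero]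
    change ((1 : NNReal) : ENNReal) = ENNReal.ofReal d ^ 0
    simp
  | n + 1 => by
    rw [Ex_succ hd]
    have h1 : ∀ k, ∑' x : Fin k → GWTree n, (∏ i, wt d n (x i)) *
        ((Z (n + 1) (⟨k, x⟩ : Σ k : ℕ, Fin k → GWTree n) : NNReal) : ENNReal) =
        k * ENNReal.ofReal d ^ n := by
      intro k
      have h2 : ∀ x : Fin k → GWTree n, (∏ i, wt d n (x i)) *
        ((Z (n + 1) (⟨k, x⟩ : Σ k : ℕ, Fin k → GWTree n) : NNReal) : ENNReal) =
        ∑ a : Fin k, (∏ i, wt d n (x i)) * (Z n (x a) : ENNReal) := by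
        intro x
        change (∏ i, wt d n (x i)) * ((∑ a : Fin k, Z n (x a) : NNReal) : ENNReal) = _
        push_cast
        rw [Finset.mul_sum]
      rw [tsum_congr h2, Summable.tsum_finsetSum (fun _ _ => ENNReal.summable)]
      simp only [tsum_pi_single (wt d n) (Ex_one hd n) (fun t => (Z n t : ENNReal))]
      have h3 := Ex_Z hd n
      unfold Ex at h3
      rw [h3]
      simp
    simp only [h1]
    simp only [← mul_assoc]
    rw [ENNReal.tsum_mul_right, pois_mean hd, pow_succ, mul_comm]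

theorem sum_pairs (k : ℕ) (c : ENNReal) :
    ∑ a : Fin k, ∑ b : Fin k, (if a = b then 0 else c) = ((k * (k - 1) : ℕ) : ENNReal) * c := by
  have h1 : ∀ a : Fin k, ∑ b : Fin k, (if a = b then 0 else c) = ((k - 1 : ℕ) : ENNReal) * c := by
    intro a
    rw [Finset.sum_ite, Finset.sum_const_zero, zero_add, Finset.sum_const, nsmul_eq_mul]
    congr 2
    have : (Finset.univ.filter (fun b : Fin k => ¬ a = b)) = Finset.univ.erase a := by
      ext b
      simp [eq_comm]
    rw [this, Finset.card_erase_of_mem (Finset.mem_univ a)]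
    simp
  rw [Finset.sum_congr rfl fun a _ => h1 a]
  simp only [Finset.sum_const, Finset.card_univ, Fintype.card_fin, nsmul_eq_mul]
  rw [Nat.cast_mul, mul_assoc]

theorem Ex_W_succ {d : ℝ} (hd : 0 < d) (l : NNReal) (n : ℕ) :
    Ex d (n + 1) (fun t => (W l (n + 1) t : ENNReal)) =
      ENNReal.ofReal d * Ex d n (fun t => (W l n t : ENNReal)) +
        (l : ENNReal) ^ (n + 1) * (ENNReal.ofReal d ^ (n + 1)) ^ 2 := by
  rw [Ex_succ hd]
  have h1 : ∀ k, ∑' x : Fin k → GWTree n, (∏ i, wt d n (x i)) *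
      ((W l (n + 1) (⟨k, x⟩ : Σ k : ℕ, Fin k → GWTree n) : NNReal) : ENNReal) =
      k * Ex d n (fun t => (W l n t : ENNReal)) +
      (l : ENNReal) ^ (n + 1) * (((k * (k - 1) : ℕ) : ENNReal) * (ENNReal.ofReal d ^ n) ^ 2) := by
    intro k
    have h2 : ∀ x : Fin k → GWTree n, (∏ i, wt d n (x i)) *
      ((W l (n + 1) (⟨k, x⟩ : Σ k : ℕ, Fin k → GWTree n) : NNReal) : ENNReal) =
      ∑ a : Fin k, (∏ i, wt d n (x i)) * (W l n (x a) : ENNReal) +
      (l : ENNReal) ^ (n + 1) * ∑ a : Fin k, ∑ b : Fin k, (if a = b then 0 else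
        (∏ i, wt d n (x i)) * ((Z n (x a) : ENNReal) * (Z n (x b) : ENNReal))) := by
      intro x
      change (∏ i, wt d n (x i)) * ((∑ a : Fin k, W l n (x a) +
        l ^ (n + 1) * ∑ a : Fin k, ∑ b : Fin k, if a = b then 0 else
        Z n (x a) * Z n (x b) : NNReal) : ENNReal) = _
      push_cast
      rw [mul_add, Finset.mul_sum]
      congr 1
      rw [mul_left_comm]
      congr 1
      rw [Finset.mul_sum]
      refine Finset.sum_congr rfl fun a _ => ?_
      rw [Finset.mul_sum]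
      refine Finset.sum_congr rfl fun b _ => ?_
      by_cases hab : a = b
      · simp [hab]
      · simp [hab]
    rw [tsum_congr h2, ENNReal.tsum_add, ENNReal.tsum_mul_left,
      Summable.tsum_finsetSum (fun _ _ => ENNReal.summable),
      Summable.tsum_finsetSum (fun _ _ => ENNReal.summable)]
    congr 1
    · simp only [tsum_pi_single (wt d n) (Ex_one hd n) (fun t => (W l n t : ENNReal))]
      simp [Ex]
    · congr 1
      rw [← sum_pairs]
      refine Finset.sum_congr rfl fun a _ => ?_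
      rw [Summable.tsum_finsetSum (fun _ _ => ENNReal.summable)]
      refine Finset.sum_congr rfl fun b _ => ?_
      by_cases hab : a = b
      · simp [hab]
      · simp only [hab, if_false]
        rw [tsum_pi_pair (wt d n) (Ex_one hd n) (fun t => (Z n t : ENNReal)) k a b hab]
        have h3 := Ex_Z hd n
        unfold Ex at h3
        rw [h3]
  simp only [h1]
  simp only [mul_add]
  rw [ENNReal.tsum_add]
  congr 1
  · simp only [← mul_assoc]
    rw [ENNReal.tsum_mul_right, pois_mean hd]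
  · have h3 : ∀ k, pois d k * ((l : ENNReal) ^ (n + 1) * (((k * (k - 1) : ℕ) : ENNReal) *
        (ENNReal.ofReal d ^ n) ^ 2)) = (l : ENNReal) ^ (n + 1) *
        ((pois d k * ((k * (k - 1) : ℕ) : ENNReal)) * (ENNReal.ofReal d ^ n) ^ 2) := by
      intro k
      ring
    rw [tsum_congr h3, ENNReal.tsum_mul_left, ENNReal.tsum_mul_right, pois_sq hd]
    ring

theorem Ex_W {d : ℝ} (hd : 0 < d) (l : NNReal) (K : ℝ) (hdl : 1 < d * l)
    (hK : K = d * l / (d * l - 1)) :
    ∀ n, Ex d n (fun t => (W l n t : ENNReal)) ≤ ENNReal.ofReal (K * (d ^ 2 * l) ^ n)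
  | 0 => by
    rw [Ex_zero]
    change ((1 : NNReal) : ENNReal) ≤ _
    rw [ENNReal.coe_one, ENNReal.one_le_ofReal]
    simpa using K_ge_one hdl hK
  | n + 1 => by
    rw [Ex_W_succ hd, ← rec_bound hd hdl hK n]
    have hK1 := K_ge_one hdl hK
    have e1 : ENNReal.ofReal ((l : ℝ) ^ (n + 1) * (d ^ (n + 1)) ^ 2) =
        (l : ENNReal) ^ (n + 1) * (ENNReal.ofReal d ^ (n + 1)) ^ 2 := by
      rw [ENNReal.ofReal_mul (by positivity), ENNReal.ofReal_pow (by positivity),
        ENNReal.ofReal_pow (by positivity), ENNReal.ofReal_pow hd.le,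
        ENNReal.ofReal_coe_nnreal]
    rw [ENNReal.ofReal_add (by positivity) (by positivity), ENNReal.ofReal_mul hd.le, e1]
    exact add_le_add (mul_le_mul_right (Ex_W hd l K hdl hK n) _) le_rfl

theorem gw_summable {q : ℕ} (hq : 2 ≤ q) {d lam : ℝ} (hd : 0 < d)
    (h0 : -1 / ((q : ℝ) - 1) ≤ lam) (h1 : lam ≤ 1) (n : ℕ) :
    Summable (fun t : GWTree n => gwProb d n t * avgBias (gwLik q lam n t)) := by
  have h2 : ∑' t : GWTree n, ENNReal.ofReal (gwProb d n t * avgBias (gwLik q lam n t)) ≠ ⊤ := by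
    refine ne_top_of_le_ne_top ENNReal.one_ne_top ?_
    rw [← Ex_one hd n]
    refine ENNReal.tsum_le_tsum fun t => ?_
    refine ENNReal.ofReal_le_ofReal ?_
    have h3 := avgBias_le_one (by omega) _ (gwLik_nonneg hq h0 h1 n t)
      (gwLik_sum (by omega) lam n t)
    have h4 := gwProb_nonneg hd n t
    nlinarith
  have h3 := ENNReal.summable_toReal h2
  refine h3.congr fun t => ?_
  rw [ENNReal.toReal_ofReal]
  exact mul_nonneg (gwProb_nonneg hd n t)
    (avgBias_nonneg (by omega) _ (gwLik_nonneg hq h0 h1 n t))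

theorem gwA_nonneg {q : ℕ} (hq : 2 ≤ q) {d lam : ℝ} (hd : 0 < d)
    (h0 : -1 / ((q : ℝ) - 1) ≤ lam) (h1 : lam ≤ 1) (n : ℕ) : 0 ≤ gwA q d lam n :=
  tsum_nonneg fun t => mul_nonneg (gwProb_nonneg hd n t)
    (avgBias_nonneg (by omega) _ (gwLik_nonneg hq h0 h1 n t))

theorem ofReal_gwA {q : ℕ} (hq : 2 ≤ q) {d lam : ℝ} (hd : 0 < d)
    (h0 : -1 / ((q : ℝ) - 1) ≤ lam) (h1 : lam ≤ 1) (n : ℕ) :
    ENNReal.ofReal (gwA q d lam n) =
      Ex d n (fun t => ENNReal.ofReal (avgBias (gwLik q lam n t))) := by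
  unfold gwA
  rw [ENNReal.ofReal_tsum_of_nonneg (fun t => mul_nonneg (gwProb_nonneg hd n t)
    (avgBias_nonneg (by omega) _ (gwLik_nonneg hq h0 h1 n t))) (gw_summable hq hd h0 h1 n)]
  unfold Ex wt
  refine tsum_congr fun t => ?_
  rw [ENNReal.ofReal_mul (gwProb_nonneg hd n t)]

end KS

theorem reconstruction_gw {q : ℕ} {d lam : ℝ} (hq : 2 ≤ q) (hd : 0 < d)
    (h0 : -1 / ((q : ℝ) - 1) ≤ lam) (h1 : lam ≤ 1) (h : 1 < d * lam ^ 2) :
    Reconstruction (gwA q d lam) := by
  have hq' : (2 : ℝ) ≤ q := by exact_mod_cast hq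
  obtain ⟨l, hl⟩ : ∃ l : NNReal, (l : ℝ) = lam ^ 2 := ⟨⟨lam ^ 2, sq_nonneg _⟩, rfl⟩
  have hdl : 1 < d * l := by rw [hl]; exact h
  obtain ⟨K, hK⟩ : ∃ K : ℝ, K = d * l / (d * l - 1) := ⟨_, rfl⟩
  have hK1 : 1 ≤ K := KS.K_ge_one hdl hK
  have hK0 : 0 < K := by linarith
  obtain ⟨c, hc'⟩ : ∃ c : ℝ, c = (((q : ℝ) - 1) / (2 * q)) := ⟨_, rfl⟩
  have hc : 0 < c := by
    rw [hc']
    exact div_pos (by linarith) (by linarith)
  have hlam : lam * d ≠ 0 := by
    intro h2
    have : d * lam ^ 2 = lam * d * lam := by ring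
    rw [this, h2] at h
    linarith
  refine KS.reconstruction_of_antitone (c := c * (1 / K)) (by positivity) ?_ ?_
  · refine antitone_nat_of_succ_le fun n => ?_
    rw [← ENNReal.ofReal_le_ofReal_iff (KS.gwA_nonneg hq hd h0 h1 n),
      KS.ofReal_gwA hq hd h0 h1, KS.ofReal_gwA hq hd h0 h1]
    refine le_trans (KS.Ex_mono (n + 1) (g' := fun t =>
      ENNReal.ofReal (avgBias (gwLik q lam n (KS.restr n t)))) fun t =>
      ENNReal.ofReal_le_ofReal (KS.avgBias_restr hq h0 h1 n t)) ?_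
    exact (KS.Ex_restr hd n (fun t => ENNReal.ofReal (avgBias (gwLik q lam n t)))).le
  · intro n
    have hp : (lam * d) ^ n ≠ 0 := pow_ne_zero n hlam
    obtain ⟨s, hs⟩ : ∃ s : ℝ, s = (1 / K) / (lam * d) ^ n := ⟨_, rfl⟩
    have hsl : s * lam ^ n * d ^ n = 1 / K := by
      rw [hs, mul_assoc, ← mul_pow]
      field_simp
    have hsl0 : 0 ≤ s * lam ^ n := by
      have h2 : 0 < d ^ n := by positivity
      have h3 : s * lam ^ n = (1 / K) / d ^ n := by
        rw [← hsl]
        field_simp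
      rw [h3]
      positivity
    have hpt : ∀ t : GWTree n, ENNReal.ofReal (c * (2 * (s * lam ^ n))) * (KS.Z n t : ENNReal) ≤
        ENNReal.ofReal (avgBias (gwLik q lam n t)) +
          ENNReal.ofReal (c * s ^ 2) * (KS.W l n t : ENNReal) := by
      intro t
      have h3 := KS.avgBias_gw_lower hq h0 h1 l hl n t s
      have h4 := KS.avgBias_nonneg (by omega) _ (KS.gwLik_nonneg hq h0 h1 n t)
      rw [← ENNReal.ofReal_coe_nnreal, ← ENNReal.ofReal_coe_nnreal (p := KS.W l n t),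
        ← ENNReal.ofReal_mul (mul_nonneg hc.le (mul_nonneg zero_le_two hsl0)),
        ← ENNReal.ofReal_mul (by positivity),
        ← ENNReal.ofReal_add h4 (by positivity)]
      refine ENNReal.ofReal_le_ofReal ?_
      rw [← hc'] at h3
      nlinarith [h3]
    have hEx := KS.Ex_mono (d := d) n hpt
    have e1 : KS.Ex d n (fun t => ENNReal.ofReal (c * (2 * (s * lam ^ n))) *
        (KS.Z n t : ENNReal)) = ENNReal.ofReal (c * (2 / K)) := by
      have h3 := KS.Ex_Z hd n
      unfold KS.Ex at h3 ⊢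
      rw [tsum_congr (fun t => mul_left_comm _ _ _), ENNReal.tsum_mul_left, h3,
        ← ENNReal.ofReal_pow hd.le,
        ← ENNReal.ofReal_mul (mul_nonneg hc.le (mul_nonneg zero_le_two hsl0))]
      congr 1
      have : c * (2 * (s * lam ^ n)) * d ^ n = c * (2 * (s * lam ^ n * d ^ n)) := by ring
      rw [this, hsl]
      ring
    have e2 : KS.Ex d n (fun t => ENNReal.ofReal (avgBias (gwLik q lam n t)) +
          ENNReal.ofReal (c * s ^ 2) * (KS.W l n t : ENNReal)) ≤
        ENNReal.ofReal (gwA q d lam n + c * (1 / K)) := by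
      have h3 := KS.Ex_W hd l K hdl hK n
      rw [ENNReal.ofReal_add (KS.gwA_nonneg hq hd h0 h1 n) (by positivity),
        KS.ofReal_gwA hq hd h0 h1]
      unfold KS.Ex at h3 ⊢
      simp only [mul_add]
      rw [ENNReal.tsum_add]
      refine add_le_add le_rfl ?_
      rw [tsum_congr (fun t => mul_left_comm _ _ _), ENNReal.tsum_mul_left]
      refine le_trans (mul_le_mul_right h3 _) ?_
      rw [← ENNReal.ofReal_mul (by positivity)]
      refine ENNReal.ofReal_le_ofReal (le_of_eq ?_)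
      rw [hl, hs]
      have h5 : (d ^ 2 * lam ^ 2) ^ n = ((lam * d) ^ n) ^ 2 := by ring
      rw [h5]
      field_simp
    rw [e1] at hEx
    have h6 := hEx.trans e2
    rw [ENNReal.ofReal_le_ofReal_iff (by
      have := KS.gwA_nonneg hq hd h0 h1 n
      positivity)] at h6
    have h7 : c * (2 / K) = c * (1 / K) + c * (1 / K) := by ring
    linarith

end Vale.Agent.P154
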