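import Vale.Agent.Lib.P154.Cert

/-!
# Nonreconstruction from a certificate: the framework
-/

open scoped BigOperators
open Finset

namespace Vale.Agent.P154

/-! ### Certificates in a slightly more general form -/

/-- A certificate with an arbitrary positive constant in the edge inequality; it also makes
sense for negative `lam`. -/
structure FrameCert (q : ℕ) (lam : ℝ) where
  Phi : (Fin q → ℝ) → ℝ
  g : (Fin q → ℝ) → ℝ
  eps : ℝ
  gam : ℝ
  cc : ℝ
  eps_pos : 0 < eps
  gam_pos : 0 < gam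
  cc_nonneg : 0 ≤ cc
  cc_pos : lam ≠ 0 → 0 < cc
  g_lower : ∀ w : Fin q → ℝ, (∀ i, 0 ≤ w i) → gam * chi w ≤ g w
  Phi_single : ∀ i : Fin q, 0 ≤ Phi (fun j => if j = i then 1 else 0)
  Phi_one : 0 ≤ Phi (fun _ => 1)
  prodA : ∀ w w' : Fin q → ℝ, (∀ i, 0 ≤ w i) → (∀ i, 0 ≤ w' i) →
    ∑ s : Equiv.Perm (Fin q), chi (fun i => w i * w' (s i)) ≤
      (Nat.factorial q : ℝ) *
        (chi w * mass w' + mass w * chi w' - Phi w * g w' - Phi w' * g w)
  prodB : ∀ w w' : Fin q → ℝ, (∀ i, 0 ≤ w i) → (∀ i, 0 ≤ w' i) →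
      (Nat.factorial q : ℝ) *
        (Phi w * (mass w' - chi w') + Phi w' * (mass w - chi w) + eps * chi w * chi w') ≤
    ∑ s : Equiv.Perm (Fin q), Phi (fun i => w i * w' (s i))
  smoothC : ∀ w : Fin q → ℝ, (∀ i, 0 ≤ w i) → cc * Phi w ≤ Phi (smooth lam w)

/-- A certificate (for `0 ≤ lam`) gives a frame certificate. -/
def Certificate.toFrame {q : ℕ} {lam : ℝ} (h0 : 0 ≤ lam) (C : Certificate q lam) :
    FrameCert q lam where
  Phi := C.Phi
  g := C.g
  eps := C.eps
  gam := C.gam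
  cc := lam ^ 3
  eps_pos := C.eps_pos
  gam_pos := C.gam_pos
  cc_nonneg := by positivity
  cc_pos := fun h => by
    have : 0 < lam := lt_of_le_of_ne h0 (Ne.symm h)
    positivity
  g_lower := C.g_lower
  Phi_single := C.Phi_single
  Phi_one := C.Phi_one
  prodA := C.prodA
  prodB := C.prodB
  smoothC := C.smoothC

/-! ### The functional `chi` -/

section chi
variable {q : ℕ}

theorem chi_nonneg {w : Fin q → ℝ} (hw : ∀ i, 0 ≤ w i) : 0 ≤ chi w := by
  unfold chi
  have hs : 0 ≤ ∑ i, w i := Finset.sum_nonneg (fun i _ => hw i)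
  apply div_nonneg
  · rcases hs.eq_or_lt with h | h
    · rw [← h]
      simp
    · have := sq_sum_le_card_mul_sum_sq (s := (univ : Finset (Fin q))) (f := w)
      rw [Finset.card_univ, Fintype.card_fin] at this
      rw [sub_nonneg, le_div_iff₀ h]
      nlinarith
  · rcases Nat.eq_zero_or_pos q with h | h
    · subst h
      simp
    · have : (1 : ℝ) ≤ q := by exact_mod_cast h
      apply mul_nonneg <;> linarith

theorem sum_sq_le_sq_sum {w : Fin q → ℝ} (hw : ∀ i, 0 ≤ w i) :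
    ∑ i, w i ^ 2 ≤ (∑ i, w i) ^ 2 := by
  rw [sq (∑ i, w i), Finset.sum_mul]
  apply Finset.sum_le_sum
  intro i _
  rw [sq]
  apply mul_le_mul_of_nonneg_left _ (hw i)
  exact Finset.single_le_sum (fun j _ => hw j) (Finset.mem_univ i)

theorem chi_le_mass (hq : 2 ≤ q) {w : Fin q → ℝ} (hw : ∀ i, 0 ≤ w i) : chi w ≤ mass w := by
  unfold chi mass
  have hs : 0 ≤ ∑ i, w i := Finset.sum_nonneg (fun i _ => hw i)
  have hq2 : (2 : ℝ) ≤ q := by exact_mod_cast hq
  have hq0 : (0 : ℝ) < q := by linarith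
  have hq1 : (0 : ℝ) < q - 1 := by linarith
  rw [div_le_iff₀ (by positivity)]
  have e1 : (∑ i, w i) / q * (q * (q - 1)) = (q - 1) * ∑ i, w i := by
    field_simp
  rw [e1]
  rcases hs.eq_or_lt with h | h
  · rw [← h]
    simp
  · have := sum_sq_le_sq_sum hw
    have h2 : (q : ℝ) * (∑ i, w i ^ 2) / (∑ i, w i) ≤ q * ∑ i, w i := by
      rw [div_le_iff₀ h]
      nlinarith
    linarith

theorem sum_smooth (hq : 0 < q) (lam : ℝ) (w : Fin q → ℝ) :
    ∑ i, smooth lam w i = ∑ i, w i := by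
  unfold smooth
  have hq0 : (q : ℝ) ≠ 0 := by exact_mod_cast hq.ne'
  rw [Finset.sum_add_distrib, ← Finset.mul_sum, Finset.sum_const, Finset.card_univ,
    Fintype.card_fin, nsmul_eq_mul]
  field_simp
  ring

theorem chi_smooth (hq : 0 < q) (lam : ℝ) (w : Fin q → ℝ) :
    chi (smooth lam w) = lam ^ 2 * chi w := by
  have hq0 : (q : ℝ) ≠ 0 := by exact_mod_cast hq.ne'
  unfold chi
  rw [sum_smooth hq]
  have h1 : ∑ i, smooth lam w i ^ 2
      = lam ^ 2 * ∑ i, w i ^ 2 + (1 - lam ^ 2) / q * (∑ i, w i) ^ 2 := by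
    unfold smooth
    set s := ∑ j, w j with hs
    have : ∀ i, (lam * w i + (1 - lam) / q * s) ^ 2
        = lam ^ 2 * w i ^ 2 + 2 * lam * ((1 - lam) / q * s) * w i + ((1 - lam) / q * s) ^ 2 := by
      intro i
      ring
    simp_rw [this]
    rw [Finset.sum_add_distrib, Finset.sum_add_distrib, ← Finset.mul_sum, ← Finset.mul_sum,
      Finset.sum_const, Finset.card_univ, Fintype.card_fin, nsmul_eq_mul, ← hs]
    field_simp
    ring
  rw [h1]
  by_cases h : ∑ i, w i = 0
  · rw [h]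
    simp
  · field_simp
    ring

end chi

/-! ### Likelihood families -/

section fam
variable {q : ℕ}

/-- sum of a functional of the likelihood vectors over the observations -/
noncomputable def sumF {Ω : Type} [Fintype Ω] (f : (Fin q → ℝ) → ℝ) (L : Fin q → Ω → ℝ) : ℝ :=
  ∑ x, f (fun i => L i x)

/-- independent observations -/
def tens {Ω Ω' : Type} (L : Fin q → Ω → ℝ) (L' : Fin q → Ω' → ℝ) : Fin q → Ω × Ω' → ℝ :=
  fun i z => L i z.1 * L' i z.2

/-- finitely many independent observations -/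
def prodL {m : ℕ} {Ω : Fin m → Type} (E : ∀ k, Fin q → Ω k → ℝ) : Fin q → (∀ k, Ω k) → ℝ :=
  fun i x => ∏ k, E k i (x k)

/-- observation through an edge -/
noncomputable def edgeL (lam : ℝ) {Ω : Type} (L : Fin q → Ω → ℝ) : Fin q → Ω → ℝ :=
  fun i x => ∑ j, pottsKernel q lam i j * L j x

/-- the properties of the likelihood families which are propagated along the tree -/
structure GoodL {lam : ℝ} (C : FrameCert q lam) {Ω : Type} [Fintype Ω] (L : Fin q → Ω → ℝ) :
    Prop where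
  nonneg : ∀ i x, 0 ≤ L i x
  norm : ∀ i, ∑ x, L i x = 1
  symm : ∀ s : Equiv.Perm (Fin q), ∃ e : Ω ≃ Ω, ∀ i x, L (s i) x = L i (e x)
  ynn : 0 ≤ sumF C.Phi L

theorem edgeL_apply (lam : ℝ) {Ω : Type} (L : Fin q → Ω → ℝ) (x : Ω) :
    (fun i => edgeL lam L i x) = smooth lam (fun i => L i x) := by
  funext i
  unfold edgeL smooth pottsKernel
  simp_rw [add_mul]
  rw [Finset.sum_add_distrib, ← Finset.mul_sum]
  congr 1
  rw [Finset.sum_eq_single i]
  · simp
  · intro j _ hj
    rw [if_neg (Ne.symm hj)]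
    simp
  · intro h
    exact absurd (Finset.mem_univ i) h

variable {lam : ℝ} {C : FrameCert q lam}

theorem sumF_mass {Ω : Type} [Fintype Ω] {L : Fin q → Ω → ℝ} (hq : 0 < q)
    (hn : ∀ i, ∑ x, L i x = 1) : sumF mass L = 1 := by
  unfold sumF mass
  rw [← Finset.sum_div, Finset.sum_comm]
  simp_rw [hn]
  have hq0 : (q : ℝ) ≠ 0 := by exact_mod_cast hq.ne'
  simp [hq0]

theorem sumF_chi_nonneg {Ω : Type} [Fintype Ω] {L : Fin q → Ω → ℝ}
    (hn : ∀ i x, 0 ≤ L i x) : 0 ≤ sumF chi L :=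
  Finset.sum_nonneg (fun x _ => chi_nonneg (fun i => hn i x))

theorem sumF_chi_le_one {Ω : Type} [Fintype Ω] {L : Fin q → Ω → ℝ} (hq : 2 ≤ q)
    (hn : ∀ i x, 0 ≤ L i x) (h1 : ∀ i, ∑ x, L i x = 1) : sumF chi L ≤ 1 := by
  rw [← sumF_mass (by omega : 0 < q) h1]
  exact Finset.sum_le_sum (fun x _ => chi_le_mass hq (fun i => hn i x))

theorem sumF_chi_edgeL {Ω : Type} [Fintype Ω] (L : Fin q → Ω → ℝ) (hq : 0 < q) :
    sumF chi (edgeL lam L) = lam ^ 2 * sumF chi L := by
  unfold sumF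
  rw [Finset.mul_sum]
  apply Finset.sum_congr rfl
  intro x _
  rw [edgeL_apply, chi_smooth hq]

theorem sumF_Phi_edgeL {Ω : Type} [Fintype Ω] {L : Fin q → Ω → ℝ} (hn : ∀ i x, 0 ≤ L i x) :
    C.cc * sumF C.Phi L ≤ sumF C.Phi (edgeL lam L) := by
  unfold sumF
  rw [Finset.mul_sum]
  apply Finset.sum_le_sum
  intro x _
  rw [edgeL_apply]
  exact C.smoothC _ (fun i => hn i x)

theorem pottsKernel_nonneg (hq : 2 ≤ q) (h0 : -1 / ((q : ℝ) - 1) ≤ lam) (h1 : lam ≤ 1)
    (i j : Fin q) : 0 ≤ pottsKernel q lam i j := by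
  unfold pottsKernel
  have hq2 : (2 : ℝ) ≤ q := by exact_mod_cast hq
  have hq0 : (0 : ℝ) < q := by linarith
  have hq1 : (0 : ℝ) < q - 1 := by linarith
  split_ifs
  · rw [div_le_iff₀ hq1] at h0
    rw [mul_one, ← sub_nonneg]
    have : lam + (1 - lam) / q - 0 = (1 + lam * (q - 1)) / q := by
      field_simp
      ring
    rw [this]
    apply div_nonneg _ hq0.le
    linarith
  · rw [mul_zero, zero_add]
    apply div_nonneg _ hq0.le
    linarith

theorem pottsKernel_perm (s : Equiv.Perm (Fin q)) (i j : Fin q) :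
    pottsKernel q lam (s i) (s j) = pottsKernel q lam i j := by
  unfold pottsKernel
  simp [s.injective.eq_iff]

theorem sum_pottsKernel (hq : 0 < q) (i : Fin q) : ∑ j, pottsKernel q lam i j = 1 := by
  unfold pottsKernel
  have hq0 : (q : ℝ) ≠ 0 := by exact_mod_cast hq.ne'
  rw [Finset.sum_add_distrib, ← Finset.mul_sum, Finset.sum_const, Finset.card_univ,
    Fintype.card_fin, nsmul_eq_mul]
  simp
  field_simp
  ring

theorem GoodL.edge {Ω : Type} [Fintype Ω] {L : Fin q → Ω → ℝ} (hL : GoodL C L) (hq : 2 ≤ q)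
    (h0 : -1 / ((q : ℝ) - 1) ≤ lam) (h1 : lam ≤ 1) : GoodL C (edgeL lam L) where
  nonneg := fun i x => Finset.sum_nonneg
    (fun j _ => mul_nonneg (pottsKernel_nonneg hq h0 h1 i j) (hL.nonneg j x))
  norm := fun i => by
    unfold edgeL
    rw [Finset.sum_comm]
    simp_rw [← Finset.mul_sum, hL.norm, mul_one]
    exact sum_pottsKernel (by omega) i
  symm := fun s => by
    obtain ⟨e, he⟩ := hL.symm s
    refine ⟨e, fun i x => ?_⟩
    unfold edgeL
    rw [← Equiv.sum_comp s (fun j => pottsKernel q lam (s i) j * L j x)]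
    apply Finset.sum_congr rfl
    intro j _
    rw [pottsKernel_perm, he]
  ynn := le_trans (mul_nonneg C.cc_nonneg hL.ynn) (sumF_Phi_edgeL hL.nonneg)

/-- the symmetry of one factor allows to average over the permutations -/
theorem sumF_tens_avg {Ω Ω' : Type} [Fintype Ω] [Fintype Ω'] (f : (Fin q → ℝ) → ℝ)
    (L : Fin q → Ω → ℝ) {L' : Fin q → Ω' → ℝ}
    (hs : ∀ s : Equiv.Perm (Fin q), ∃ e : Ω' ≃ Ω', ∀ i x, L' (s i) x = L' i (e x)) :
    (Nat.factorial q : ℝ) * sumF f (tens L L')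
      = ∑ x, ∑ y, ∑ s : Equiv.Perm (Fin q), f (fun i => L i x * L' (s i) y) := by
  have h1 : ∑ x, ∑ y, ∑ s : Equiv.Perm (Fin q), f (fun i => L i x * L' (s i) y)
      = ∑ x, ∑ s : Equiv.Perm (Fin q), ∑ y, f (fun i => L i x * L' (s i) y) :=
    Finset.sum_congr rfl (fun x _ => Finset.sum_comm)
  rw [h1, Finset.sum_comm]
  have h2 : ∀ s ∈ (univ : Finset (Equiv.Perm (Fin q))),
      ∑ x, ∑ y, f (fun i => L i x * L' (s i) y) = sumF f (tens L L') := by
    intro s _
    unfold sumF tens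
    rw [Fintype.sum_prod_type]
    apply Finset.sum_congr rfl
    intro x _
    obtain ⟨e, he⟩ := hs s
    simp_rw [he]
    exact Equiv.sum_comp e (fun y => f (fun i => L i x * L' i y))
  rw [Finset.sum_congr rfl h2, Finset.sum_const, Finset.card_univ, Fintype.card_perm,
    Fintype.card_fin, nsmul_eq_mul]

theorem sum_sum_mul {Ω Ω' : Type} [Fintype Ω] [Fintype Ω'] (f g : (Fin q → ℝ) → ℝ)
    (L : Fin q → Ω → ℝ) (L' : Fin q → Ω' → ℝ) :
    ∑ x, ∑ y, f (fun i => L i x) * g (fun i => L' i y) = sumF f L * sumF g L' := by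
  unfold sumF
  rw [Finset.sum_mul_sum]

theorem chi_tens_le {Ω Ω' : Type} [Fintype Ω] [Fintype Ω'] {L : Fin q → Ω → ℝ}
    {L' : Fin q → Ω' → ℝ} (hq : 0 < q) (hL : GoodL C L) (hL' : GoodL C L') :
    sumF chi (tens L L') ≤ sumF chi L + sumF chi L'
      - C.gam * (sumF C.Phi L * sumF chi L' + sumF C.Phi L' * sumF chi L) := by
  have hfac : (0 : ℝ) < Nat.factorial q := by exact_mod_cast Nat.factorial_pos q
  have h1 : (Nat.factorial q : ℝ) * sumF chi (tens L L') ≤ Nat.factorial q *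
      (sumF chi L * sumF mass L' + sumF mass L * sumF chi L'
        - sumF C.Phi L * sumF C.g L' - sumF C.g L * sumF C.Phi L') := by
    rw [sumF_tens_avg chi L hL'.symm]
    rw [← sum_sum_mul chi mass L L', ← sum_sum_mul mass chi L L', ← sum_sum_mul C.Phi C.g L L',
      ← sum_sum_mul C.g C.Phi L L', ← Finset.sum_add_distrib,
      ← Finset.sum_sub_distrib, ← Finset.sum_sub_distrib, Finset.mul_sum]
    apply Finset.sum_le_sum
    intro x _
    rw [← Finset.sum_add_distrib, ← Finset.sum_sub_distrib, ← Finset.sum_sub_distrib,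
      Finset.mul_sum]
    apply Finset.sum_le_sum
    intro y _
    have hA := C.prodA (fun i => L i x) (fun i => L' i y) (fun i => hL.nonneg i x)
      (fun i => hL'.nonneg i y)
    refine le_trans hA (le_of_eq ?_)
    ring
  have h2 := le_of_mul_le_mul_left h1 hfac
  rw [sumF_mass hq hL.norm, sumF_mass hq hL'.norm] at h2
  have h3 : C.gam * sumF chi L ≤ sumF C.g L := by
    unfold sumF
    rw [Finset.mul_sum]
    exact Finset.sum_le_sum (fun x _ => C.g_lower _ (fun i => hL.nonneg i x))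
  have h4 : C.gam * sumF chi L' ≤ sumF C.g L' := by
    unfold sumF
    rw [Finset.mul_sum]
    exact Finset.sum_le_sum (fun x _ => C.g_lower _ (fun i => hL'.nonneg i x))
  have h5 := mul_le_mul_of_nonneg_left h4 hL.ynn
  have h6 := mul_le_mul_of_nonneg_left h3 hL'.ynn
  linarith

theorem Phi_tens_ge {Ω Ω' : Type} [Fintype Ω] [Fintype Ω'] {L : Fin q → Ω → ℝ}
    {L' : Fin q → Ω' → ℝ} (hq : 0 < q) (hL : GoodL C L) (hL' : GoodL C L') :
    sumF C.Phi L * (1 - sumF chi L') + sumF C.Phi L' * (1 - sumF chi L)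
      + C.eps * sumF chi L * sumF chi L' ≤ sumF C.Phi (tens L L') := by
  have hfac : (0 : ℝ) < Nat.factorial q := by exact_mod_cast Nat.factorial_pos q
  have h1 : (Nat.factorial q : ℝ) *
      (sumF C.Phi L * sumF mass L' - sumF C.Phi L * sumF chi L'
        + (sumF mass L * sumF C.Phi L' - sumF chi L * sumF C.Phi L')
        + C.eps * (sumF chi L * sumF chi L')) ≤ Nat.factorial q * sumF C.Phi (tens L L') := by
    rw [sumF_tens_avg C.Phi L hL'.symm]
    rw [← sum_sum_mul C.Phi mass L L', ← sum_sum_mul C.Phi chi L L',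
      ← sum_sum_mul mass C.Phi L L', ← sum_sum_mul chi C.Phi L L', ← sum_sum_mul chi chi L L',
      ← Finset.sum_sub_distrib, ← Finset.sum_sub_distrib, ← Finset.sum_add_distrib,
      Finset.mul_sum (a := C.eps), ← Finset.sum_add_distrib, Finset.mul_sum]
    apply Finset.sum_le_sum
    intro x _
    rw [← Finset.sum_sub_distrib, ← Finset.sum_sub_distrib, ← Finset.sum_add_distrib,
      Finset.mul_sum (a := C.eps), ← Finset.sum_add_distrib, Finset.mul_sum]
    apply Finset.sum_le_sum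
    intro y _
    have hB := C.prodB (fun i => L i x) (fun i => L' i y) (fun i => hL.nonneg i x)
      (fun i => hL'.nonneg i y)
    refine le_trans (le_of_eq ?_) hB
    ring
  have h2 := le_of_mul_le_mul_left h1 hfac
  rw [sumF_mass hq hL.norm, sumF_mass hq hL'.norm] at h2
  refine le_trans (le_of_eq ?_) h2
  ring

theorem GoodL.tens {Ω Ω' : Type} [Fintype Ω] [Fintype Ω'] {L : Fin q → Ω → ℝ}
    {L' : Fin q → Ω' → ℝ} (hq : 2 ≤ q) (hL : GoodL C L) (hL' : GoodL C L') :
    GoodL C (tens L L') where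
  nonneg := fun i z => mul_nonneg (hL.nonneg i z.1) (hL'.nonneg i z.2)
  norm := fun i => by
    unfold P154.tens
    rw [Fintype.sum_prod_type]
    simp_rw [← Finset.mul_sum, hL'.norm, mul_one, hL.norm]
  symm := fun s => by
    obtain ⟨e, he⟩ := hL.symm s
    obtain ⟨e', he'⟩ := hL'.symm s
    refine ⟨e.prodCongr e', fun i z => ?_⟩
    unfold P154.tens
    rw [he, he']
    rfl
  ynn := by
    refine le_trans ?_ (Phi_tens_ge (by omega) hL hL')
    have h1 := sumF_chi_le_one hq hL.nonneg hL.norm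
    have h2 := sumF_chi_le_one hq hL'.nonneg hL'.norm
    have h3 := sumF_chi_nonneg hL.nonneg
    have h4 := sumF_chi_nonneg hL'.nonneg
    have h5 := mul_nonneg hL.ynn (sub_nonneg.2 h2)
    have h6 := mul_nonneg hL'.ynn (sub_nonneg.2 h1)
    have h7 := mul_nonneg (mul_nonneg C.eps_pos.le h3) h4
    linarith

theorem sumF_equiv {Ω Ω' : Type} [Fintype Ω] [Fintype Ω'] (e : Ω ≃ Ω') (f : (Fin q → ℝ) → ℝ)
    (L : Fin q → Ω' → ℝ) : sumF f (fun i x => L i (e x)) = sumF f L := by
  unfold sumF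
  exact Equiv.sum_comp e (fun x => f (fun i => L i x))

theorem GoodL.equiv {Ω Ω' : Type} [Fintype Ω] [Fintype Ω'] (e : Ω ≃ Ω')
    {L : Fin q → Ω' → ℝ} (h : GoodL C (fun i x => L i (e x))) : GoodL C L where
  nonneg := fun i x => by
    have := h.nonneg i (e.symm x)
    simpa using this
  norm := fun i => by
    have := h.norm i
    rwa [Equiv.sum_comp e (fun x => L i x)] at this
  symm := fun s => by
    obtain ⟨e', he'⟩ := h.symm s
    refine ⟨(e.symm.trans e').trans e, fun i x => ?_⟩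
    have := he' i (e.symm x)
    simpa using this
  ynn := by
    have := h.ynn
    rwa [sumF_equiv e] at this

theorem prodL_cons {m : ℕ} {Ω : Fin (m + 1) → Type} (E : ∀ k, Fin q → Ω k → ℝ)
    (z : Ω 0 × (∀ k : Fin m, Ω k.succ)) (i : Fin q) :
    prodL E i (Fin.consEquiv Ω z) = tens (E 0) (prodL (fun k : Fin m => E k.succ)) i z := by
  unfold prodL tens
  rw [Fin.prod_univ_succ]
  rfl

theorem sumF_prodL_succ {m : ℕ} {Ω : Fin (m + 1) → Type} [∀ k, Fintype (Ω k)]
    (f : (Fin q → ℝ) → ℝ) (E : ∀ k, Fin q → Ω k → ℝ) :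
    sumF f (prodL E) = sumF f (tens (E 0) (prodL (fun k : Fin m => E k.succ))) := by
  rw [← sumF_equiv (Fin.consEquiv Ω) f (prodL E)]
  congr 1
  funext i z
  exact prodL_cons E z i

theorem GoodL.prodL (hq : 2 ≤ q) : ∀ {m : ℕ} {Ω : Fin m → Type} [∀ k, Fintype (Ω k)]
    {E : ∀ k, Fin q → Ω k → ℝ} (_ : ∀ k, GoodL C (E k)), GoodL C (prodL E)
  | 0, Ω, _, E, _ => by
    refine ⟨?_, ?_, ?_, ?_⟩
    · intro i x
      simp [P154.prodL]
    · intro i
      simp [P154.prodL]
    · intro s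
      refine ⟨Equiv.refl _, fun i x => ?_⟩
      simp [P154.prodL]
    · have : sumF C.Phi (P154.prodL E) = C.Phi (fun _ => 1) := by
        unfold sumF P154.prodL
        simp
      rw [this]
      exact C.Phi_one
  | m + 1, Ω, _, E, h => by
    apply GoodL.equiv (Fin.consEquiv Ω)
    have h1 : GoodL C (P154.prodL (fun k : Fin m => E k.succ)) :=
      GoodL.prodL hq (fun k => h k.succ)
    have h2 := GoodL.tens hq (h 0) h1
    have h3 : (fun i z => P154.prodL E i (Fin.consEquiv Ω z))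
        = P154.tens (E 0) (P154.prodL (fun k : Fin m => E k.succ)) := by
      funext i z
      exact prodL_cons E z i
    rw [h3]
    exact h2

theorem sumF_prodL_zero {Ω : Fin 0 → Type} [∀ k, Fintype (Ω k)]
    (f : (Fin q → ℝ) → ℝ) (E : ∀ k, Fin q → Ω k → ℝ) :
    sumF f (prodL E) = f (fun _ => 1) := by
  unfold sumF prodL
  simp

theorem chi_one (hq : 0 < q) : chi (fun _ : Fin q => (1 : ℝ)) = 0 := by
  unfold chi
  have hq0 : (q : ℝ) ≠ 0 := by exact_mod_cast hq.ne'
  simp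

/-- the main inequality without correction -/
theorem chi_prodL_le (hq : 2 ≤ q) : ∀ {m : ℕ} {Ω : Fin m → Type} [∀ k, Fintype (Ω k)]
    {E : ∀ k, Fin q → Ω k → ℝ} (_ : ∀ k, GoodL C (E k)),
    sumF chi (prodL E) ≤ ∑ k, sumF chi (E k)
  | 0, Ω, _, E, _ => by
    rw [sumF_prodL_zero, chi_one (by omega)]
    simp
  | m + 1, Ω, _, E, h => by
    rw [sumF_prodL_succ, Fin.sum_univ_succ]
    have h1 : GoodL C (prodL (fun k : Fin m => E k.succ)) :=
      GoodL.prodL hq (fun k => h k.succ)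
    have h2 := chi_tens_le (by omega) (h 0) h1
    have h3 : sumF chi (prodL (fun k : Fin m => E k.succ)) ≤ ∑ k : Fin m, sumF chi (E k.succ) :=
      chi_prodL_le hq (fun k => h k.succ)
    have h4 := mul_nonneg C.gam_pos.le (add_nonneg
      (mul_nonneg (h 0).ynn (sumF_chi_nonneg h1.nonneg))
      (mul_nonneg h1.ynn (sumF_chi_nonneg (h 0).nonneg)))
    linarith

theorem sumF_prodL_one {Ω : Fin 1 → Type} [∀ k, Fintype (Ω k)]
    (f : (Fin q → ℝ) → ℝ) (E : ∀ k, Fin q → Ω k → ℝ) :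
    sumF f (prodL E) = sumF f (E 0) := by
  rw [sumF_prodL_succ]
  unfold sumF tens prodL
  rw [Fintype.sum_prod_type]
  simp

theorem sumF_prodL_two {Ω : Fin 2 → Type} [∀ k, Fintype (Ω k)]
    (f : (Fin q → ℝ) → ℝ) (E : ∀ k, Fin q → Ω k → ℝ) :
    sumF f (prodL E) = sumF f (tens (E 0) (E 1)) := by
  rw [sumF_prodL_succ]
  unfold sumF tens
  rw [Fintype.sum_prod_type, Fintype.sum_prod_type]
  apply Finset.sum_congr rfl
  intro a _
  have := sumF_prodL_one (fun w => f (fun i => E 0 i a * w i)) (fun k : Fin 1 => E k.succ)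
  exact this

/-! ### The bias -/

theorem avgBias_nonneg {Ω : Type} [Fintype Ω] {L : Fin q → Ω → ℝ} (hn : ∀ i x, 0 ≤ L i x) :
    0 ≤ avgBias L := by
  unfold avgBias
  apply Finset.sum_nonneg
  intro x _
  apply mul_nonneg
  · unfold obsProb
    exact Finset.sum_nonneg (fun i _ => mul_nonneg (by positivity) (hn i x))
  · positivity

theorem bias_point (hq : 2 ≤ q) {w : Fin q → ℝ} (hw : ∀ i, 0 ≤ w i) {δ : ℝ} (hδ : 0 < δ) :
    (∑ i, 1 / (q : ℝ) * w i) *
      (1 / 2 * ∑ i, |1 / (q : ℝ) * w i / (∑ j, 1 / (q : ℝ) * w j) - 1 / q|)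
      ≤ q * δ / 4 * mass w + (q - 1) / (4 * δ * q) * chi w := by
  have hq2 : (2 : ℝ) ≤ q := by exact_mod_cast hq
  have hq0 : (0 : ℝ) < q := by linarith
  have hq1 : (0 : ℝ) < q - 1 := by linarith
  have hs : 0 ≤ ∑ i, w i := Finset.sum_nonneg (fun i _ => hw i)
  have hchi := chi_nonneg hw
  have hm : 0 ≤ mass w := div_nonneg hs hq0.le
  simp_rw [← Finset.mul_sum]
  rcases hs.eq_or_lt with h | h
  · rw [← h, mul_zero, zero_mul]
    positivity
  · set s := ∑ i, w i with hsdef
    have h1 : ∀ i, |1 / (q : ℝ) * w i / (1 / (q : ℝ) * s) - 1 / q|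
        ≤ δ / 2 + (w i / s - 1 / q) ^ 2 / (2 * δ) := by
      intro i
      have e1 : 1 / (q : ℝ) * w i / (1 / (q : ℝ) * s) = w i / s := by
        field_simp
      rw [e1]
      set u := w i / s - 1 / q with hu
      have h2 : (|u|) ^ 2 = u ^ 2 := sq_abs u
      rw [← h2]
      have h3 : 0 ≤ (|u| - δ) ^ 2 / (2 * δ) := by positivity
      have h4 : (|u| - δ) ^ 2 / (2 * δ) = δ / 2 + |u| ^ 2 / (2 * δ) - |u| := by
        field_simp
        ring
      linarith
    have h5 : ∑ i, |1 / (q : ℝ) * w i / (1 / (q : ℝ) * s) - 1 / q|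
        ≤ ∑ i, (δ / 2 + (w i / s - 1 / q) ^ 2 / (2 * δ)) :=
      Finset.sum_le_sum (fun i _ => h1 i)
    have h6 : ∑ i, (δ / 2 + (w i / s - 1 / q) ^ 2 / (2 * δ))
        = q * δ / 2 + ((∑ i, w i ^ 2) / s ^ 2 - 1 / q) / (2 * δ) := by
      have h7 : ∑ i, (w i / s - 1 / (q : ℝ)) ^ 2 = (∑ i, w i ^ 2) / s ^ 2 - 1 / q := by
        have : ∀ i, (w i / s - 1 / (q : ℝ)) ^ 2
            = w i ^ 2 / s ^ 2 - 2 / (q * s) * w i + 1 / q ^ 2 := by
          intro i
          field_simp
          ring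
        simp_rw [this]
        rw [Finset.sum_add_distrib, Finset.sum_sub_distrib, ← Finset.mul_sum, ← Finset.sum_div,
          Finset.sum_const, Finset.card_univ, Fintype.card_fin, nsmul_eq_mul, ← hsdef]
        field_simp
        ring
      have h8 : ∑ i, (w i / s - 1 / (q : ℝ)) ^ 2 / (2 * δ)
          = (∑ i, (w i / s - 1 / (q : ℝ)) ^ 2) / (2 * δ) := by
        rw [Finset.sum_div]
      rw [Finset.sum_add_distrib, h8, h7, Finset.sum_const, Finset.card_univ,
        Fintype.card_fin, nsmul_eq_mul]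
      ring
    rw [h6] at h5
    calc 1 / (q : ℝ) * s * (1 / 2 * ∑ i, |1 / (q : ℝ) * w i / (1 / (q : ℝ) * s) - 1 / q|)
        ≤ 1 / (q : ℝ) * s * (1 / 2 * (q * δ / 2
          + ((∑ i, w i ^ 2) / s ^ 2 - 1 / q) / (2 * δ))) := by
          apply mul_le_mul_of_nonneg_left _ (by positivity)
          linarith
      _ = q * δ / 4 * mass w + (q - 1) / (4 * δ * q) * chi w := by
          unfold mass chi
          rw [← hsdef]
          field_simp
          ring

theorem avgBias_le (hq : 2 ≤ q) {Ω : Type} [Fintype Ω] {L : Fin q → Ω → ℝ}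
    (hn : ∀ i x, 0 ≤ L i x) (h1 : ∀ i, ∑ x, L i x = 1) {δ : ℝ} (hδ : 0 < δ) :
    avgBias L ≤ q * δ / 4 + (q - 1) / (4 * δ * q) * sumF chi L := by
  have h2 := sumF_mass (by omega : 0 < q) h1
  have h3 : q * δ / 4 + (q - 1) / (4 * δ * q) * sumF chi L
      = ∑ x, (q * δ / 4 * mass (fun i => L i x)
          + (q - 1) / (4 * δ * q) * chi (fun i => L i x)) := by
    rw [Finset.sum_add_distrib, ← Finset.mul_sum, ← Finset.mul_sum]
    unfold sumF at h2 ⊢
    rw [h2, mul_one]
  rw [h3]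
  unfold avgBias
  apply Finset.sum_le_sum
  intro x _
  exact bias_point hq (fun i => hn i x) hδ

/-! ### The zeroth level -/

theorem goodL_zero : GoodL C (fun (i : Fin q) (x : Fin q) => if i = x then (1 : ℝ) else 0) where
  nonneg := fun i x => by split_ifs <;> norm_num
  norm := fun i => by simp
  symm := fun s => ⟨s.symm, fun i x => by
    have : s i = x ↔ i = s.symm x := by
      rw [Equiv.eq_symm_apply]
    simp only [this]⟩
  ynn := Finset.sum_nonneg (fun x _ => C.Phi_single x)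

/-! ### A sequence lemma -/

theorem tendsto_zero_of_rec {x : ℕ → ℝ} (hx : ∀ n, 0 ≤ x n) {K : ℝ} (hK : 0 < K)
    (h : ∀ n, x (n + 2) ≤ x (n + 1) - K * x n ^ 2 * x (n + 1)) :
    Filter.Tendsto x Filter.atTop (nhds 0) := by
  have hanti : Antitone (fun n => x (n + 1)) := by
    apply antitone_nat_of_succ_le
    intro n
    have h1 := h n
    have h2 : 0 ≤ K * x n ^ 2 * x (n + 1) :=
      mul_nonneg (mul_nonneg hK.le (sq_nonneg _)) (hx _)
    show x (n + 2) ≤ x (n + 1)
    linarith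
  have hbdd : BddBelow (Set.range (fun n => x (n + 1))) := by
    refine ⟨0, ?_⟩
    rintro _ ⟨n, rfl⟩
    exact hx _
  have hlim := tendsto_atTop_ciInf hanti hbdd
  set l := ⨅ n, x (n + 1) with hl
  have h0 : Filter.Tendsto x Filter.atTop (nhds l) := (Filter.tendsto_add_atTop_iff_nat 1).1 hlim
  have h2 : Filter.Tendsto (fun n => x (n + 2)) Filter.atTop (nhds l) :=
    (Filter.tendsto_add_atTop_iff_nat 2).2 h0
  have h3 : Filter.Tendsto (fun n => x (n + 1) - K * x n ^ 2 * x (n + 1)) Filter.atTop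
      (nhds (l - K * l ^ 2 * l)) :=
    hlim.sub ((tendsto_const_nhds.mul (h0.pow 2)).mul hlim)
  have h4 : l ≤ l - K * l ^ 2 * l := le_of_tendsto_of_tendsto' h2 h3 h
  have h5 : 0 ≤ l := ge_of_tendsto' h0 hx
  have h6 : l = 0 := by
    by_contra hne
    have : 0 < l := lt_of_le_of_ne h5 (Ne.symm hne)
    have : 0 < K * l ^ 2 * l := by positivity
    linarith
  rw [h6] at h0
  exact h0

theorem tendsto_zero_of_bias {a x : ℕ → ℝ} {A B : ℝ} (ha : ∀ n, 0 ≤ a n)
    (hx : Filter.Tendsto x Filter.atTop (nhds 0))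
    (h : ∀ n, ∀ δ : ℝ, 0 < δ → a n ≤ A * δ + B / δ * x n) :
    Filter.Tendsto a Filter.atTop (nhds 0) := by
  rw [Metric.tendsto_atTop]
  intro ε hε
  set δ := ε / (2 * (|A| + 1)) with hδ
  have hA : 0 < |A| + 1 := by positivity
  have hδ0 : 0 < δ := by positivity
  have h1 : A * δ ≤ ε / 2 := by
    have h2 : A * δ ≤ (|A| + 1) * δ := by
      apply mul_le_mul_of_nonneg_right _ hδ0.le
      have := le_abs_self A
      linarith
    have h3 : (|A| + 1) * δ = ε / 2 := by
      rw [hδ]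
      field_simp
    linarith
  have h4 : Filter.Tendsto (fun n => B / δ * x n) Filter.atTop (nhds 0) := by
    have := hx.const_mul (B / δ)
    rwa [mul_zero] at this
  rw [Metric.tendsto_atTop] at h4
  obtain ⟨N, hN⟩ := h4 (ε / 2) (by positivity)
  refine ⟨N, fun n hn => ?_⟩
  have h5 := hN n hn
  rw [Real.dist_eq, sub_zero] at h5 ⊢
  rw [abs_of_nonneg (ha n)]
  have h6 := h n δ hδ0
  have h7 := le_abs_self (B / δ * x n)
  linarith

/-! ### Regular trees -/

theorem chi_prodL_const_le (hq : 2 ≤ q) {Ω : Type} [Fintype Ω] {E : Fin q → Ω → ℝ}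
    (hE : GoodL C E) : ∀ m : ℕ, sumF chi (prodL (fun _ : Fin (m + 2) => E))
      ≤ (m + 2) * sumF chi E - 2 * C.gam * sumF C.Phi E * sumF chi E
  | 0 => by
    rw [sumF_prodL_two]
    have := chi_tens_le (by omega) hE hE
    push_cast
    linarith
  | m + 1 => by
    rw [sumF_prodL_succ]
    have hP : GoodL C (prodL (fun _ : Fin (m + 2) => E)) := GoodL.prodL hq (fun _ => hE)
    have h1 := chi_tens_le (by omega) hE hP
    have h2 := chi_prodL_const_le hq hE m
    have h4 := mul_nonneg C.gam_pos.le (add_nonneg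
      (mul_nonneg hE.ynn (sumF_chi_nonneg hP.nonneg))
      (mul_nonneg hP.ynn (sumF_chi_nonneg hE.nonneg)))
    push_cast
    linarith

theorem Phi_prodL_const_ge (hq : 2 ≤ q) {Ω : Type} [Fintype Ω] {E : Fin q → Ω → ℝ}
    (hE : GoodL C E) : ∀ m : ℕ,
      (1 - sumF chi E) ^ m * (C.eps * sumF chi E ^ 2)
        ≤ sumF C.Phi (prodL (fun _ : Fin (m + 2) => E))
  | 0 => by
    rw [sumF_prodL_two]
    have h1 := Phi_tens_ge (by omega) hE hE
    have h2 := mul_nonneg hE.ynn (sub_nonneg.2 (sumF_chi_le_one hq hE.nonneg hE.norm))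
    rw [pow_zero, one_mul]
    have h3 : C.eps * sumF chi E * sumF chi E = C.eps * sumF chi E ^ 2 := by ring
    linarith
  | m + 1 => by
    rw [sumF_prodL_succ]
    have hP : GoodL C (prodL (fun _ : Fin (m + 2) => E)) := GoodL.prodL hq (fun _ => hE)
    have h1 := Phi_tens_ge (by omega) hE hP
    have h2 := Phi_prodL_const_ge hq hE m
    have h3 := mul_nonneg hE.ynn (sub_nonneg.2 (sumF_chi_le_one hq hP.nonneg hP.norm))
    have h4 : 0 ≤ 1 - sumF chi E := sub_nonneg.2 (sumF_chi_le_one hq hE.nonneg hE.norm)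
    have h5 := mul_le_mul_of_nonneg_left h2 h4
    have h6 := mul_nonneg (mul_nonneg C.eps_pos.le (sumF_chi_nonneg hE.nonneg))
      (sumF_chi_nonneg hP.nonneg)
    have h7 : (1 - sumF chi E) ^ (m + 1) * (C.eps * sumF chi E ^ 2)
        = (1 - sumF chi E) * ((1 - sumF chi E) ^ m * (C.eps * sumF chi E ^ 2)) := by
      ring
    rw [h7]
    have h8 : sumF C.Phi (prodL (fun _ : Fin (m + 2) => E)) * (1 - sumF chi E)
        = (1 - sumF chi E) * sumF C.Phi (prodL (fun _ : Fin (m + 2) => E)) := by ring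
    linarith

/-- the level-`n` likelihood of the regular tree -/
theorem regGood (hq : 2 ≤ q) (h0 : -1 / ((q : ℝ) - 1) ≤ lam) (h1 : lam ≤ 1) (d : ℕ) :
    ∀ n, GoodL C (regLik q d lam n)
  | 0 => goodL_zero
  | n + 1 => by
    have h := (regGood hq h0 h1 d n).edge hq h0 h1
    exact GoodL.prodL hq (fun _ : Fin d => h)

end fam

theorem nonreconstruction_reg_frame {q d : ℕ} {lam : ℝ} (hq : 2 ≤ q) (hd : 2 ≤ d)
    (h0 : -1 / ((q : ℝ) - 1) ≤ lam) (h1 : lam ≤ 1) (C : FrameCert q lam)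
    (h : (d : ℝ) * lam ^ 2 ≤ 1) : Nonreconstruction (regA q d lam) := by
  have hG := regGood (C := C) hq h0 h1 d
  set x : ℕ → ℝ := fun n => sumF chi (regLik q d lam n) with hx
  have hx0 : ∀ n, 0 ≤ x n := fun n => sumF_chi_nonneg (hG n).nonneg
  have hx1 : ∀ n, x n ≤ 1 := fun n => sumF_chi_le_one hq (hG n).nonneg (hG n).norm
  have hq0 : 0 < q := by omega
  obtain ⟨m, rfl⟩ : ∃ m, d = m + 2 := ⟨d - 2, by omega⟩
  have hstep : ∀ n, x (n + 1) ≤ (m + 2) * lam ^ 2 * x n
      - 2 * C.gam * (C.cc * sumF C.Phi (regLik q (m + 2) lam n)) * (lam ^ 2 * x n) := by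
    intro n
    have hE := (hG n).edge hq h0 h1
    have h2 := chi_prodL_const_le hq hE m
    rw [sumF_chi_edgeL _ hq0] at h2
    have h3 := sumF_Phi_edgeL (C := C) (hG n).nonneg
    have h4 : 0 ≤ 2 * C.gam * (lam ^ 2 * x n) :=
      mul_nonneg (mul_nonneg (by norm_num) C.gam_pos.le) (mul_nonneg (sq_nonneg _) (hx0 n))
    have h5 := mul_le_mul_of_nonneg_left h3 h4
    have h6 : x (n + 1)
        = sumF chi (prodL (fun _ : Fin (m + 2) => edgeL lam (regLik q (m + 2) lam n))) := rfl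
    rw [h6]
    refine le_trans h2 ?_
    have h7 : sumF chi (regLik q (m + 2) lam n) = x n := rfl
    rw [h7]
    nlinarith [h5]
  have hlam : lam ^ 2 ≤ 1 / 2 := by
    push_cast at h
    have : 0 ≤ (m : ℝ) * lam ^ 2 := by positivity
    nlinarith
  have hy : ∀ n, (1 - lam ^ 2) ^ m * (C.eps * (lam ^ 2 * x n) ^ 2)
      ≤ sumF C.Phi (regLik q (m + 2) lam (n + 1)) := by
    intro n
    have hE := (hG n).edge hq h0 h1
    have h2 := Phi_prodL_const_ge hq hE m
    rw [sumF_chi_edgeL _ hq0] at h2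
    refine le_trans ?_ h2
    have h7 : sumF chi (regLik q (m + 2) lam n) = x n := rfl
    rw [h7]
    apply mul_le_mul_of_nonneg_right
    · apply pow_le_pow_left₀
      · linarith
      · have := mul_le_mul_of_nonneg_left (hx1 n) (sq_nonneg lam)
        linarith
    · exact mul_nonneg C.eps_pos.le (sq_nonneg _)
  have hlim : Filter.Tendsto x Filter.atTop (nhds 0) := by
    by_cases hl : lam = 0
    · have : ∀ n, x (n + 1) = 0 := by
        intro n
        apply le_antisymm _ (hx0 _)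
        refine le_trans (hstep n) ?_
        have hl2 : lam ^ 2 = 0 := by
          rw [hl]
          norm_num
        rw [hl2]
        simp
      have h8 : Filter.Tendsto (fun n => x (n + 1)) Filter.atTop (nhds 0) := by
        simp_rw [this]
        exact tendsto_const_nhds
      exact (Filter.tendsto_add_atTop_iff_nat 1).1 h8
    · have hcc := C.cc_pos hl
      have hl2 : 0 < lam ^ 2 := by positivity
      have hg := C.gam_pos
      have he := C.eps_pos
      have hr : 0 < (1 - lam ^ 2) ^ m := by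
        apply pow_pos
        linarith
      refine tendsto_zero_of_rec hx0
        (K := 2 * C.gam * C.cc * lam ^ 2 * ((1 - lam ^ 2) ^ m * (C.eps * (lam ^ 2) ^ 2)))
        (by positivity) (fun n => ?_)
      have h8 := hstep (n + 1)
      have h9 := hy n
      have h10 : 0 ≤ 2 * C.gam * C.cc * (lam ^ 2 * x (n + 1)) := by
        have := hx0 (n + 1)
        positivity
      have h11 := mul_le_mul_of_nonneg_left h9 h10
      have h12 : ((m : ℝ) + 2) * lam ^ 2 * x (n + 1) ≤ x (n + 1) := by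
        push_cast at h
        have := mul_le_mul_of_nonneg_right h (hx0 (n + 1))
        linarith
      nlinarith [h8, h11, h12]
  refine tendsto_zero_of_bias (A := (q : ℝ) / 4) (B := ((q : ℝ) - 1) / (4 * q))
    (fun n => avgBias_nonneg (hG n).nonneg) hlim (fun n δ hδ => ?_)
  have h2 := avgBias_le hq (hG n).nonneg (hG n).norm hδ
  unfold regA
  refine le_trans h2 (le_of_eq ?_)
  have hq0' : (q : ℝ) ≠ 0 := by exact_mod_cast hq0.ne'
  have h7 : sumF chi (regLik q (m + 2) lam n) = x n := rfl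
  rw [h7]
  field_simp

end Vale.Agent.P154
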