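import Vale.Agent.Lib.P154.K4Defs

/-!
# `q = 4`: upper bound for `chi - kap`
-/

namespace Vale.Agent.P154.K4

/-- Bernstein coefficient 0 0 -/
noncomputable def f00 (s r : ℝ) : ℝ :=
    8 * s ^ 6 * r ^ 2 + 540 * s ^ 4 * r ^ 4 + 1296 * s ^ 2 * r ^ 6 + 972 * r ^ 8

theorem f00_nonneg {s r : ℝ} (hs : 0 ≤ s) (hr : 0 ≤ r) : 0 ≤ f00 s r := by
  unfold f00
  positivity

/-- Bernstein coefficient 0 1 -/
noncomputable def f01 (s r : ℝ) : ℝ :=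
    28 / 15 * s ^ 8 + 16 * s ^ 7 * r + 352 / 5 * s ^ 6 * r ^ 2 + 224 * s ^ 5 * r ^ 3 + 3076
    / 5 * s ^ 4 * r ^ 4 + 144 * s ^ 3 * r ^ 5 + 5832 / 5 * s ^ 2 * r ^ 6 + 864 * r ^ 8

theorem f01_nonneg {s r : ℝ} (hs : 0 ≤ s) (hr : 0 ≤ r) : 0 ≤ f01 s r := by
  unfold f01
  positivity

/-- Bernstein coefficient 0 2 -/
noncomputable def f02 (s r : ℝ) : ℝ :=
    56 / 15 * s ^ 8 + 32 * s ^ 7 * r + 2152 / 15 * s ^ 6 * r ^ 2 + 1744 / 5 * s ^ 5 * r ^ 3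
    + 2872 / 5 * s ^ 4 * r ^ 4 + 1472 / 5 * s ^ 3 * r ^ 5 + 6472 / 5 * s ^ 2 * r ^ 6 + 144 * s
    * r ^ 7 + 3744 / 5 * r ^ 8

theorem f02_nonneg {s r : ℝ} (hs : 0 ≤ s) (hr : 0 ≤ r) : 0 ≤ f02 s r := by
  unfold f02
  positivity

/-- Bernstein coefficient 0 3 -/
noncomputable def f03 (s r : ℝ) : ℝ :=
    28 / 5 * s ^ 8 + 48 * s ^ 7 * r + 1136 / 5 * s ^ 6 * r ^ 2 + 1872 / 5 * s ^ 5 * r ^ 3 +
    2088 / 5 * s ^ 4 * r ^ 4 + 848 * s ^ 3 * r ^ 5 + 4848 / 5 * s ^ 2 * r ^ 6 + 2352 / 5 * s ^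
    1 * r ^ 7 + 3676 / 5 * r ^ 8

theorem f03_nonneg {s r : ℝ} (hs : 0 ≤ s) (hr : 0 ≤ r) : 0 ≤ f03 s r := by
  unfold f03
  positivity

/-- Bernstein coefficient 1 0 -/
noncomputable def f10 (s r : ℝ) : ℝ :=
    28 / 15 * s ^ 8 - 16 * s ^ 7 * r + 352 / 5 * s ^ 6 * r ^ 2 - 224 * s ^ 5 * r ^ 3 + 3076
    / 5 * s ^ 4 * r ^ 4 - 144 * s ^ 3 * r ^ 5 + 5832 / 5 * s ^ 2 * r ^ 6 + 864 * r ^ 8

theorem f10_nonneg {s r : ℝ} (hs : 0 ≤ s) (hr : 0 ≤ r) : 0 ≤ f10 s r := by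
  rcases le_total r (2 / 3 * s) with h | h
  · obtain ⟨u, hu⟩ : ∃ u, u = s - r / (2 / 3) := ⟨_, rfl⟩
    obtain ⟨v, hv⟩ : ∃ v, v = r / (2 / 3) := ⟨_, rfl⟩
    have hv0 : 0 ≤ v := by rw [hv]; positivity
    have hu0 : 0 ≤ u := by
      rw [hu, sub_nonneg, div_le_iff₀ (by norm_num)]
      linarith
    have e1 : s = u + v := by rw [hu, hv]; ring
    have e2 : r = 2 / 3 * v := by rw [hv]; ring
    have key : f10 s r =
        28 / 15 * u ^ 8 + 64 / 15 * u ^ 7 * v + 80 / 9 * u ^ 6 * v ^ 2 + 256 / 135 * u ^ 5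
        * v ^ 3 + 6616 / 405 * u ^ 4 * v ^ 4 + 12992 / 81 * u ^ 3 * v ^ 5 + 6128 / 15 * u ^ 2 *
        v ^ 6 + 174208 / 405 * u * v ^ 7 + 236668 / 1215 * v ^ 8 := by
      rw [e1, e2]
      unfold f10
      ring
    rw [key]
    positivity
  · obtain ⟨v, hv⟩ : ∃ v, v = r - 2 / 3 * s := ⟨_, rfl⟩
    have hv0 : 0 ≤ v := by rw [hv]; linarith
    have e2 : r = 2 / 3 * s + v := by rw [hv]; ring
    have key : f10 s r =
        236668 / 1215 * s ^ 8 + 137072 / 81 * s ^ 7 * v + 866176 / 135 * s ^ 6 * v ^ 2 +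
        632704 / 45 * s ^ 5 * v ^ 3 + 297868 / 15 * s ^ 4 * v ^ 4 + 94288 / 5 * s ^ 3 * v ^ 5 +
        59592 / 5 * s ^ 2 * v ^ 6 + 4608 * s * v ^ 7 + 864 * v ^ 8 := by
      rw [e2]
      unfold f10
      ring
    rw [key]
    positivity

/-- Bernstein coefficient 1 1 -/
noncomputable def f11 (s r : ℝ) : ℝ :=
    56 / 15 * s ^ 8 + 1832 / 15 * s ^ 6 * r ^ 2 + 4568 / 5 * s ^ 4 * r ^ 4 + 4744 / 5 * s ^ 2 *
    r ^ 6 + 3456 / 5 * r ^ 8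

theorem f11_nonneg {s r : ℝ} (hs : 0 ≤ s) (hr : 0 ≤ r) : 0 ≤ f11 s r := by
  unfold f11
  positivity

/-- Bernstein coefficient 1 2 -/
noncomputable def f12 (s r : ℝ) : ℝ :=
    28 / 5 * s ^ 8 + 16 * s ^ 7 * r + 2768 / 15 * s ^ 6 * r ^ 2 + 624 / 5 * s ^ 5 * r ^ 3 +
    1096 * s ^ 4 * r ^ 4 - 1232 / 5 * s ^ 3 * r ^ 5 + 6128 / 5 * s ^ 2 * r ^ 6 + 3088 / 5 * s ^
    1 * r ^ 7 + 1948 / 5 * r ^ 8

theorem f12_nonneg {s r : ℝ} (hs : 0 ≤ s) (hr : 0 ≤ r) : 0 ≤ f12 s r := by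
  rcases le_total r (1 / 4 * s) with h | h
  · obtain ⟨u, hu⟩ : ∃ u, u = s - r / (1 / 4) := ⟨_, rfl⟩
    obtain ⟨v, hv⟩ : ∃ v, v = r / (1 / 4) := ⟨_, rfl⟩
    have hv0 : 0 ≤ v := by rw [hv]; positivity
    have hu0 : 0 ≤ u := by
      rw [hu, sub_nonneg, div_le_iff₀ (by norm_num)]
      linarith
    have e1 : s = u + v := by rw [hu, hv]; ring
    have e2 : r = 1 / 4 * v := by rw [hv]; ring
    have key : f12 s r =
        28 / 5 * u ^ 8 + 244 / 5 * u ^ 7 * v + 589 / 3 * u ^ 6 * v ^ 2 + 1875 / 4 * u ^ 5 *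
        v ^ 3 + 23009 / 32 * u ^ 4 * v ^ 4 + 138365 / 192 * u ^ 3 * v ^ 5 + 586963 / 1280 * u ^
        2 * v ^ 6 + 864201 / 5120 * u * v ^ 7 + 1350049 / 49152 * v ^ 8 := by
      rw [e1, e2]
      unfold f12
      ring
    rw [key]
    positivity
  · obtain ⟨v, hv⟩ : ∃ v, v = r - 1 / 4 * s := ⟨_, rfl⟩
    have hv0 : 0 ≤ v := by rw [hv]; linarith
    have e2 : r = 1 / 4 * s + v := by rw [hv]; ring
    have key : f12 s r =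
        1350049 / 49152 * s ^ 8 + 1565039 / 7680 * s ^ 7 * v + 566611 / 768 * s ^ 6 * v ^ 2
        + 248887 / 160 * s ^ 5 * v ^ 3 + 76201 / 32 * s ^ 4 * v ^ 4 + 5487 / 2 * s ^ 3 * v ^ 5
        + 14941 / 5 * s ^ 2 * v ^ 6 + 6984 / 5 * s * v ^ 7 + 1948 / 5 * v ^ 8 := by
      rw [e2]
      unfold f12
      ring
    rw [key]
    positivity

/-- Bernstein coefficient 2 0 -/
noncomputable def f20 (s r : ℝ) : ℝ :=
    56 / 15 * s ^ 8 - 32 * s ^ 7 * r + 2152 / 15 * s ^ 6 * r ^ 2 - 1744 / 5 * s ^ 5 * r ^ 3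
    + 2872 / 5 * s ^ 4 * r ^ 4 - 1472 / 5 * s ^ 3 * r ^ 5 + 6472 / 5 * s ^ 2 * r ^ 6 - 144 * s
    * r ^ 7 + 3744 / 5 * r ^ 8

theorem f20_nonneg {s r : ℝ} (hs : 0 ≤ s) (hr : 0 ≤ r) : 0 ≤ f20 s r := by
  rcases le_total r (3 / 4 * s) with h | h
  · obtain ⟨u, hu⟩ : ∃ u, u = s - r / (3 / 4) := ⟨_, rfl⟩
    obtain ⟨v, hv⟩ : ∃ v, v = r / (3 / 4) := ⟨_, rfl⟩
    have hv0 : 0 ≤ v := by rw [hv]; positivity
    have hu0 : 0 ≤ u := by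
      rw [hu, sub_nonneg, div_le_iff₀ (by norm_num)]
      linarith
    have e1 : s = u + v := by rw [hu, hv]; ring
    have e2 : r = 3 / 4 * v := by rw [hv]; ring
    have key : f20 s r =
        56 / 15 * u ^ 8 + 88 / 15 * u ^ 7 * v + 517 / 30 * u ^ 6 * v ^ 2 + 2527 / 60 * u ^
        5 * v ^ 3 + 37357 / 480 * u ^ 4 * v ^ 4 + 40483 / 240 * u ^ 3 * v ^ 5 + 3462019 / 7680
        * u ^ 2 * v ^ 6 + 8743423 / 15360 * u * v ^ 7 + 9562609 / 30720 * v ^ 8 := by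
      rw [e1, e2]
      unfold f20
      ring
    rw [key]
    positivity
  · obtain ⟨v, hv⟩ : ∃ v, v = r - 3 / 4 * s := ⟨_, rfl⟩
    have hv0 : 0 ≤ v := by rw [hv]; linarith
    have e2 : r = 3 / 4 * s + v := by rw [hv]; ring
    have key : f20 s r =
        9562609 / 30720 * s ^ 8 + 3278557 / 1280 * s ^ 7 * v + 8844067 / 960 * s ^ 6 * v ^
        2 + 303937 / 16 * s ^ 5 * v ^ 3 + 124252 / 5 * s ^ 4 * v ^ 4 + 107599 / 5 * s ^ 3 * v ^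
        5 + 12332 * s ^ 2 * v ^ 6 + 21744 / 5 * s * v ^ 7 + 3744 / 5 * v ^ 8 := by
      rw [e2]
      unfold f20
      ring
    rw [key]
    positivity

/-- Bernstein coefficient 2 1 -/
noncomputable def f21 (s r : ℝ) : ℝ :=
    28 / 5 * s ^ 8 - 16 * s ^ 7 * r + 2768 / 15 * s ^ 6 * r ^ 2 - 624 / 5 * s ^ 5 * r ^ 3 +
    1096 * s ^ 4 * r ^ 4 + 1232 / 5 * s ^ 3 * r ^ 5 + 6128 / 5 * s ^ 2 * r ^ 6 - 3088 / 5 * s ^
    1 * r ^ 7 + 1948 / 5 * r ^ 8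

theorem f21_nonneg {s r : ℝ} (hs : 0 ≤ s) (hr : 0 ≤ r) : 0 ≤ f21 s r := by
  rcases le_total r (2 * s) with h | h
  · obtain ⟨u, hu⟩ : ∃ u, u = s - r / (2) := ⟨_, rfl⟩
    obtain ⟨v, hv⟩ : ∃ v, v = r / (2) := ⟨_, rfl⟩
    have hv0 : 0 ≤ v := by rw [hv]; positivity
    have hu0 : 0 ≤ u := by
      rw [hu, sub_nonneg, div_le_iff₀ (by norm_num)]
      linarith
    have e1 : s = u + v := by rw [hu, hv]; ring
    have e2 : r = 2 * v := by rw [hv]; ring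
    have key : f21 s r =
        28 / 5 * u ^ 8 + 64 / 5 * u ^ 7 * v + 10064 / 15 * u ^ 6 * v ^ 2 + 3072 * u ^ 5 * v
        ^ 3 + 22888 * u ^ 4 * v ^ 4 + 1230016 / 15 * u ^ 3 * v ^ 5 + 1039408 / 5 * u ^ 2 * v ^
        6 + 170880 * u * v ^ 7 + 372772 / 3 * v ^ 8 := by
      rw [e1, e2]
      unfold f21
      ring
    rw [key]
    positivity
  · obtain ⟨v, hv⟩ : ∃ v, v = r - 2 * s := ⟨_, rfl⟩
    have hv0 : 0 ≤ v := by rw [hv]; linarith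
    have e2 : r = 2 * s + v := by rw [hv]; ring
    have key : f21 s r =
        372772 / 3 * s ^ 8 + 1234768 / 3 * s ^ 7 * v + 9340976 / 15 * s ^ 6 * v ^ 2 +
        2834512 / 5 * s ^ 5 * v ^ 3 + 340520 * s ^ 4 * v ^ 4 + 137616 * s ^ 3 * v ^ 5 + 181072
        / 5 * s ^ 2 * v ^ 6 + 5616 * s * v ^ 7 + 1948 / 5 * v ^ 8 := by
      rw [e2]
      unfold f21
      ring
    rw [key]
    positivity

/-- Bernstein coefficient 3 0 -/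
noncomputable def f30 (s r : ℝ) : ℝ :=
    28 / 5 * s ^ 8 - 48 * s ^ 7 * r + 1136 / 5 * s ^ 6 * r ^ 2 - 1872 / 5 * s ^ 5 * r ^ 3 +
    2088 / 5 * s ^ 4 * r ^ 4 - 848 * s ^ 3 * r ^ 5 + 4848 / 5 * s ^ 2 * r ^ 6 - 2352 / 5 * s ^
    1 * r ^ 7 + 3676 / 5 * r ^ 8

theorem f30_nonneg {s r : ℝ} (hs : 0 ≤ s) (hr : 0 ≤ r) : 0 ≤ f30 s r := by
  rcases le_total r (2 / 3 * s) with h | h
  · obtain ⟨u, hu⟩ : ∃ u, u = s - r / (2 / 3) := ⟨_, rfl⟩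
    obtain ⟨v, hv⟩ : ∃ v, v = r / (2 / 3) := ⟨_, rfl⟩
    have hv0 : 0 ≤ v := by rw [hv]; positivity
    have hu0 : 0 ≤ u := by
      rw [hu, sub_nonneg, div_le_iff₀ (by norm_num)]
      linarith
    have e1 : s = u + v := by rw [hu, hv]; ring
    have e2 : r = 2 / 3 * v := by rw [hv]; ring
    have key : f30 s r =
        28 / 5 * u ^ 8 + 64 / 5 * u ^ 7 * v + 304 / 9 * u ^ 6 * v ^ 2 + 2048 / 15 * u ^ 5 *
        v ^ 3 + 14152 / 45 * u ^ 4 * v ^ 4 + 78272 / 243 * u ^ 3 * v ^ 5 + 32848 / 243 * u ^ 2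
        * v ^ 6 + 7040 / 729 * u * v ^ 7 + 136076 / 6561 * v ^ 8 := by
      rw [e1, e2]
      unfold f30
      ring
    rw [key]
    positivity
  · obtain ⟨v, hv⟩ : ∃ v, v = r - 2 / 3 * s := ⟨_, rfl⟩
    have hv0 : 0 ≤ v := by rw [hv]; linarith
    have e2 : r = 2 / 3 * s + v := by rw [hv]; ring
    have key : f30 s r =
        136076 / 6561 * s ^ 8 + 512624 / 2187 * s ^ 7 * v + 1063376 / 729 * s ^ 6 * v ^ 2 +
        1187216 / 243 * s ^ 5 * v ^ 3 + 3783688 / 405 * s ^ 4 * v ^ 4 + 1463248 / 135 * s ^ 3 *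
        v ^ 5 + 71312 / 9 * s ^ 2 * v ^ 6 + 10352 / 3 * s * v ^ 7 + 3676 / 5 * v ^ 8 := by
      rw [e2]
      unfold f30
      ring
    rw [key]
    positivity

/-- the Bernstein form -/
noncomputable def bern (s r u v w : ℝ) : ℝ :=
    1 * f00 s r * u ^ 3 + 3 * f01 s r * u ^ 2 * w + 3 * f02 s r * u * w ^ 2 + 1 * f03 s
    r * w ^ 3 + 3 * f10 s r * u ^ 2 * v + 6 * f11 s r * u * v * w + 3 * f12 s r
    * v * w ^ 2 + 3 * f20 s r * u * v ^ 2 + 3 * f21 s r * v ^ 2 * w + 1 * f30 s r *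
    v ^ 3

/-- the difference of the two sides, homogenized -/
noncomputable def Dh (o s r P E : ℝ) : ℝ :=
  (o ^ 2 + 9 / 5 * (4 / 3 * (s ^ 2 * (3 * r ^ 2) + 6 * s * P + E))) *
      (8 * (s * P * o + s ^ 2 * E + P ^ 2)) * o
    - (3 / 4 * o ^ 2 + 4 / 3 * (s ^ 2 * (3 * r ^ 2) + 6 * s * P + E)) *
      (4 / 3 * (s ^ 2 * (3 * r ^ 2) + 6 * s * P + E)) ^ 2
    - 3 / 10 * (16 * (s ^ 2 * E * o + (o + 8 * s ^ 2) * P ^ 2
      + 4 * s * P * (s ^ 2 * (3 * r ^ 2) + E))) * o ^ 2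
    - 4 / 3 * (E + 6 * s * P - (3 * r ^ 2) ^ 2) * o ^ 4

theorem Dh_eq (s r P E : ℝ) : 27 * r ^ 8 * Dh (s ^ 2 + 3 * r ^ 2) s r P E =
    bern s r (3 * r ^ 4 - E) ((E + 3 * r * P) / 2) ((E - 3 * r * P) / 2) := by
  unfold Dh bern f00 f01 f02 f03 f10 f11 f12 f20 f21 f30
  ring

theorem bern_nonneg {s r u v w : ℝ} (hs : 0 ≤ s) (hr : 0 ≤ r) (hu : 0 ≤ u) (hv : 0 ≤ v)
    (hw : 0 ≤ w) : 0 ≤ bern s r u v w := by
  have h00 := f00_nonneg hs hr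
  have h01 := f01_nonneg hs hr
  have h02 := f02_nonneg hs hr
  have h03 := f03_nonneg hs hr
  have h10 := f10_nonneg hs hr
  have h11 := f11_nonneg hs hr
  have h12 := f12_nonneg hs hr
  have h20 := f20_nonneg hs hr
  have h21 := f21_nonneg hs hr
  have h30 := f30_nonneg hs hr
  unfold bern
  positivity

theorem Dh_nonneg {s r P E : ℝ} (hs : 0 ≤ s) (hr : 0 < r) (h : s ^ 2 + 3 * r ^ 2 = 1)
    (hE1 : 3 * E ≤ (3 * r ^ 2) ^ 2) (hP : 3 * (3 * r ^ 2) * P ^ 2 ≤ E ^ 2) (hE0 : 0 ≤ E) :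
    0 ≤ Dh 1 s r P E := by
  have h1 := Dh_eq s r P E
  rw [h] at h1
  have h2 : |3 * r * P| ≤ E := by
    apply abs_le_of_sq_le_sq _ hE0
    nlinarith
  obtain ⟨h3, h4⟩ := abs_le.1 h2
  have h5 : 0 ≤ bern s r (3 * r ^ 4 - E) ((E + 3 * r * P) / 2) ((E - 3 * r * P) / 2) :=
    bern_nonneg hs hr.le (by nlinarith) (by linarith) (by linarith)
  rw [← h1] at h5
  by_contra hcon
  push Not at hcon
  have h6 : 0 < 27 * r ^ 8 := by positivity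
  nlinarith

/-- the polynomial inequality: `s, k1, k2, k3` are the Hadamard coordinates of `√w` -/
theorem core_poly {s P E Z : ℝ} (hs : 0 ≤ s) (hZ : s ^ 2 + Z = 1) (hZ0 : 0 ≤ Z) (hE0 : 0 ≤ E)
    (hE1 : 3 * E ≤ Z ^ 2) (hP : 3 * Z * P ^ 2 ≤ E ^ 2) (hP3 : 27 * P ^ 2 ≤ Z ^ 3) :
    4 / 3 * (E + 6 * s * P - Z ^ 2) ≤
      PhA (4 / 3 * (s ^ 2 * Z + 6 * s * P + E)) (8 * (s * P + s ^ 2 * E + P ^ 2))
        (16 * (s ^ 2 * E + (1 + 8 * s ^ 2) * P ^ 2 + 4 * s * P * (s ^ 2 * Z + E))) := by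
  rcases eq_or_lt_of_le hZ0 with h0 | h0
  · subst h0
    have hP0 : P = 0 := by
      have : P ^ 2 ≤ 0 := by linarith
      exact pow_eq_zero_iff (two_ne_zero) |>.1 (le_antisymm this (sq_nonneg P))
    have hE : E = 0 := by linarith
    subst hP0 hE
    simp [PhA]
  · obtain ⟨r, hr⟩ : ∃ r, r = √(Z / 3) := ⟨_, rfl⟩
    have hr0 : 0 < r := by rw [hr]; positivity
    have hr2 : 3 * r ^ 2 = Z := by
      rw [hr, Real.sq_sqrt (by positivity)]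
      ring
    subst hr2
    have h1 := Dh_nonneg hs hr0 hZ hE1 hP hE0
    unfold Dh at h1
    unfold PhA
    linarith

theorem phi_le {x y z u : ℝ} (hx : 0 ≤ x) (hy : 0 ≤ y) (hz : 0 ≤ z) (hu : 0 ≤ u)
    (h : x + y + z + u = 4) :
    chiT x y z u - kapT x y z u ≤ PhA (aT x y z u) (pT x y z u) (bT x y z u) := by
  obtain ⟨a, ha⟩ : ∃ a, a = √x := ⟨_, rfl⟩
  obtain ⟨b, hb⟩ : ∃ b, b = √y := ⟨_, rfl⟩
  obtain ⟨c, hc⟩ : ∃ c, c = √z := ⟨_, rfl⟩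
  obtain ⟨d, hd⟩ : ∃ d, d = √u := ⟨_, rfl⟩
  have ha0 : 0 ≤ a := by rw [ha]; positivity
  have hb0 : 0 ≤ b := by rw [hb]; positivity
  have hc0 : 0 ≤ c := by rw [hc]; positivity
  have hd0 : 0 ≤ d := by rw [hd]; positivity
  have hx2 : x = a ^ 2 := by rw [ha, Real.sq_sqrt hx]
  have hy2 : y = b ^ 2 := by rw [hb, Real.sq_sqrt hy]
  have hz2 : z = c ^ 2 := by rw [hc, Real.sq_sqrt hz]
  have hu2 : u = d ^ 2 := by rw [hd, Real.sq_sqrt hu]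
  have hkap : kapT x y z u = (x + y + z + u) / 4 -
      (a * b + a * c + a * d + b * c + b * d + c * d) / 6 := by
    unfold kapT
    rw [Real.sqrt_mul hx, Real.sqrt_mul hx, Real.sqrt_mul hx, Real.sqrt_mul hy, Real.sqrt_mul hy,
      Real.sqrt_mul hz, ← ha, ← hb, ← hc, ← hd]
  obtain ⟨s, hs⟩ : ∃ s, s = (a + b + c + d) / 4 := ⟨_, rfl⟩
  obtain ⟨k, hk⟩ : ∃ k, k = (a + b - c - d) / 4 := ⟨_, rfl⟩
  obtain ⟨l, hl⟩ : ∃ l, l = (a - b + c - d) / 4 := ⟨_, rfl⟩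
  obtain ⟨m, hm⟩ : ∃ m, m = (a - b - c + d) / 4 := ⟨_, rfl⟩
  have hs0 : 0 ≤ s := by rw [hs]; positivity
  have hZ : s ^ 2 + (k ^ 2 + l ^ 2 + m ^ 2) = 1 := by
    have : s ^ 2 + (k ^ 2 + l ^ 2 + m ^ 2) = (a ^ 2 + b ^ 2 + c ^ 2 + d ^ 2) / 4 := by
      rw [hs, hk, hl, hm]
      ring
    rw [this, ← hx2, ← hy2, ← hz2, ← hu2, h]
    norm_num
  have hcore := core_poly (s := s) (P := k * l * m)
    (E := k ^ 2 * l ^ 2 + l ^ 2 * m ^ 2 + m ^ 2 * k ^ 2) (Z := k ^ 2 + l ^ 2 + m ^ 2)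
    hs0 hZ (by positivity) (by positivity)
    (by
      nlinarith [sq_nonneg (k ^ 2 - l ^ 2), sq_nonneg (l ^ 2 - m ^ 2), sq_nonneg (m ^ 2 - k ^ 2)])
    (by
      nlinarith [sq_nonneg (k ^ 2 * l ^ 2 - l ^ 2 * m ^ 2),
        sq_nonneg (l ^ 2 * m ^ 2 - m ^ 2 * k ^ 2), sq_nonneg (m ^ 2 * k ^ 2 - k ^ 2 * l ^ 2)])
    (by
      have hk2 := sq_nonneg k
      have hl2 := sq_nonneg l
      have hm2 := sq_nonneg m
      have e : (k * l * m) ^ 2 = k ^ 2 * l ^ 2 * m ^ 2 := by ring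
      rw [e]
      generalize k ^ 2 = A at *
      generalize l ^ 2 = B at *
      generalize m ^ 2 = C at *
      nlinarith [mul_nonneg hk2 (sq_nonneg (B - C)), mul_nonneg hl2 (sq_nonneg (C - A)),
        mul_nonneg hm2 (sq_nonneg (A - B)), mul_nonneg (add_nonneg (add_nonneg hk2 hl2) hm2)
          (add_nonneg (add_nonneg (sq_nonneg (A - B)) (sq_nonneg (B - C))) (sq_nonneg (C - A)))])
  have e1 : H1 x y z u = 2 * (s * k + l * m) := by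
    unfold H1
    rw [hx2, hy2, hz2, hu2, hs, hk, hl, hm]
    ring
  have e2 : H2 x y z u = 2 * (s * l + k * m) := by
    unfold H2
    rw [hx2, hy2, hz2, hu2, hs, hk, hl, hm]
    ring
  have e3 : H3 x y z u = 2 * (s * m + k * l) := by
    unfold H3
    rw [hx2, hy2, hz2, hu2, hs, hk, hl, hm]
    ring
  have ea : aT x y z u = 4 / 3 * (s ^ 2 * (k ^ 2 + l ^ 2 + m ^ 2) + 6 * s * (k * l * m)
      + (k ^ 2 * l ^ 2 + l ^ 2 * m ^ 2 + m ^ 2 * k ^ 2)) := by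
    unfold aT
    rw [e1, e2, e3]
    ring
  have ep : pT x y z u = 8 * (s * (k * l * m)
      + s ^ 2 * (k ^ 2 * l ^ 2 + l ^ 2 * m ^ 2 + m ^ 2 * k ^ 2) + (k * l * m) ^ 2) := by
    unfold pT
    rw [e1, e2, e3]
    linear_combination (8 * s * (k * l * m)) * hZ
  have eb : bT x y z u = 16 * (s ^ 2 * (k ^ 2 * l ^ 2 + l ^ 2 * m ^ 2 + m ^ 2 * k ^ 2)
      + (1 + 8 * s ^ 2) * (k * l * m) ^ 2
      + 4 * s * (k * l * m) * (s ^ 2 * (k ^ 2 + l ^ 2 + m ^ 2)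
        + (k ^ 2 * l ^ 2 + l ^ 2 * m ^ 2 + m ^ 2 * k ^ 2))) := by
    unfold bT
    rw [e1, e2, e3]
    linear_combination (16 * (s ^ 2 * (k ^ 2 * l ^ 2 + l ^ 2 * m ^ 2 + m ^ 2 * k ^ 2)
      + (k * l * m) ^ 2)) * hZ
  have ec : chiT x y z u - kapT x y z u = 4 / 3 * ((k ^ 2 * l ^ 2 + l ^ 2 * m ^ 2 + m ^ 2 * k ^ 2)
      + 6 * s * (k * l * m) - (k ^ 2 + l ^ 2 + m ^ 2) ^ 2) := by
    rw [hkap]
    unfold chiT
    have hZ' : k ^ 2 + l ^ 2 + m ^ 2 = 1 - s ^ 2 := by linarith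
    have h4 : a ^ 2 + b ^ 2 + c ^ 2 + d ^ 2 = 4 := by rw [← hx2, ← hy2, ← hz2, ← hu2, h]
    rw [h, hx2, hy2, hz2, hu2]
    have ea' : a = s + k + l + m := by rw [hs, hk, hl, hm]; ring
    have eb' : b = s + k - l - m := by rw [hs, hk, hl, hm]; ring
    have ec' : c = s - k + l - m := by rw [hs, hk, hl, hm]; ring
    have ed' : d = s - k - l + m := by rw [hs, hk, hl, hm]; ring
    rw [ea', eb', ec', ed']
    linear_combination ((s ^ 2 + 5 * (k ^ 2 + l ^ 2 + m ^ 2) + 4) / 3) * hZ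
  rw [ea, ep, eb, ec]
  exact hcore

end Vale.Agent.P154.K4
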