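import Vale.Agent.Lib.P154.K4Defs

/-!
# `q = 4`: the functional `kap`: bounds and the exact product rule
-/

open scoped BigOperators

namespace Vale.Agent.P154.K4

theorem K4B_sum_perm3 (G : Fin 3 → Fin 3 → Fin 3 → ℝ) :
    ∑ s : Equiv.Perm (Fin 3), G (s 0) (s 1) (s 2) =
      G 0 1 2 + G 1 2 0 + G 2 0 1 + G 0 2 1 + G 1 0 2 + G 2 1 0 := by
  have h : (Finset.univ : Finset (Equiv.Perm (Fin 3))) =
      {1, finRotate 3, (finRotate 3)^2, Equiv.swap 1 2, Equiv.swap 0 1, Equiv.swap 0 2} := by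
    decide
  rw [h, Finset.sum_insert (by decide), Finset.sum_insert (by decide),
    Finset.sum_insert (by decide), Finset.sum_insert (by decide), Finset.sum_insert (by decide),
    Finset.sum_singleton]
  have e : ∀ (s : Equiv.Perm (Fin 3)) (i j k : Fin 3), s 0 = i → s 1 = j → s 2 = k →
      G (s 0) (s 1) (s 2) = G i j k := by
    intro s i j k h0 h1 h2; rw [h0, h1, h2]
  rw [e 1 0 1 2 (by decide) (by decide) (by decide),
    e (finRotate 3) 1 2 0 (by decide) (by decide) (by decide),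
    e ((finRotate 3)^2) 2 0 1 (by decide) (by decide) (by decide),
    e (Equiv.swap 1 2) 0 2 1 (by decide) (by decide) (by decide),
    e (Equiv.swap 0 1) 1 0 2 (by decide) (by decide) (by decide),
    e (Equiv.swap 0 2) 2 1 0 (by decide) (by decide) (by decide)]
  ring

theorem K4B_decomp (F : Equiv.Perm (Fin 4) → ℝ) :
    ∑ s : Equiv.Perm (Fin 4), F s =
      ∑ p : Fin 4, ∑ e : Equiv.Perm (Fin 3), F (Equiv.Perm.decomposeFin.symm (p, e)) := by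
  rw [← Fintype.sum_prod_type']
  exact (Equiv.sum_comp (Equiv.Perm.decomposeFin (n := 3)).symm F).symm

/-- explicit sum over the permutations of four letters -/
theorem sum_perm4 (G : Fin 4 → Fin 4 → Fin 4 → Fin 4 → ℝ) :
    ∑ s : Equiv.Perm (Fin 4), G (s 0) (s 1) (s 2) (s 3) =
      (G 0 1 2 3 + G 1 0 3 2 + G 2 3 0 1 + G 3 2 1 0) +
      (G 0 1 3 2 + G 1 0 2 3 + G 2 3 1 0 + G 3 2 0 1) +
      (G 0 2 1 3 + G 1 3 0 2 + G 2 0 3 1 + G 3 1 2 0) +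
      (G 0 2 3 1 + G 1 3 2 0 + G 2 0 1 3 + G 3 1 0 2) +
      (G 0 3 1 2 + G 1 2 0 3 + G 2 1 3 0 + G 3 0 2 1) +
      (G 0 3 2 1 + G 1 2 3 0 + G 2 1 0 3 + G 3 0 1 2) := by
  rw [K4B_decomp (fun s => G (s 0) (s 1) (s 2) (s 3))]
  have key : ∀ (p : Fin 4) (e : Equiv.Perm (Fin 3)),
      G (Equiv.Perm.decomposeFin.symm (p, e) 0) (Equiv.Perm.decomposeFin.symm (p, e) 1)
        (Equiv.Perm.decomposeFin.symm (p, e) 2) (Equiv.Perm.decomposeFin.symm (p, e) 3) =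
      G p (Equiv.swap 0 p (e 0).succ) (Equiv.swap 0 p (e 1).succ)
        (Equiv.swap 0 p (e 2).succ) := by
    intro p e
    have h0 : Equiv.Perm.decomposeFin.symm (p, e) 0 = p :=
      Equiv.Perm.decomposeFin_symm_apply_zero p e
    have h1 : Equiv.Perm.decomposeFin.symm (p, e) 1 = Equiv.swap 0 p (e 0).succ :=
      Equiv.Perm.decomposeFin_symm_apply_succ e p 0
    have h2 : Equiv.Perm.decomposeFin.symm (p, e) 2 = Equiv.swap 0 p (e 1).succ :=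
      Equiv.Perm.decomposeFin_symm_apply_succ e p 1
    have h3 : Equiv.Perm.decomposeFin.symm (p, e) 3 = Equiv.swap 0 p (e 2).succ :=
      Equiv.Perm.decomposeFin_symm_apply_succ e p 2
    rw [h0, h1, h2, h3]
  simp only [key]
  have key2 : ∀ p : Fin 4, ∑ e : Equiv.Perm (Fin 3), G p (Equiv.swap 0 p (e 0).succ)
      (Equiv.swap 0 p (e 1).succ) (Equiv.swap 0 p (e 2).succ) =
      G p (Equiv.swap 0 p 1) (Equiv.swap 0 p 2) (Equiv.swap 0 p 3)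
      + G p (Equiv.swap 0 p 2) (Equiv.swap 0 p 3) (Equiv.swap 0 p 1)
      + G p (Equiv.swap 0 p 3) (Equiv.swap 0 p 1) (Equiv.swap 0 p 2)
      + G p (Equiv.swap 0 p 1) (Equiv.swap 0 p 3) (Equiv.swap 0 p 2)
      + G p (Equiv.swap 0 p 2) (Equiv.swap 0 p 1) (Equiv.swap 0 p 3)
      + G p (Equiv.swap 0 p 3) (Equiv.swap 0 p 2) (Equiv.swap 0 p 1) := by
    intro p
    exact K4B_sum_perm3 (fun i j k => G p (Equiv.swap 0 p i.succ) (Equiv.swap 0 p j.succ)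
      (Equiv.swap 0 p k.succ))
  simp only [key2]
  rw [Fin.sum_univ_four]
  have s01 : (Equiv.swap 0 0 : Equiv.Perm (Fin 4)) 1 = 1 := by decide
  have s02 : (Equiv.swap 0 0 : Equiv.Perm (Fin 4)) 2 = 2 := by decide
  have s03 : (Equiv.swap 0 0 : Equiv.Perm (Fin 4)) 3 = 3 := by decide
  have s11 : (Equiv.swap 0 1 : Equiv.Perm (Fin 4)) 1 = 0 := by decide
  have s12 : (Equiv.swap 0 1 : Equiv.Perm (Fin 4)) 2 = 2 := by decide
  have s13 : (Equiv.swap 0 1 : Equiv.Perm (Fin 4)) 3 = 3 := by decide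
  have s21 : (Equiv.swap 0 2 : Equiv.Perm (Fin 4)) 1 = 1 := by decide
  have s22 : (Equiv.swap 0 2 : Equiv.Perm (Fin 4)) 2 = 0 := by decide
  have s23 : (Equiv.swap 0 2 : Equiv.Perm (Fin 4)) 3 = 3 := by decide
  have s31 : (Equiv.swap 0 3 : Equiv.Perm (Fin 4)) 1 = 1 := by decide
  have s32 : (Equiv.swap 0 3 : Equiv.Perm (Fin 4)) 2 = 2 := by decide
  have s33 : (Equiv.swap 0 3 : Equiv.Perm (Fin 4)) 3 = 0 := by decide
  rw [s01, s02, s03, s11, s12, s13, s21, s22, s23, s31, s32, s33]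
  ring

theorem K4B_sqrt_le {x y : ℝ} (hx : 0 ≤ x) (hy : 0 ≤ y) : √(x * y) ≤ (x + y) / 2 := by
  rw [Real.sqrt_le_left (by positivity)]
  nlinarith [sq_nonneg (x - y)]

theorem kap_nonneg (w : Fin 4 → ℝ) (hw : ∀ i, 0 ≤ w i) : 0 ≤ kap w := by
  unfold kap kapT
  have h1 := K4B_sqrt_le (hw 0) (hw 1)
  have h2 := K4B_sqrt_le (hw 0) (hw 2)
  have h3 := K4B_sqrt_le (hw 0) (hw 3)
  have h4 := K4B_sqrt_le (hw 1) (hw 2)
  have h5 := K4B_sqrt_le (hw 1) (hw 3)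
  have h6 := K4B_sqrt_le (hw 2) (hw 3)
  linarith

theorem kap_le_mass (w : Fin 4 → ℝ) (hw : ∀ i, 0 ≤ w i) : kap w ≤ mass w := by
  unfold kap kapT mass
  rw [Fin.sum_univ_four]
  have h1 := Real.sqrt_nonneg (w 0 * w 1)
  have h2 := Real.sqrt_nonneg (w 0 * w 2)
  have h3 := Real.sqrt_nonneg (w 0 * w 3)
  have h4 := Real.sqrt_nonneg (w 1 * w 2)
  have h5 := Real.sqrt_nonneg (w 1 * w 3)
  have h6 := Real.sqrt_nonneg (w 2 * w 3)
  push_cast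
  linarith

theorem K4B_cubic {r m : ℝ} (hr : 0 ≤ r) (hm : 0 ≤ m) :
    3 * r ^ 2 * m ^ 2 - r ^ 4 ≤ 2 * r * m ^ 3 := by
  have h : 0 ≤ r * ((r - m) ^ 2 * (r + 2 * m)) := by positivity
  nlinarith [h]

theorem K4B_lb {x y m : ℝ} (hx : 0 ≤ x) (hy : 0 ≤ y) (hm : 0 ≤ m) :
    3 * (x * y) * m ^ 2 - (x * y) ^ 2 ≤ 2 * √(x * y) * m ^ 3 := by
  have h := K4B_cubic (Real.sqrt_nonneg (x * y)) hm
  have h2 : √(x * y) ^ 2 = x * y := Real.sq_sqrt (mul_nonneg hx hy)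
  have h4 : √(x * y) ^ 4 = (x * y) ^ 2 := by
    calc √(x * y) ^ 4 = (√(x * y) ^ 2) ^ 2 := by ring
      _ = (x * y) ^ 2 := by rw [h2]
  rw [h2, h4] at h
  exact h

theorem K4B_main {x y z u R : ℝ} (hx : 0 ≤ x) (hy : 0 ≤ y) (hz : 0 ≤ z) (hu : 0 ≤ u)
    (hS : 0 < x + y + z + u)
    (hR : 3 * (x * y + x * z + x * u + y * z + y * u + z * u) * ((x + y + z + u) / 4) ^ 2
      - ((x * y) ^ 2 + (x * z) ^ 2 + (x * u) ^ 2 + (y * z) ^ 2 + (y * u) ^ 2 + (z * u) ^ 2)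
      ≤ 2 * R * ((x + y + z + u) / 4) ^ 3) :
    (x + y + z + u) ^ 2 ≤ 3 * (x ^ 2 + y ^ 2 + z ^ 2 + u ^ 2) + (x + y + z + u) * R / 6 := by
  obtain ⟨m, hm⟩ : ∃ m, m = (x + y + z + u) / 4 := ⟨_, rfl⟩
  obtain ⟨Q, hQ⟩ : ∃ Q, Q = x ^ 2 + y ^ 2 + z ^ 2 + u ^ 2 := ⟨_, rfl⟩
  have hm0 : 0 < m := by rw [hm]; linarith
  have hS4 : x + y + z + u = 4 * m := by rw [hm]; ring
  have he : x * y + x * z + x * u + y * z + y * u + z * u = (16 * m ^ 2 - Q) / 2 := by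
    rw [hm, hQ]; ring
  have hQ1 : 4 * m ^ 2 ≤ Q := by
    rw [hm, hQ]
    nlinarith [sq_nonneg (x - y), sq_nonneg (x - z), sq_nonneg (x - u), sq_nonneg (y - z),
      sq_nonneg (y - u), sq_nonneg (z - u)]
  have hQ2 : Q ≤ 16 * m ^ 2 := by
    have : 0 ≤ x * y + x * z + x * u + y * z + y * u + z * u := by positivity
    linarith
  have hE : (x * y) ^ 2 + (x * z) ^ 2 + (x * u) ^ 2 + (y * z) ^ 2 + (y * u) ^ 2 + (z * u) ^ 2
      ≤ 3 / 8 * Q ^ 2 := by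
    rw [hQ]
    nlinarith [sq_nonneg (x ^ 2 - y ^ 2), sq_nonneg (x ^ 2 - z ^ 2), sq_nonneg (x ^ 2 - u ^ 2),
      sq_nonneg (y ^ 2 - z ^ 2), sq_nonneg (y ^ 2 - u ^ 2), sq_nonneg (z ^ 2 - u ^ 2)]
  rw [← hm, he] at hR
  rw [← hQ, hS4]
  have hfin : 0 ≤ (Q - 4 * m ^ 2) * (16 * m ^ 2 - Q) :=
    mul_nonneg (by linarith) (by linarith)
  have hmul : m ^ 2 * (4 * m) ^ 2 ≤ m ^ 2 * (3 * Q + 4 * m * R / 6) := by
    nlinarith [hR, hE, hfin]
  exact le_of_mul_le_mul_left hmul (by positivity)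

theorem kap_le_chi (w : Fin 4 → ℝ) (hw : ∀ i, 0 ≤ w i) : kap w ≤ 9 * chi w := by
  unfold kap kapT chi
  rw [Fin.sum_univ_four, Fin.sum_univ_four]
  have hS0 : 0 ≤ w 0 + w 1 + w 2 + w 3 := by
    have h0 := hw 0
    have h1 := hw 1
    have h2 := hw 2
    have h3 := hw 3
    linarith
  rcases hS0.eq_or_lt with hS | hS
  · have h0 : w 0 = 0 := by linarith [hw 0, hw 1, hw 2, hw 3]
    have h1 : w 1 = 0 := by linarith [hw 0, hw 1, hw 2, hw 3]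
    have h2 : w 2 = 0 := by linarith [hw 0, hw 1, hw 2, hw 3]
    have h3 : w 3 = 0 := by linarith [hw 0, hw 1, hw 2, hw 3]
    rw [h0, h1, h2, h3]
    simp
  · have hm : 0 ≤ (w 0 + w 1 + w 2 + w 3) / 4 := by linarith
    have l1 := K4B_lb (hw 0) (hw 1) hm
    have l2 := K4B_lb (hw 0) (hw 2) hm
    have l3 := K4B_lb (hw 0) (hw 3) hm
    have l4 := K4B_lb (hw 1) (hw 2) hm
    have l5 := K4B_lb (hw 1) (hw 3) hm
    have l6 := K4B_lb (hw 2) (hw 3) hm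
    have hmain := K4B_main (R := √(w 0 * w 1) + √(w 0 * w 2) + √(w 0 * w 3) + √(w 1 * w 2)
      + √(w 1 * w 3) + √(w 2 * w 3)) (hw 0) (hw 1) (hw 2) (hw 3) hS (by linarith)
    obtain ⟨S, hSS⟩ : ∃ S, S = w 0 + w 1 + w 2 + w 3 := ⟨_, rfl⟩
    obtain ⟨R, hRR⟩ : ∃ R, R = √(w 0 * w 1) + √(w 0 * w 2) + √(w 0 * w 3) + √(w 1 * w 2)
      + √(w 1 * w 3) + √(w 2 * w 3) := ⟨_, rfl⟩
    obtain ⟨Q, hQQ⟩ : ∃ Q, Q = w 0 ^ 2 + w 1 ^ 2 + w 2 ^ 2 + w 3 ^ 2 := ⟨_, rfl⟩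
    rw [← hSS, ← hRR, ← hQQ] at hmain
    rw [← hSS, ← hRR, ← hQQ]
    rw [← hSS] at hS
    have hdiv : S ≤ 3 * Q / S + R / 6 := by
      have h1 : S * S ≤ S * (3 * Q / S + R / 6) := by
        have h2 : S * (3 * Q / S + R / 6) = 3 * Q + S * R / 6 := by
          field_simp
        rw [h2]
        linarith [hmain, sq S]
      exact le_of_mul_le_mul_left h1 hS
    have h5 : 9 * ((((4 : ℕ) : ℝ) * Q / S - S) / (((4 : ℕ) : ℝ) * (((4 : ℕ) : ℝ) - 1))) =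
        3 * Q / S - 3 * S / 4 := by
      push_cast
      ring
    rw [h5]
    linarith

theorem K4B_sqrt_mul {x y x' y' : ℝ} (hx : 0 ≤ x) (hy : 0 ≤ y) :
    √(x * x' * (y * y')) = √(x * y) * √(x' * y') := by
  rw [← Real.sqrt_mul (mul_nonneg hx hy)]
  congr 1
  ring

noncomputable def K4B_G (w w' : Fin 4 → ℝ) (a b c d : Fin 4) : ℝ :=
  (w 0 * w' a + w 1 * w' b + w 2 * w' c + w 3 * w' d) / 4 -
      (√(w 0 * w 1) * √(w' a * w' b) + √(w 0 * w 2) * √(w' a * w' c)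
        + √(w 0 * w 3) * √(w' a * w' d) + √(w 1 * w 2) * √(w' b * w' c)
        + √(w 1 * w 3) * √(w' b * w' d) + √(w 2 * w 3) * √(w' c * w' d)) / 6

theorem K4B_expand (w w' : Fin 4 → ℝ) (hw : ∀ i, 0 ≤ w i) (a b c d : Fin 4) :
    kapT (w 0 * w' a) (w 1 * w' b) (w 2 * w' c) (w 3 * w' d) = K4B_G w w' a b c d := by
  unfold kapT K4B_G
  rw [K4B_sqrt_mul (hw 0) (hw 1), K4B_sqrt_mul (hw 0) (hw 2), K4B_sqrt_mul (hw 0) (hw 3),
    K4B_sqrt_mul (hw 1) (hw 2), K4B_sqrt_mul (hw 1) (hw 3), K4B_sqrt_mul (hw 2) (hw 3)]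

theorem kap_prod (w w' : Fin 4 → ℝ) (hw : ∀ i, 0 ≤ w i) (hw' : ∀ i, 0 ≤ w' i) :
    ∑ s : Equiv.Perm (Fin 4), kap (fun i => w i * w' (s i)) =
      24 * (kap w * mass w' + mass w * kap w' - kap w * kap w') := by
  have h1 : ∑ s : Equiv.Perm (Fin 4), kap (fun i => w i * w' (s i)) =
      ∑ s : Equiv.Perm (Fin 4), K4B_G w w' (s 0) (s 1) (s 2) (s 3) := by
    apply Finset.sum_congr rfl
    intro s _
    exact K4B_expand w w' hw (s 0) (s 1) (s 2) (s 3)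
  rw [h1, sum_perm4 (K4B_G w w')]
  unfold K4B_G
  have c10 : √(w' 1 * w' 0) = √(w' 0 * w' 1) := by rw [mul_comm]
  have c20 : √(w' 2 * w' 0) = √(w' 0 * w' 2) := by rw [mul_comm]
  have c30 : √(w' 3 * w' 0) = √(w' 0 * w' 3) := by rw [mul_comm]
  have c21 : √(w' 2 * w' 1) = √(w' 1 * w' 2) := by rw [mul_comm]
  have c31 : √(w' 3 * w' 1) = √(w' 1 * w' 3) := by rw [mul_comm]
  have c32 : √(w' 3 * w' 2) = √(w' 2 * w' 3) := by rw [mul_comm]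
  simp only [c10, c20, c30, c21, c31, c32]
  unfold kap kapT mass
  rw [Fin.sum_univ_four, Fin.sum_univ_four]
  push_cast
  ring

end Vale.Agent.P154.K4
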