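import Vale.Agent.Lib.P154.FrameGW

/-!
# Nonreconstruction from a certificate with a second subadditive functional

No positivity of `chi - kap` is needed: `max (sumF chi) (sumF kap)` decreases.
-/

open scoped BigOperators
open Finset

namespace Vale.Agent.P154

structure KCert (q : ℕ) (lam : ℝ) where
  kap : (Fin q → ℝ) → ℝ
  g : (Fin q → ℝ) → ℝ
  gam : ℝ
  kc : ℝ
  gam_pos : 0 < gam
  kc_ge : 1 ≤ kc
  kap_nonneg : ∀ w : Fin q → ℝ, (∀ i, 0 ≤ w i) → 0 ≤ kap w
  kap_le_mass : ∀ w : Fin q → ℝ, (∀ i, 0 ≤ w i) → kap w ≤ mass w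
  kap_le_chi : ∀ w : Fin q → ℝ, (∀ i, 0 ≤ w i) → kap w ≤ kc * chi w
  g_lower : ∀ w : Fin q → ℝ, (∀ i, 0 ≤ w i) → gam * chi w ≤ g w
  g_upper : ∀ w : Fin q → ℝ, (∀ i, 0 ≤ w i) → g w ≤ mass w
  prodA : ∀ w w' : Fin q → ℝ, (∀ i, 0 ≤ w i) → (∀ i, 0 ≤ w' i) →
    ∑ s : Equiv.Perm (Fin q), chi (fun i => w i * w' (s i)) ≤
      (Nat.factorial q : ℝ) *
        (chi w * (mass w' - g w') + kap w * g w' + chi w' * (mass w - g w) + kap w' * g w)
  prodK : ∀ w w' : Fin q → ℝ, (∀ i, 0 ≤ w i) → (∀ i, 0 ≤ w' i) →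
    ∑ s : Equiv.Perm (Fin q), kap (fun i => w i * w' (s i)) ≤
      (Nat.factorial q : ℝ) * (kap w * mass w' + mass w * kap w' - kap w * kap w')
  smoothK : ∀ w : Fin q → ℝ, (∀ i, 0 ≤ w i) →
    kap (smooth lam w) ≤ lam ^ 2 * (1 - lam) * chi w + lam ^ 3 * kap w

/-! ### Likelihood families -/

/-- nonnegative, normalised and symmetric likelihood families -/
structure NiceL {q : ℕ} {Ω : Type} [Fintype Ω] (L : Fin q → Ω → ℝ) : Prop where
  nonneg : ∀ i x, 0 ≤ L i x
  norm : ∀ i, ∑ x, L i x = 1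
  symm : ∀ s : Equiv.Perm (Fin q), ∃ e : Ω ≃ Ω, ∀ i x, L (s i) x = L i (e x)

section nice
variable {q : ℕ} {lam : ℝ}

theorem NiceL.edge {Ω : Type} [Fintype Ω] {L : Fin q → Ω → ℝ} (hL : NiceL L) (hq : 2 ≤ q)
    (h0 : 0 ≤ lam) (h1 : lam ≤ 1) : NiceL (edgeL lam L) where
  nonneg := fun i x => Finset.sum_nonneg
    (fun j _ => mul_nonneg (pottsKernel_nonneg hq (by
      have hq2 : (2 : ℝ) ≤ q := by exact_mod_cast hq
      refine le_trans ?_ h0
      apply div_nonpos_of_nonpos_of_nonneg (by norm_num)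
      linarith) h1 i j) (hL.nonneg j x))
  norm := fun i => by
    unfold edgeL
    rw [Finset.sum_comm]
    simp_rw [← Finset.mul_sum, hL.norm, mul_one]
    exact sum_pottsKernel (by omega) i
  symm := fun s => by
    obtain ⟨e, he⟩ := hL.symm s
    refine ⟨e, fun i x => ?_⟩
    unfold edgeL
    rw [← Equiv.sum_comp s (fun j => pottsKernel q lam (s i) j * L j x)]
    apply Finset.sum_congr rfl
    intro j _
    rw [pottsKernel_perm, he]

theorem NiceL.tens {Ω Ω' : Type} [Fintype Ω] [Fintype Ω'] {L : Fin q → Ω → ℝ}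
    {L' : Fin q → Ω' → ℝ} (hL : NiceL L) (hL' : NiceL L') : NiceL (tens L L') where
  nonneg := fun i z => mul_nonneg (hL.nonneg i z.1) (hL'.nonneg i z.2)
  norm := fun i => by
    unfold P154.tens
    rw [Fintype.sum_prod_type]
    simp_rw [← Finset.mul_sum, hL'.norm, mul_one, hL.norm]
  symm := fun s => by
    obtain ⟨e, he⟩ := hL.symm s
    obtain ⟨e', he'⟩ := hL'.symm s
    refine ⟨e.prodCongr e', fun i z => ?_⟩
    unfold P154.tens
    rw [he, he']
    rfl

theorem NiceL.equiv {Ω Ω' : Type} [Fintype Ω] [Fintype Ω'] (e : Ω ≃ Ω')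
    {L : Fin q → Ω' → ℝ} (h : NiceL (fun i x => L i (e x))) : NiceL L where
  nonneg := fun i x => by
    have := h.nonneg i (e.symm x)
    simpa using this
  norm := fun i => by
    have := h.norm i
    rwa [Equiv.sum_comp e (fun x => L i x)] at this
  symm := fun s => by
    obtain ⟨e', he'⟩ := h.symm s
    refine ⟨(e.symm.trans e').trans e, fun i x => ?_⟩
    have := he' i (e.symm x)
    simpa using this

theorem NiceL.prodL : ∀ {m : ℕ} {Ω : Fin m → Type} [∀ k, Fintype (Ω k)]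
    {E : ∀ k, Fin q → Ω k → ℝ} (_ : ∀ k, NiceL (E k)), NiceL (prodL E)
  | 0, Ω, _, E, _ => by
    refine ⟨?_, ?_, ?_⟩
    · intro i x
      simp [P154.prodL]
    · intro i
      simp [P154.prodL]
    · intro s
      refine ⟨Equiv.refl _, fun i x => ?_⟩
      simp [P154.prodL]
  | m + 1, Ω, _, E, h => by
    apply NiceL.equiv (Fin.consEquiv Ω)
    have h1 : NiceL (P154.prodL (fun k : Fin m => E k.succ)) :=
      NiceL.prodL (fun k => h k.succ)
    have h2 := NiceL.tens (h 0) h1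
    have h3 : (fun i z => P154.prodL E i (Fin.consEquiv Ω z))
        = P154.tens (E 0) (P154.prodL (fun k : Fin m => E k.succ)) := by
      funext i z
      exact prodL_cons E z i
    rw [h3]
    exact h2

theorem niceL_zero : NiceL (fun (i : Fin q) (x : Fin q) => if i = x then (1 : ℝ) else 0) where
  nonneg := fun i x => by split_ifs <;> norm_num
  norm := fun i => by simp
  symm := fun s => ⟨s.symm, fun i x => by
    have : s i = x ↔ i = s.symm x := by
      rw [Equiv.eq_symm_apply]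
    simp only [this]⟩

theorem regNice (hq : 2 ≤ q) (h0 : 0 ≤ lam) (h1 : lam ≤ 1) (d : ℕ) :
    ∀ n, NiceL (regLik q d lam n)
  | 0 => niceL_zero
  | n + 1 => by
    have h := (regNice hq h0 h1 d n).edge hq h0 h1
    exact NiceL.prodL (fun _ : Fin d => h)

theorem gwNice (hq : 2 ≤ q) (h0 : 0 ≤ lam) (h1 : lam ≤ 1) :
    ∀ (n : ℕ) (t : GWTree n), NiceL (gwLik q lam n t)
  | 0, _ => niceL_zero
  | n + 1, t => by
    have h : ∀ k : Fin t.1, NiceL (edgeL lam (gwLik q lam n (t.2 k))) :=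
      fun k => (gwNice hq h0 h1 n (t.2 k)).edge hq h0 h1
    exact NiceL.prodL h

end nice

section kcert
variable {q : ℕ} {lam : ℝ} (C : KCert q lam)

theorem KCert.kap_sum_nonneg {Ω : Type} [Fintype Ω] {L : Fin q → Ω → ℝ} (hL : NiceL L) :
    0 ≤ sumF C.kap L :=
  Finset.sum_nonneg (fun x _ => C.kap_nonneg _ (fun i => hL.nonneg i x))

theorem KCert.kap_sum_le_one {Ω : Type} [Fintype Ω] {L : Fin q → Ω → ℝ} (hq : 2 ≤ q)
    (hL : NiceL L) : sumF C.kap L ≤ 1 := by
  rw [← sumF_mass (by omega : 0 < q) hL.norm]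
  exact Finset.sum_le_sum (fun x _ => C.kap_le_mass _ (fun i => hL.nonneg i x))

theorem KCert.kap_sum_le_chi {Ω : Type} [Fintype Ω] {L : Fin q → Ω → ℝ} (hL : NiceL L) :
    sumF C.kap L ≤ C.kc * sumF chi L := by
  unfold sumF
  rw [Finset.mul_sum]
  exact Finset.sum_le_sum (fun x _ => C.kap_le_chi _ (fun i => hL.nonneg i x))

theorem KCert.g_sum_ge {Ω : Type} [Fintype Ω] {L : Fin q → Ω → ℝ} (hL : NiceL L) :
    C.gam * sumF chi L ≤ sumF C.g L := by
  unfold sumF
  rw [Finset.mul_sum]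
  exact Finset.sum_le_sum (fun x _ => C.g_lower _ (fun i => hL.nonneg i x))

theorem KCert.g_sum_le_one {Ω : Type} [Fintype Ω] {L : Fin q → Ω → ℝ} (hq : 2 ≤ q)
    (hL : NiceL L) : sumF C.g L ≤ 1 := by
  rw [← sumF_mass (by omega : 0 < q) hL.norm]
  exact Finset.sum_le_sum (fun x _ => C.g_upper _ (fun i => hL.nonneg i x))

theorem KCert.g_sum_nonneg {Ω : Type} [Fintype Ω] {L : Fin q → Ω → ℝ} (hL : NiceL L) :
    0 ≤ sumF C.g L :=
  le_trans (mul_nonneg C.gam_pos.le (sumF_chi_nonneg hL.nonneg)) (C.g_sum_ge hL)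

theorem KCert.kap_edge {Ω : Type} [Fintype Ω] {L : Fin q → Ω → ℝ} (hL : NiceL L) :
    sumF C.kap (edgeL lam L) ≤ lam ^ 2 * (1 - lam) * sumF chi L + lam ^ 3 * sumF C.kap L := by
  unfold sumF
  rw [Finset.mul_sum, Finset.mul_sum, ← Finset.sum_add_distrib]
  apply Finset.sum_le_sum
  intro x _
  rw [edgeL_apply]
  exact C.smoothK _ (fun i => hL.nonneg i x)

theorem KCert.chi_tens {Ω Ω' : Type} [Fintype Ω] [Fintype Ω'] {L : Fin q → Ω → ℝ}
    {L' : Fin q → Ω' → ℝ} (hq : 0 < q) (hL : NiceL L) (hL' : NiceL L') :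
    sumF chi (tens L L') ≤ sumF chi L * (1 - sumF C.g L') + sumF C.kap L * sumF C.g L'
      + sumF chi L' * (1 - sumF C.g L) + sumF C.kap L' * sumF C.g L := by
  have hfac : (0 : ℝ) < Nat.factorial q := by exact_mod_cast Nat.factorial_pos q
  have h1 : (Nat.factorial q : ℝ) * sumF chi (tens L L') ≤ Nat.factorial q *
      (sumF chi L * sumF mass L' - sumF chi L * sumF C.g L' + sumF C.kap L * sumF C.g L'
        + (sumF mass L * sumF chi L' - sumF C.g L * sumF chi L')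
        + sumF C.g L * sumF C.kap L') := by
    rw [sumF_tens_avg chi L hL'.symm]
    rw [← sum_sum_mul chi mass L L', ← sum_sum_mul chi C.g L L', ← sum_sum_mul C.kap C.g L L',
      ← sum_sum_mul mass chi L L', ← sum_sum_mul C.g chi L L', ← sum_sum_mul C.g C.kap L L',
      ← Finset.sum_sub_distrib, ← Finset.sum_add_distrib, ← Finset.sum_sub_distrib,
      ← Finset.sum_add_distrib, ← Finset.sum_add_distrib, Finset.mul_sum]
    apply Finset.sum_le_sum
    intro x _
    rw [← Finset.sum_sub_distrib, ← Finset.sum_add_distrib, ← Finset.sum_sub_distrib,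
      ← Finset.sum_add_distrib, ← Finset.sum_add_distrib, Finset.mul_sum]
    apply Finset.sum_le_sum
    intro y _
    have hA := C.prodA (fun i => L i x) (fun i => L' i y) (fun i => hL.nonneg i x)
      (fun i => hL'.nonneg i y)
    refine le_trans hA (le_of_eq ?_)
    ring
  have h2 := le_of_mul_le_mul_left h1 hfac
  rw [sumF_mass hq hL.norm, sumF_mass hq hL'.norm] at h2
  refine le_trans h2 (le_of_eq ?_)
  ring

theorem KCert.kap_tens {Ω Ω' : Type} [Fintype Ω] [Fintype Ω'] {L : Fin q → Ω → ℝ}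
    {L' : Fin q → Ω' → ℝ} (hq : 0 < q) (hL : NiceL L) (hL' : NiceL L') :
    sumF C.kap (tens L L') ≤ sumF C.kap L + sumF C.kap L' - sumF C.kap L * sumF C.kap L' := by
  have hfac : (0 : ℝ) < Nat.factorial q := by exact_mod_cast Nat.factorial_pos q
  have h1 : (Nat.factorial q : ℝ) * sumF C.kap (tens L L') ≤ Nat.factorial q *
      (sumF C.kap L * sumF mass L' + sumF mass L * sumF C.kap L'
        - sumF C.kap L * sumF C.kap L') := by
    rw [sumF_tens_avg C.kap L hL'.symm]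
    rw [← sum_sum_mul C.kap mass L L', ← sum_sum_mul mass C.kap L L',
      ← sum_sum_mul C.kap C.kap L L', ← Finset.sum_add_distrib, ← Finset.sum_sub_distrib,
      Finset.mul_sum]
    apply Finset.sum_le_sum
    intro x _
    rw [← Finset.sum_add_distrib, ← Finset.sum_sub_distrib, Finset.mul_sum]
    apply Finset.sum_le_sum
    intro y _
    exact C.prodK (fun i => L i x) (fun i => L' i y) (fun i => hL.nonneg i x)
      (fun i => hL'.nonneg i y)
  have h2 := le_of_mul_le_mul_left h1 hfac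
  rw [sumF_mass hq hL.norm, sumF_mass hq hL'.norm] at h2
  linarith

theorem KCert.kap_prodL_zero {Ω : Fin 0 → Type} [∀ k, Fintype (Ω k)]
    (E : ∀ k, Fin q → Ω k → ℝ) (hq : 0 < q) : sumF C.kap (prodL E) ≤ 0 := by
  rw [sumF_prodL_zero]
  have := C.kap_le_chi (fun _ => 1) (fun _ => zero_le_one)
  rw [chi_one hq, mul_zero] at this
  exact this

/-- `kap` is subadditive -/
theorem KCert.kap_prodL_le (hq : 2 ≤ q) : ∀ {m : ℕ} {Ω : Fin m → Type} [∀ k, Fintype (Ω k)]
    {E : ∀ k, Fin q → Ω k → ℝ} (_ : ∀ k, NiceL (E k)),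
    sumF C.kap (prodL E) ≤ ∑ k, sumF C.kap (E k)
  | 0, Ω, _, E, _ => by
    have := C.kap_prodL_zero E (by omega)
    simpa using this
  | m + 1, Ω, _, E, h => by
    rw [sumF_prodL_succ, Fin.sum_univ_succ]
    have h1 : NiceL (prodL (fun k : Fin m => E k.succ)) := NiceL.prodL (fun k => h k.succ)
    have h2 := C.kap_tens (by omega) (h 0) h1
    have h3 : sumF C.kap (prodL (fun k : Fin m => E k.succ))
        ≤ ∑ k : Fin m, sumF C.kap (E k.succ) :=
      KCert.kap_prodL_le hq (fun k => h k.succ)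
    have h4 := mul_nonneg (C.kap_sum_nonneg (h 0)) (C.kap_sum_nonneg h1)
    linarith

/-- the chi-square information of a product is bounded by common upper bounds of `chi`
and `kap` -/
theorem KCert.chi_prodL_le (hq : 2 ≤ q) : ∀ {m : ℕ} {Ω : Fin m → Type} [∀ k, Fintype (Ω k)]
    {E : ∀ k, Fin q → Ω k → ℝ} (_ : ∀ k, NiceL (E k)) {B : Fin m → ℝ}
    (_ : ∀ k, sumF chi (E k) ≤ B k) (_ : ∀ k, sumF C.kap (E k) ≤ B k),
    sumF chi (prodL E) ≤ ∑ k, B k
  | 0, Ω, _, E, _, B, _, _ => by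
    rw [sumF_prodL_zero, chi_one (by omega)]
    simp
  | m + 1, Ω, _, E, h, B, hx, hk => by
    rw [sumF_prodL_succ, Fin.sum_univ_succ]
    have h1 : NiceL (prodL (fun k : Fin m => E k.succ)) := NiceL.prodL (fun k => h k.succ)
    have h2 := C.chi_tens (by omega) (h 0) h1
    have h3 : sumF chi (prodL (fun k : Fin m => E k.succ)) ≤ ∑ k : Fin m, B k.succ :=
      KCert.chi_prodL_le hq (fun k => h k.succ) (fun k => hx k.succ) (fun k => hk k.succ)
    have h4 : sumF C.kap (prodL (fun k : Fin m => E k.succ)) ≤ ∑ k : Fin m, B k.succ :=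
      le_trans (C.kap_prodL_le hq (fun k => h k.succ))
        (Finset.sum_le_sum (fun k _ => hk k.succ))
    have g1 := C.g_sum_le_one hq (h 0)
    have g2 := C.g_sum_le_one hq h1
    have g3 := C.g_sum_nonneg (h 0)
    have g4 := C.g_sum_nonneg h1
    have a1 := mul_le_mul_of_nonneg_right (hx 0) (sub_nonneg.2 g2)
    have a2 := mul_le_mul_of_nonneg_right (hk 0) g4
    have a3 := mul_le_mul_of_nonneg_right h3 (sub_nonneg.2 g1)
    have a4 := mul_le_mul_of_nonneg_right h4 g3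
    linarith

/-- the larger one of the two informations -/
noncomputable def KCert.maxF {Ω : Type} [Fintype Ω] (L : Fin q → Ω → ℝ) : ℝ :=
  max (sumF chi L) (sumF C.kap L)

theorem KCert.maxF_nonneg {Ω : Type} [Fintype Ω] {L : Fin q → Ω → ℝ} (hL : NiceL L) :
    0 ≤ C.maxF L :=
  le_trans (sumF_chi_nonneg hL.nonneg) (le_max_left _ _)

theorem KCert.maxF_le_one {Ω : Type} [Fintype Ω] {L : Fin q → Ω → ℝ} (hq : 2 ≤ q)
    (hL : NiceL L) : C.maxF L ≤ 1 :=
  max_le (sumF_chi_le_one hq hL.nonneg hL.norm) (C.kap_sum_le_one hq hL)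

theorem KCert.maxF_le_chi {Ω : Type} [Fintype Ω] {L : Fin q → Ω → ℝ} (hL : NiceL L) :
    C.maxF L ≤ C.kc * sumF chi L := by
  apply max_le _ (C.kap_sum_le_chi hL)
  have h1 := sumF_chi_nonneg hL.nonneg
  have h2 := C.kc_ge
  nlinarith

theorem KCert.chi_edge_le {Ω : Type} [Fintype Ω] (L : Fin q → Ω → ℝ) (hq : 2 ≤ q) :
    sumF chi (edgeL lam L) ≤ lam ^ 2 * C.maxF L := by
  rw [sumF_chi_edgeL L (by omega)]
  exact mul_le_mul_of_nonneg_left (le_max_left _ _) (sq_nonneg _)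

theorem KCert.kap_edge_le {Ω : Type} [Fintype Ω] {L : Fin q → Ω → ℝ} (hL : NiceL L)
    (h0 : 0 ≤ lam) (h1 : lam ≤ 1) : sumF C.kap (edgeL lam L) ≤ lam ^ 2 * C.maxF L := by
  refine le_trans (C.kap_edge hL) ?_
  have e1 : sumF chi L ≤ C.maxF L := le_max_left _ _
  have e2 : sumF C.kap L ≤ C.maxF L := le_max_right _ _
  have e3 : 0 ≤ lam ^ 2 * (1 - lam) := mul_nonneg (sq_nonneg _) (by linarith)
  have e4 : 0 ≤ lam ^ 3 := by positivity
  have e5 := mul_le_mul_of_nonneg_left e1 e3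
  have e6 := mul_le_mul_of_nonneg_left e2 e4
  nlinarith [e5, e6]

/-- the quenched inequality without gain -/
theorem KCert.maxF_prodL_le (hq : 2 ≤ q) (h0 : 0 ≤ lam) (h1 : lam ≤ 1) {m : ℕ}
    {Ω : Fin m → Type} [∀ k, Fintype (Ω k)] {L : ∀ k, Fin q → Ω k → ℝ}
    (h : ∀ k, NiceL (L k)) :
    C.maxF (prodL (fun k => edgeL lam (L k))) ≤ lam ^ 2 * ∑ k, C.maxF (L k) := by
  rw [Finset.mul_sum]
  apply max_le
  · exact C.chi_prodL_le hq (fun k => (h k).edge hq h0 h1)
      (fun k => C.chi_edge_le (L k) hq) (fun k => C.kap_edge_le (h k) h0 h1)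
  · refine le_trans (C.kap_prodL_le hq (fun k => (h k).edge hq h0 h1)) ?_
    exact Finset.sum_le_sum (fun k _ => C.kap_edge_le (h k) h0 h1)

/-- the gain for `kap` at a vertex with two children -/
theorem KCert.kap_two_le (hq : 2 ≤ q) (h0 : 0 ≤ lam) (h1 : lam ≤ 1)
    {Ω : Fin 2 → Type} [∀ k, Fintype (Ω k)] {L : ∀ k, Fin q → Ω k → ℝ}
    (h : ∀ k, NiceL (L k)) :
    sumF C.kap (prodL (fun k => edgeL lam (L k))) + lam ^ 4 * (C.maxF (L 0) * C.maxF (L 1))
      ≤ lam ^ 2 * (C.maxF (L 0) + C.maxF (L 1)) := by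
  rw [sumF_prodL_two]
  have hE : ∀ k, NiceL (edgeL lam (L k)) := fun k => (h k).edge hq h0 h1
  have h2 := C.kap_tens (by omega) (hE 0) (hE 1)
  have k0 := C.kap_edge_le (h 0) h0 h1
  have k1 := C.kap_edge_le (h 1) h0 h1
  have n0 := C.kap_sum_nonneg (hE 0)
  have n1 := C.kap_sum_nonneg (hE 1)
  have u0 := C.kap_sum_le_one hq (hE 0)
  have m0 := C.maxF_nonneg (h 0)
  have m1 := C.maxF_nonneg (h 1)
  have v1 := C.maxF_le_one hq (h 1)
  have l2 : lam ^ 2 ≤ 1 := pow_le_one₀ h0 h1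
  set a := sumF C.kap (edgeL lam (L 0))
  set b := sumF C.kap (edgeL lam (L 1))
  set x := C.maxF (L 0)
  set y := C.maxF (L 1)
  have hy : lam ^ 2 * y ≤ 1 := by nlinarith
  -- a + b - a b ≤ x' + y' - x' y' with x' = lam^2 x, y' = lam^2 y
  have e1 : a + b - a * b ≤ a + lam ^ 2 * y - a * (lam ^ 2 * y) := by
    have := mul_nonneg (sub_nonneg.2 u0) (sub_nonneg.2 k1)
    nlinarith [this]
  have e2 : a + lam ^ 2 * y - a * (lam ^ 2 * y)
      ≤ lam ^ 2 * x + lam ^ 2 * y - lam ^ 2 * x * (lam ^ 2 * y) := by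
    have := mul_nonneg (sub_nonneg.2 hy) (sub_nonneg.2 k0)
    nlinarith [this]
  have e3 : lam ^ 4 * (x * y) = lam ^ 2 * x * (lam ^ 2 * y) := by ring
  linarith

/-- the constant of the two-level gain -/
noncomputable def KCert.cst : ℝ := min 1 (C.gam * lam ^ 2 / C.kc)

theorem KCert.cst_nonneg : 0 ≤ C.cst := by
  have h1 := C.gam_pos
  have h2 := C.kc_ge
  unfold KCert.cst
  apply le_min zero_le_one
  apply div_nonneg _ (by linarith)
  exact mul_nonneg h1.le (sq_nonneg _)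

theorem KCert.cst_pos (h : lam ≠ 0) : 0 < C.cst := by
  have h1 := C.gam_pos
  have h2 := C.kc_ge
  unfold KCert.cst
  apply lt_min zero_lt_one
  positivity

theorem KCert.cst_le_one : C.cst ≤ 1 := min_le_left _ _

/-- the weight `g` of an edge is bounded below by a multiple of `maxF` -/
theorem KCert.cst_mul_le {Ω : Type} [Fintype Ω] {L : Fin q → Ω → ℝ} (hq : 2 ≤ q)
    (hL : NiceL L) (h0 : 0 ≤ lam) (h1 : lam ≤ 1) :
    C.cst * C.maxF L ≤ sumF C.g (edgeL lam L) := by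
  have hk : 0 < C.kc := lt_of_lt_of_le zero_lt_one C.kc_ge
  have e1 := C.g_sum_ge (hL.edge hq h0 h1)
  rw [sumF_chi_edgeL L (by omega)] at e1
  have e2 := C.maxF_le_chi hL
  have e3 : C.cst ≤ C.gam * lam ^ 2 / C.kc := min_le_right _ _
  have e4 := C.maxF_nonneg hL
  calc C.cst * C.maxF L ≤ C.gam * lam ^ 2 / C.kc * C.maxF L :=
        mul_le_mul_of_nonneg_right e3 e4
    _ ≤ C.gam * lam ^ 2 / C.kc * (C.kc * sumF chi L) := by
        apply mul_le_mul_of_nonneg_left e2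
        apply div_nonneg _ hk.le
        exact mul_nonneg C.gam_pos.le (sq_nonneg _)
    _ = C.gam * (lam ^ 2 * sumF chi L) := by
        field_simp
    _ ≤ _ := e1

/-- the two-level gain at a root with two children; `R k` bounds both informations of the
child `k`, and the information `kap` of child `0` is smaller by `P`. -/
theorem KCert.maxF_two_le (hq : 2 ≤ q) (h0 : 0 ≤ lam) (h1 : lam ≤ 1)
    {Ω : Fin 2 → Type} [∀ k, Fintype (Ω k)] {L : ∀ k, Fin q → Ω k → ℝ}
    (h : ∀ k, NiceL (L k)) {R : Fin 2 → ℝ} {P : ℝ} (hP : 0 ≤ P)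
    (hx : ∀ k, sumF chi (L k) ≤ R k) (hk1 : sumF C.kap (L 1) ≤ R 1)
    (hk0 : sumF C.kap (L 0) + P ≤ R 0) :
    C.maxF (prodL (fun k => edgeL lam (L k))) + lam ^ 3 * C.cst * (P * C.maxF (L 1))
      ≤ lam ^ 2 * (R 0 + R 1) := by
  have hE : ∀ k, NiceL (edgeL lam (L k)) := fun k => (h k).edge hq h0 h1
  have e3 : 0 ≤ lam ^ 2 * (1 - lam) := mul_nonneg (sq_nonneg _) (by linarith)
  have e4 : 0 ≤ lam ^ 3 := by positivity
  -- the informations of the edges
  have x0 : sumF chi (edgeL lam (L 0)) ≤ lam ^ 2 * R 0 := by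
    rw [sumF_chi_edgeL _ (by omega)]
    exact mul_le_mul_of_nonneg_left (hx 0) (sq_nonneg _)
  have x1 : sumF chi (edgeL lam (L 1)) ≤ lam ^ 2 * R 1 := by
    rw [sumF_chi_edgeL _ (by omega)]
    exact mul_le_mul_of_nonneg_left (hx 1) (sq_nonneg _)
  have k0 : sumF C.kap (edgeL lam (L 0)) + lam ^ 3 * P ≤ lam ^ 2 * R 0 := by
    have a1 := C.kap_edge (h 0)
    have a2 := mul_le_mul_of_nonneg_left (hx 0) e3
    have a3 := mul_le_mul_of_nonneg_left hk0 e4
    nlinarith [a1, a2, a3]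
  have k1 : sumF C.kap (edgeL lam (L 1)) ≤ lam ^ 2 * R 1 := by
    have a1 := C.kap_edge (h 1)
    have a2 := mul_le_mul_of_nonneg_left (hx 1) e3
    have a3 := mul_le_mul_of_nonneg_left hk1 e4
    nlinarith [a1, a2, a3]
  have hl3P : 0 ≤ lam ^ 3 * P := mul_nonneg e4 hP
  have m1 := C.maxF_nonneg (h 1)
  have v1 := C.maxF_le_one hq (h 1)
  have c0 := C.cst_nonneg
  have c1 := C.cst_le_one
  have hG := C.cst_mul_le hq (h 1) h0 h1
  -- split the maximum
  have hX : sumF chi (prodL (fun k => edgeL lam (L k)))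
      + lam ^ 3 * C.cst * (P * C.maxF (L 1)) ≤ lam ^ 2 * (R 0 + R 1) := by
    rw [sumF_prodL_two]
    have h2 := C.chi_tens (by omega) (hE 0) (hE 1)
    have g1 := C.g_sum_le_one hq (hE 0)
    have g2 := C.g_sum_le_one hq (hE 1)
    have g3 := C.g_sum_nonneg (hE 0)
    have g4 := C.g_sum_nonneg (hE 1)
    have a1 := mul_le_mul_of_nonneg_right x0 (sub_nonneg.2 g2)
    have a2 := mul_le_mul_of_nonneg_right k0 g4
    have a3 := mul_le_mul_of_nonneg_right x1 (sub_nonneg.2 g1)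
    have a4 := mul_le_mul_of_nonneg_right k1 g3
    have a5 := mul_le_mul_of_nonneg_left hG hl3P
    nlinarith [a1, a2, a3, a4, a5, h2]
  have hK : sumF C.kap (prodL (fun k => edgeL lam (L k)))
      + lam ^ 3 * C.cst * (P * C.maxF (L 1)) ≤ lam ^ 2 * (R 0 + R 1) := by
    rw [sumF_prodL_two]
    have h2 := C.kap_tens (by omega) (hE 0) (hE 1)
    have n0 := mul_nonneg (C.kap_sum_nonneg (hE 0)) (C.kap_sum_nonneg (hE 1))
    have a5 : lam ^ 3 * C.cst * (P * C.maxF (L 1)) ≤ lam ^ 3 * P := by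
      have b1 : C.cst * C.maxF (L 1) ≤ 1 := mul_le_one₀ c1 m1 v1
      have b2 := mul_le_mul_of_nonneg_left b1 hl3P
      calc lam ^ 3 * C.cst * (P * C.maxF (L 1)) = lam ^ 3 * P * (C.cst * C.maxF (L 1)) := by ring
        _ ≤ lam ^ 3 * P * 1 := b2
        _ = _ := mul_one _
    linarith
  have hmax : C.maxF (prodL (fun k => edgeL lam (L k)))
      ≤ lam ^ 2 * (R 0 + R 1) - lam ^ 3 * C.cst * (P * C.maxF (L 1)) :=
    max_le (by linarith) (by linarith)
  linarith

/-! ### Regular trees -/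

theorem KCert.kap_prodL_const_le (hq : 2 ≤ q) {Ω : Type} [Fintype Ω] {E : Fin q → Ω → ℝ}
    (hE : NiceL E) {b : ℝ} (hb : sumF C.kap E ≤ b) (hb1 : b ≤ 1) : ∀ m : ℕ,
    sumF C.kap (prodL (fun _ : Fin (m + 2) => E)) ≤ (m + 2) * b - b ^ 2
  | 0 => by
    rw [sumF_prodL_two]
    have h1 := C.kap_tens (by omega) hE hE
    have h2 := C.kap_sum_nonneg hE
    push_cast
    nlinarith [mul_nonneg (sub_nonneg.2 hb) (sub_nonneg.2 (hb.trans hb1)),
      mul_nonneg (sub_nonneg.2 hb) (sub_nonneg.2 hb1)]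
  | m + 1 => by
    rw [sumF_prodL_succ]
    have hP : NiceL (prodL (fun _ : Fin (m + 2) => E)) := NiceL.prodL (fun _ => hE)
    have h1 := C.kap_tens (by omega) hE hP
    have h2 := KCert.kap_prodL_const_le hq hE hb hb1 m
    have h3 := mul_nonneg (C.kap_sum_nonneg hE) (C.kap_sum_nonneg hP)
    push_cast
    linarith

/-- one level of the regular tree with the gain of the previous level -/
theorem KCert.chi_prodL_const_le (hq : 2 ≤ q) {Ω : Type} [Fintype Ω] {E : Fin q → Ω → ℝ}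
    (hE : NiceL E) {B e Γ : ℝ} (he : 0 ≤ e) (hx : sumF chi E ≤ B) (hk : sumF C.kap E + e ≤ B)
    (hΓ : Γ ≤ sumF C.g E) (m : ℕ) :
    sumF chi (prodL (fun _ : Fin (m + 2) => E)) + Γ * e ≤ (m + 2) * B := by
  rw [sumF_prodL_succ]
  have hP : NiceL (prodL (fun _ : Fin (m + 1) => E)) := NiceL.prodL (fun _ => hE)
  have h1 := C.chi_tens (by omega) hE hP
  have h2 : sumF chi (prodL (fun _ : Fin (m + 1) => E)) ≤ ((m : ℝ) + 1) * B := by
    have := C.chi_prodL_le hq (fun _ : Fin (m + 1) => hE) (B := fun _ => B)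
      (fun _ => hx) (fun _ => by linarith)
    rw [Finset.sum_const, Finset.card_univ, Fintype.card_fin, nsmul_eq_mul] at this
    push_cast at this
    exact this
  have h3 : sumF C.kap (prodL (fun _ : Fin (m + 1) => E)) + e ≤ ((m : ℝ) + 1) * B := by
    have := C.kap_prodL_le hq (fun _ : Fin (m + 1) => hE)
    rw [Finset.sum_const, Finset.card_univ, Fintype.card_fin, nsmul_eq_mul] at this
    push_cast at this
    have hm : (0 : ℝ) ≤ m := Nat.cast_nonneg m
    nlinarith [mul_le_mul_of_nonneg_left hk (by linarith : (0 : ℝ) ≤ (m : ℝ) + 1),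
      mul_nonneg hm he]
  have g1 := C.g_sum_le_one hq hE
  have g2 := C.g_sum_le_one hq hP
  have g3 := C.g_sum_nonneg hE
  have g4 := C.g_sum_nonneg hP
  have a1 := mul_le_mul_of_nonneg_right hx (sub_nonneg.2 g2)
  have a2 := mul_le_mul_of_nonneg_right (by linarith : sumF C.kap E ≤ B) g4
  have a3 := mul_le_mul_of_nonneg_right h2 (sub_nonneg.2 g1)
  have a4 := mul_le_mul_of_nonneg_right h3 g3
  have a5 := mul_le_mul_of_nonneg_right hΓ he
  nlinarith [a1, a2, a3, a4, a5, h1]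

end kcert

/-! ### A sequence lemma -/

theorem tendsto_zero_of_rec2 {x : ℕ → ℝ} (hx : ∀ n, 0 ≤ x n) (h1 : ∀ n, x (n + 1) ≤ x n)
    {K : ℝ} (hK : 0 < K) (h : ∀ n, x (n + 2) ≤ x n - K * x n ^ 2 * x (n + 1)) :
    Filter.Tendsto x Filter.atTop (nhds 0) := by
  have hanti : Antitone x := antitone_nat_of_succ_le h1
  have hbdd : BddBelow (Set.range x) := by
    refine ⟨0, ?_⟩
    rintro _ ⟨n, rfl⟩
    exact hx _
  have h0 := tendsto_atTop_ciInf hanti hbdd
  set l := ⨅ n, x n with hl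
  have h2 : Filter.Tendsto (fun n => x (n + 2)) Filter.atTop (nhds l) :=
    (Filter.tendsto_add_atTop_iff_nat 2).2 h0
  have h2' : Filter.Tendsto (fun n => x (n + 1)) Filter.atTop (nhds l) :=
    (Filter.tendsto_add_atTop_iff_nat 1).2 h0
  have h3 : Filter.Tendsto (fun n => x n - K * x n ^ 2 * x (n + 1)) Filter.atTop
      (nhds (l - K * l ^ 2 * l)) :=
    h0.sub ((tendsto_const_nhds.mul (h0.pow 2)).mul h2')
  have h4 : l ≤ l - K * l ^ 2 * l := le_of_tendsto_of_tendsto' h2 h3 h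
  have h5 : 0 ≤ l := ge_of_tendsto' h0 hx
  have h6 : l = 0 := by
    by_contra hne
    have : 0 < l := lt_of_le_of_ne h5 (Ne.symm hne)
    have : 0 < K * l ^ 2 * l := by positivity
    linarith
  rw [h6] at h0
  exact h0

theorem tendsto_zero_of_first {x : ℕ → ℝ} (h : ∀ n, x (n + 1) = 0) :
    Filter.Tendsto x Filter.atTop (nhds 0) := by
  have h8 : Filter.Tendsto (fun n => x (n + 1)) Filter.atTop (nhds 0) := by
    simp_rw [h]
    exact tendsto_const_nhds
  exact (Filter.tendsto_add_atTop_iff_nat 1).1 h8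

theorem nonreconstruction_reg_K {q d : ℕ} {lam : ℝ} (hq : 2 ≤ q) (hd : 2 ≤ d)
    (h0 : 0 ≤ lam) (h1 : lam ≤ 1) (C : KCert q lam) (h : (d : ℝ) * lam ^ 2 ≤ 1) :
    Nonreconstruction (regA q d lam) := by
  have hG := regNice (q := q) hq h0 h1 d
  set M : ℕ → ℝ := fun n => C.maxF (regLik q d lam n) with hM
  have hM0 : ∀ n, 0 ≤ M n := fun n => C.maxF_nonneg (hG n)
  have hM1 : ∀ n, M n ≤ 1 := fun n => C.maxF_le_one hq (hG n)
  have hq0 : 0 < q := by omega
  obtain ⟨m, rfl⟩ : ∃ m, d = m + 2 := ⟨d - 2, by omega⟩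
  have hl2 : 0 ≤ lam ^ 2 := sq_nonneg _
  have hstep : ∀ n, M (n + 1) ≤ (m + 2) * lam ^ 2 * M n := by
    intro n
    have h2 := C.maxF_prodL_le hq h0 h1 (fun _ : Fin (m + 2) => hG n)
    rw [Finset.sum_const, Finset.card_univ, Fintype.card_fin, nsmul_eq_mul] at h2
    push_cast at h2
    have h6 : M (n + 1)
        = C.maxF (prodL (fun _ : Fin (m + 2) => edgeL lam (regLik q (m + 2) lam n))) := rfl
    rw [h6]
    refine le_trans h2 (le_of_eq ?_)
    ring
  have hd1 : ((m : ℝ) + 2) * lam ^ 2 ≤ 1 := by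
    push_cast at h
    linarith
  have hanti : ∀ n, M (n + 1) ≤ M n := by
    intro n
    have := mul_le_mul_of_nonneg_right hd1 (hM0 n)
    have := hstep n
    linarith
  -- two levels
  have htwo : ∀ n, M (n + 2) + C.cst * M (n + 1) * (lam ^ 7 * M n ^ 2) ≤ M n := by
    intro n
    -- the informations on level `n + 1`
    set b := lam ^ 2 * M n with hb
    have hb0 : 0 ≤ b := mul_nonneg hl2 (hM0 n)
    have hb1 : b ≤ 1 := by
      have : lam ^ 2 ≤ 1 := pow_le_one₀ h0 h1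
      exact mul_le_one₀ this (hM0 n) (hM1 n)
    have hEn := (hG n).edge hq h0 h1
    have kE : sumF C.kap (edgeL lam (regLik q (m + 2) lam n)) ≤ b := C.kap_edge_le (hG n) h0 h1
    have K1 : sumF C.kap (regLik q (m + 2) lam (n + 1)) ≤ (m + 2) * b - b ^ 2 :=
      C.kap_prodL_const_le hq hEn kE hb1 m
    have X1 : sumF chi (regLik q (m + 2) lam (n + 1)) ≤ (m + 2) * b := by
      have e1 : sumF chi (regLik q (m + 2) lam (n + 1)) ≤ M (n + 1) := le_max_left _ _
      have e2 := hstep n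
      rw [hb]
      linarith
    -- the edge above level `n + 1`
    have hE := (hG (n + 1)).edge hq h0 h1
    set E := edgeL lam (regLik q (m + 2) lam (n + 1)) with hEdef
    set B := lam ^ 2 * ((m + 2) * b) with hB
    have hx : sumF chi E ≤ B := by
      rw [hEdef, sumF_chi_edgeL _ hq0]
      exact mul_le_mul_of_nonneg_left X1 hl2
    have he : 0 ≤ lam ^ 3 * b ^ 2 := by positivity
    have hk : sumF C.kap E + lam ^ 3 * b ^ 2 ≤ B := by
      have a1 := C.kap_edge (hG (n + 1))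
      have e3 : 0 ≤ lam ^ 2 * (1 - lam) := mul_nonneg hl2 (by linarith)
      have e4 : 0 ≤ lam ^ 3 := by positivity
      have a2 := mul_le_mul_of_nonneg_left X1 e3
      have a3 := mul_le_mul_of_nonneg_left K1 e4
      rw [hB]
      nlinarith [a1, a2, a3]
    have hΓ : C.cst * M (n + 1) ≤ sumF C.g E := C.cst_mul_le hq (hG (n + 1)) h0 h1
    have hX2 := C.chi_prodL_const_le hq hE he hx hk hΓ m
    have hK2 : sumF C.kap (prodL (fun _ : Fin (m + 2) => E))
        + C.cst * M (n + 1) * (lam ^ 3 * b ^ 2) ≤ (m + 2) * B := by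
      have a1 := C.kap_prodL_le hq (fun _ : Fin (m + 2) => hE)
      rw [Finset.sum_const, Finset.card_univ, Fintype.card_fin, nsmul_eq_mul] at a1
      push_cast at a1
      have hm : (0 : ℝ) ≤ m := Nat.cast_nonneg m
      have a2 := mul_le_mul_of_nonneg_left hk (by linarith : (0 : ℝ) ≤ (m : ℝ) + 2)
      have b1 : C.cst * M (n + 1) ≤ 1 := mul_le_one₀ C.cst_le_one (hM0 _) (hM1 _)
      have b2 := mul_le_mul_of_nonneg_right b1 he
      have b3 := mul_nonneg hm he
      nlinarith [a1, a2, b2, b3]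
    have hM2 : M (n + 2) ≤ (m + 2) * B - C.cst * M (n + 1) * (lam ^ 3 * b ^ 2) := by
      have h6 : M (n + 2) = C.maxF (prodL (fun _ : Fin (m + 2) => E)) := rfl
      rw [h6]
      exact max_le (by linarith) (by linarith)
    have hdB : ((m : ℝ) + 2) * B ≤ M n := by
      have e1 : ((m : ℝ) + 2) * B
          = (((m : ℝ) + 2) * lam ^ 2) * ((((m : ℝ) + 2) * lam ^ 2) * M n) := by
        rw [hB, hb]
        ring
      rw [e1]
      have hm : (0 : ℝ) ≤ ((m : ℝ) + 2) * lam ^ 2 := by positivity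
      have e2 := mul_le_mul_of_nonneg_right hd1 (hM0 n)
      have e3 := mul_nonneg hm (hM0 n)
      have e4 := mul_le_mul_of_nonneg_right hd1 e3
      linarith
    have e5 : lam ^ 3 * b ^ 2 = lam ^ 7 * M n ^ 2 := by
      rw [hb]
      ring
    rw [e5] at hM2
    linarith
  have hlim : Filter.Tendsto M Filter.atTop (nhds 0) := by
    by_cases hl : lam = 0
    · apply tendsto_zero_of_first
      intro n
      apply le_antisymm _ (hM0 _)
      refine le_trans (hstep n) ?_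
      rw [hl]
      simp
    · have hc := C.cst_pos hl
      have hl0 : 0 < lam := lt_of_le_of_ne h0 (Ne.symm hl)
      refine tendsto_zero_of_rec2 hM0 hanti (K := C.cst * lam ^ 7) (by positivity)
        (fun n => ?_)
      have := htwo n
      have e1 : C.cst * M (n + 1) * (lam ^ 7 * M n ^ 2)
          = C.cst * lam ^ 7 * M n ^ 2 * M (n + 1) := by ring
      linarith
  refine tendsto_zero_of_bias (A := (q : ℝ) / 4) (B := ((q : ℝ) - 1) / (4 * q))
    (fun n => avgBias_nonneg (hG n).nonneg) hlim (fun n δ hδ => ?_)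
  have h2 := avgBias_le hq (hG n).nonneg (hG n).norm hδ
  unfold regA
  have hq1 : (1 : ℝ) ≤ q := by exact_mod_cast hq0
  have hq0' : (q : ℝ) ≠ 0 := by exact_mod_cast hq0.ne'
  have h7 : sumF chi (regLik q (m + 2) lam n) ≤ M n := le_max_left _ _
  have h8 : 0 ≤ ((q : ℝ) - 1) / (4 * δ * q) := by
    apply div_nonneg (by linarith)
    positivity
  have h9 := mul_le_mul_of_nonneg_left h7 h8
  refine le_trans h2 (le_trans (add_le_add_right h9 _) (le_of_eq ?_))
  field_simp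

/-! ### Galton-Watson trees -/

section gwk
variable {q : ℕ} {lam : ℝ} (C : KCert q lam)

/-- the larger information of the tree `t` -/
noncomputable def KCert.gwM (n : ℕ) (t : GWTree n) : ℝ := C.maxF (gwLik q lam n t)

theorem pairF_nonneg {n : ℕ} {f g : GWTree n → ℝ} (hf : ∀ t, 0 ≤ f t) (hg : ∀ t, 0 ≤ g t)
    (t : GWTree (n + 1)) : 0 ≤ pairF f g t := by
  unfold pairF
  split_ifs
  · exact mul_nonneg (hf _) (hg _)
  · exact le_refl 0

theorem KCert.gwM_nonneg (hq : 2 ≤ q) (h0 : 0 ≤ lam) (h1 : lam ≤ 1) (n : ℕ) (t : GWTree n) :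
    0 ≤ C.gwM n t := C.maxF_nonneg (gwNice hq h0 h1 n t)

theorem KCert.gwM_le_one (hq : 2 ≤ q) (h0 : 0 ≤ lam) (h1 : lam ≤ 1) (n : ℕ) (t : GWTree n) :
    C.gwM n t ≤ 1 := C.maxF_le_one hq (gwNice hq h0 h1 n t)

theorem KCert.gw_one_aux (hq : 2 ≤ q) (h0 : 0 ≤ lam) (h1 : lam ≤ 1) (n k : ℕ)
    (ts : Fin k → GWTree n) :
    C.maxF (prodL (fun j : Fin k => edgeL lam (gwLik q lam n (ts j))))
      ≤ lam ^ 2 * sumU (n := n) (C.gwM n) ⟨k, ts⟩ :=
  C.maxF_prodL_le hq h0 h1 (fun j : Fin k => gwNice hq h0 h1 n (ts j))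

theorem KCert.gw_one (hq : 2 ≤ q) (h0 : 0 ≤ lam) (h1 : lam ≤ 1) (n : ℕ)
    (t : GWTree (n + 1)) : C.gwM (n + 1) t ≤ lam ^ 2 * sumU (C.gwM n) t :=
  C.gw_one_aux hq h0 h1 n t.1 t.2

theorem KCert.gw_kap_aux (hq : 2 ≤ q) (h0 : 0 ≤ lam) (h1 : lam ≤ 1) (n k : ℕ)
    (ts : Fin k → GWTree n) :
    sumF C.kap (prodL (fun j : Fin k => edgeL lam (gwLik q lam n (ts j))))
      + lam ^ 4 * pairF (n := n) (C.gwM n) (C.gwM n) ⟨k, ts⟩
      ≤ lam ^ 2 * sumU (n := n) (C.gwM n) ⟨k, ts⟩ := by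
  by_cases hk : k = 2
  · subst hk
    have e1 : pairF (n := n) (C.gwM n) (C.gwM n) ⟨2, ts⟩ = C.gwM n (ts 0) * C.gwM n (ts 1) := by
      unfold pairF
      simp
    have e2 : sumU (n := n) (C.gwM n) ⟨2, ts⟩ = C.gwM n (ts 0) + C.gwM n (ts 1) := by
      unfold sumU
      exact Fin.sum_univ_two _
    rw [e1, e2]
    exact C.kap_two_le hq h0 h1 (L := fun j : Fin 2 => gwLik q lam n (ts j))
      (fun j => gwNice hq h0 h1 n (ts j))
  · have e1 : pairF (n := n) (C.gwM n) (C.gwM n) ⟨k, ts⟩ = 0 := by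
      unfold pairF
      exact dif_neg hk
    rw [e1, mul_zero, add_zero]
    exact le_trans (le_max_right _ _) (C.gw_one_aux hq h0 h1 n k ts)

theorem KCert.gw_kap (hq : 2 ≤ q) (h0 : 0 ≤ lam) (h1 : lam ≤ 1) (n : ℕ)
    (t : GWTree (n + 1)) :
    sumF C.kap (gwLik q lam (n + 1) t) + lam ^ 4 * pairF (C.gwM n) (C.gwM n) t
      ≤ lam ^ 2 * sumU (C.gwM n) t :=
  C.gw_kap_aux hq h0 h1 n t.1 t.2

theorem KCert.gw_two_aux (hq : 2 ≤ q) (h0 : 0 ≤ lam) (h1 : lam ≤ 1) (n k : ℕ)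
    (ts : Fin k → GWTree (n + 1)) :
    C.maxF (prodL (fun j : Fin k => edgeL lam (gwLik q lam (n + 1) (ts j))))
      + lam ^ 3 * C.cst * pairF (n := n + 1)
        (fun s => lam ^ 4 * pairF (C.gwM n) (C.gwM n) s) (C.gwM (n + 1)) ⟨k, ts⟩
      ≤ lam ^ 2 * sumU (n := n + 1) (fun s => lam ^ 2 * sumU (C.gwM n) s) ⟨k, ts⟩ := by
  have hM0 := C.gwM_nonneg hq h0 h1 n
  by_cases hk : k = 2
  · subst hk
    have e1 : pairF (n := n + 1) (fun s => lam ^ 4 * pairF (C.gwM n) (C.gwM n) s)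
        (C.gwM (n + 1)) ⟨2, ts⟩
        = lam ^ 4 * pairF (C.gwM n) (C.gwM n) (ts 0) * C.gwM (n + 1) (ts 1) := by
      unfold pairF
      simp
    have e2 : sumU (n := n + 1) (fun s => lam ^ 2 * sumU (C.gwM n) s) ⟨2, ts⟩
        = lam ^ 2 * sumU (C.gwM n) (ts 0) + lam ^ 2 * sumU (C.gwM n) (ts 1) := by
      unfold sumU
      exact Fin.sum_univ_two _
    rw [e1, e2]
    have hpos : ∀ t : GWTree (n + 1), 0 ≤ lam ^ 4 * pairF (C.gwM n) (C.gwM n) t :=
      fun t => mul_nonneg (by positivity) (pairF_nonneg hM0 hM0 t)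
    exact C.maxF_two_le hq h0 h1 (L := fun j : Fin 2 => gwLik q lam (n + 1) (ts j))
      (fun j => gwNice hq h0 h1 (n + 1) (ts j))
      (R := fun j => lam ^ 2 * sumU (C.gwM n) (ts j))
      (hpos (ts 0))
      (fun j => le_trans (le_max_left _ _) (C.gw_one hq h0 h1 n (ts j)))
      (le_trans (le_max_right _ _) (C.gw_one hq h0 h1 n (ts 1)))
      (C.gw_kap hq h0 h1 n (ts 0))
  · have e1 : pairF (n := n + 1) (fun s => lam ^ 4 * pairF (C.gwM n) (C.gwM n) s)
        (C.gwM (n + 1)) ⟨k, ts⟩ = 0 := by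
      unfold pairF
      exact dif_neg hk
    rw [e1, mul_zero, add_zero]
    refine le_trans (C.gw_one_aux hq h0 h1 (n + 1) k ts) ?_
    apply mul_le_mul_of_nonneg_left _ (sq_nonneg _)
    unfold sumU
    exact Finset.sum_le_sum (fun j _ => C.gw_one hq h0 h1 n (ts j))

theorem KCert.gw_two (hq : 2 ≤ q) (h0 : 0 ≤ lam) (h1 : lam ≤ 1) (n : ℕ)
    (t : GWTree (n + 2)) :
    C.gwM (n + 2) t + lam ^ 3 * C.cst * pairF
        (fun s => lam ^ 4 * pairF (C.gwM n) (C.gwM n) s) (C.gwM (n + 1)) t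
      ≤ lam ^ 2 * sumU (fun s => lam ^ 2 * sumU (C.gwM n) s) t :=
  C.gw_two_aux hq h0 h1 n t.1 t.2

end gwk

theorem nonreconstruction_gw_K {q : ℕ} {d lam : ℝ} (hq : 2 ≤ q) (hd : 0 < d)
    (h0 : 0 ≤ lam) (h1 : lam ≤ 1) (C : KCert q lam) (h : d * lam ^ 2 ≤ 1) :
    Nonreconstruction (gwA q d lam) := by
  have hG : ∀ n (t : GWTree n), NiceL (gwLik q lam n t) := gwNice hq h0 h1
  have hq0 : 0 < q := by omega
  have hM0 : ∀ n t, 0 ≤ C.gwM n t := C.gwM_nonneg hq h0 h1
  have hM1 : ∀ n t, C.gwM n t ≤ 1 := C.gwM_le_one hq h0 h1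
  have hp0 : ∀ n t, 0 ≤ gwProb d n t := fun n t => gwProb_nonneg hd.le n t
  have hpS : ∀ n, HasSum (gwProb d n) 1 := fun n => hasSum_gwProb hd.le n
  set X : ℕ → ℝ := fun n => ∑' t, gwProb d n t * C.gwM n t with hX
  have hXs : ∀ n, HasSum (fun t => gwProb d n t * C.gwM n t) (X n) := by
    intro n
    apply Summable.hasSum
    apply Summable.of_nonneg_of_le (fun t => mul_nonneg (hp0 n t) (hM0 n t)) (fun t => ?_)
      (hpS n).summable
    exact mul_le_of_le_one_right (hp0 n t) (hM1 n t)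
  have hX0 : ∀ n, 0 ≤ X n := fun n => tsum_nonneg (fun t => mul_nonneg (hp0 n t) (hM0 n t))
  have hpoi : 0 < poi d 2 := by
    unfold poi
    have := Real.exp_pos (-d)
    positivity
  have hl2 : 0 ≤ lam ^ 2 := sq_nonneg _
  -- the averaged inequalities
  have hrec1 : ∀ n, X (n + 1) ≤ lam ^ 2 * (d * X n) := by
    intro n
    have hU := (hasSum_sumU hd.le (hM0 n) (hXs n)).mul_left (lam ^ 2)
    refine hasSum_le (fun t => ?_) (hXs (n + 1)) hU
    have h4 := C.gw_one hq h0 h1 n t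
    have h5 := mul_le_mul_of_nonneg_left h4 (hp0 (n + 1) t)
    linarith
  have hrec2 : ∀ n, X (n + 2) + lam ^ 3 * C.cst *
      (poi d 2 * ((lam ^ 4 * (poi d 2 * (X n * X n))) * X (n + 1)))
      ≤ lam ^ 2 * (d * (lam ^ 2 * (d * X n))) := by
    intro n
    have hz := (hasSum_pairF hd.le (hM0 n) (hM0 n) (hXs n) (hXs n)).mul_left (lam ^ 4)
    have hz' : HasSum (fun t : GWTree (n + 1) => gwProb d (n + 1) t *
        (lam ^ 4 * pairF (C.gwM n) (C.gwM n) t))
        (lam ^ 4 * (poi d 2 * (X n * X n))) := by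
      refine hasSum_of_eq hz (fun t => ?_) rfl
      ring
    have hz0 : ∀ t : GWTree (n + 1), 0 ≤ lam ^ 4 * pairF (C.gwM n) (C.gwM n) t :=
      fun t => mul_nonneg (by positivity) (pairF_nonneg (hM0 n) (hM0 n) t)
    have hP := (hasSum_pairF hd.le hz0 (hM0 (n + 1)) hz' (hXs (n + 1))).mul_left
      (lam ^ 3 * C.cst)
    have hU1 := (hasSum_sumU hd.le (hM0 n) (hXs n)).mul_left (lam ^ 2)
    have hU1' : HasSum (fun t : GWTree (n + 1) => gwProb d (n + 1) t *
        (lam ^ 2 * sumU (C.gwM n) t)) (lam ^ 2 * (d * X n)) := by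
      refine hasSum_of_eq hU1 (fun t => ?_) rfl
      ring
    have hU0 : ∀ t : GWTree (n + 1), 0 ≤ lam ^ 2 * sumU (C.gwM n) t :=
      fun t => mul_nonneg hl2 (Finset.sum_nonneg (fun j _ => hM0 n _))
    have hU2 := (hasSum_sumU hd.le hU0 hU1').mul_left (lam ^ 2)
    refine hasSum_le (fun t => ?_) ((hXs (n + 2)).add hP) hU2
    have h2 := C.gw_two hq h0 h1 n t
    have h7 := mul_le_mul_of_nonneg_left h2 (hp0 (n + 2) t)
    linarith
  have hanti : ∀ n, X (n + 1) ≤ X n := by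
    intro n
    have e1 := hrec1 n
    have e2 := mul_le_mul_of_nonneg_right h (hX0 n)
    linarith
  have hlim : Filter.Tendsto X Filter.atTop (nhds 0) := by
    by_cases hl : lam = 0
    · apply tendsto_zero_of_first
      intro n
      apply le_antisymm _ (hX0 _)
      refine le_trans (hrec1 n) ?_
      rw [hl]
      simp
    · have hc := C.cst_pos hl
      have hl0 : 0 < lam := lt_of_le_of_ne h0 (Ne.symm hl)
      refine tendsto_zero_of_rec2 hX0 hanti
        (K := lam ^ 3 * C.cst * (poi d 2 * (lam ^ 4 * poi d 2))) (by positivity) (fun n => ?_)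
      have h8 := hrec2 n
      have h9 : lam ^ 2 * (d * (lam ^ 2 * (d * X n))) ≤ X n := by
        have e1 : 0 ≤ d * lam ^ 2 * X n := mul_nonneg (mul_nonneg hd.le hl2) (hX0 n)
        have e2 := mul_le_mul_of_nonneg_right h (hX0 n)
        have e3 := mul_le_mul_of_nonneg_right h e1
        nlinarith [e2, e3]
      have h10 : lam ^ 3 * C.cst *
          (poi d 2 * ((lam ^ 4 * (poi d 2 * (X n * X n))) * X (n + 1)))
          = lam ^ 3 * C.cst * (poi d 2 * (lam ^ 4 * poi d 2)) * X n ^ 2 * X (n + 1) := by ring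
      linarith
  have hb0 : ∀ n t, 0 ≤ avgBias (gwLik q lam n t) := fun n t => avgBias_nonneg (hG n t).nonneg
  have hq1 : (1 : ℝ) ≤ q := by exact_mod_cast hq0
  refine tendsto_zero_of_bias (A := (q : ℝ) / 4) (B := ((q : ℝ) - 1) / (4 * q))
    (fun n => tsum_nonneg (fun t => mul_nonneg (hp0 n t) (hb0 n t))) hlim (fun n δ hδ => ?_)
  have hR : HasSum (fun t => gwProb d n t * (q * δ / 4)
      + (q - 1) / (4 * δ * q) * (gwProb d n t * C.gwM n t))
      (1 * (q * δ / 4) + (q - 1) / (4 * δ * q) * X n) :=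
    ((hpS n).mul_right _).add ((hXs n).mul_left _)
  have hle : ∀ t, gwProb d n t * avgBias (gwLik q lam n t)
      ≤ gwProb d n t * (q * δ / 4) + (q - 1) / (4 * δ * q) * (gwProb d n t * C.gwM n t) := by
    intro t
    have h2 := avgBias_le hq (hG n t).nonneg (hG n t).norm hδ
    have h7 : sumF chi (gwLik q lam n t) ≤ C.gwM n t := le_max_left _ _
    have h8 : 0 ≤ ((q : ℝ) - 1) / (4 * δ * q) := by
      apply div_nonneg (by linarith)
      positivity
    have h9 := mul_le_mul_of_nonneg_left h7 h8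
    have h3 := mul_le_mul_of_nonneg_left (le_trans h2 (add_le_add_right h9 _)) (hp0 n t)
    refine le_trans h3 (le_of_eq ?_)
    ring
  have hS : Summable (fun t => gwProb d n t * avgBias (gwLik q lam n t)) :=
    Summable.of_nonneg_of_le (fun t => mul_nonneg (hp0 n t) (hb0 n t)) hle hR.summable
  have h4 := hasSum_le hle hS.hasSum hR
  unfold gwA
  refine le_trans h4 (le_of_eq ?_)
  have hq0' : (q : ℝ) ≠ 0 := by exact_mod_cast hq0.ne'
  field_simp

end Vale.Agent.P154
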