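import Vale.Agent.Lib.P154.K4Defs

/-!
# `q = 4`: the invariants of a nonnegative vector, bounds for `gh`
-/

namespace Vale.Agent.P154.K4

theorem aT_nonneg (x y z u : ℝ) : 0 ≤ aT x y z u := by
  unfold aT
  positivity

theorem bT_nonneg (x y z u : ℝ) : 0 ≤ bT x y z u := by
  unfold bT
  positivity

theorem bT_le (x y z u : ℝ) : bT x y z u ≤ 3 * aT x y z u ^ 2 := by
  unfold bT aT
  nlinarith [sq_nonneg (H1 x y z u ^ 2 - H2 x y z u ^ 2),
    sq_nonneg (H2 x y z u ^ 2 - H3 x y z u ^ 2), sq_nonneg (H3 x y z u ^ 2 - H1 x y z u ^ 2)]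

theorem pT_sq_le (x y z u : ℝ) : 9 * aT x y z u * pT x y z u ^ 2 ≤ bT x y z u ^ 2 := by
  unfold bT aT pT
  nlinarith [sq_nonneg (H1 x y z u ^ 2 * H2 x y z u ^ 2 - H2 x y z u ^ 2 * H3 x y z u ^ 2),
    sq_nonneg (H2 x y z u ^ 2 * H3 x y z u ^ 2 - H3 x y z u ^ 2 * H1 x y z u ^ 2),
    sq_nonneg (H3 x y z u ^ 2 * H1 x y z u ^ 2 - H1 x y z u ^ 2 * H2 x y z u ^ 2)]

/-- AM-GM for three nonnegative numbers -/
theorem k4g_amgm {X Y Z : ℝ} (hX : 0 ≤ X) (hY : 0 ≤ Y) (hZ : 0 ≤ Z) :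
    X * Y * Z ≤ ((X + Y + Z) / 3) ^ 3 := by
  have h1 : 0 ≤ X * (Y - Z) ^ 2 := mul_nonneg hX (sq_nonneg _)
  have h2 : 0 ≤ Y * (Z - X) ^ 2 := mul_nonneg hY (sq_nonneg _)
  have h3 : 0 ≤ Z * (X - Y) ^ 2 := mul_nonneg hZ (sq_nonneg _)
  have h4 : 0 ≤ (X + Y + Z) * ((X - Y) ^ 2 + (Y - Z) ^ 2 + (Z - X) ^ 2) := by positivity
  nlinarith [h1, h2, h3, h4]

theorem pT_sq_le_cube (x y z u : ℝ) : pT x y z u ^ 2 ≤ aT x y z u ^ 3 := by
  unfold aT pT
  have h := k4g_amgm (sq_nonneg (H1 x y z u)) (sq_nonneg (H2 x y z u)) (sq_nonneg (H3 x y z u))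
  refine le_trans (le_of_eq ?_) h
  ring

theorem aT_le_one {x y z u : ℝ} (hx : 0 ≤ x) (hy : 0 ≤ y) (hz : 0 ≤ z) (hu : 0 ≤ u)
    (h : x + y + z + u = 4) : aT x y z u ≤ 1 := by
  have hu' : u = 4 - x - y - z := by linarith
  have h1 : 0 ≤ x * y := mul_nonneg hx hy
  have h2 : 0 ≤ x * z := mul_nonneg hx hz
  have h3 : 0 ≤ x * u := mul_nonneg hx hu
  have h4 : 0 ≤ y * z := mul_nonneg hy hz
  have h5 : 0 ≤ y * u := mul_nonneg hy hu
  have h6 : 0 ≤ z * u := mul_nonneg hz hu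
  have key : 1 - aT x y z u = (x * y + x * z + x * u + y * z + y * u + z * u) / 6 := by
    unfold aT H1 H2 H3
    subst hu'
    ring
  linarith

theorem pT_ge {x y z u : ℝ} (hx : 0 ≤ x) (hy : 0 ≤ y) (hz : 0 ≤ z) (hu : 0 ≤ u)
    (h : x + y + z + u = 4) : (3 * aT x y z u - 1) / 2 ≤ pT x y z u := by
  have hu' : u = 4 - x - y - z := by linarith
  have h1 : 0 ≤ x * y * z := mul_nonneg (mul_nonneg hx hy) hz
  have h2 : 0 ≤ x * y * u := mul_nonneg (mul_nonneg hx hy) hu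
  have h3 : 0 ≤ x * z * u := mul_nonneg (mul_nonneg hx hz) hu
  have h4 : 0 ≤ y * z * u := mul_nonneg (mul_nonneg hy hz) hu
  have key : 1 - 3 * aT x y z u + 2 * pT x y z u
      = (x * y * z + x * y * u + x * z * u + y * z * u) / 4 := by
    unfold aT pT H1 H2 H3
    subst hu'
    ring
  linarith

/-- `chi` in terms of `aT` -/
theorem chiT_eq {x y z u : ℝ} (h : x + y + z + u = 4) : chiT x y z u = aT x y z u := by
  have hu' : u = 4 - x - y - z := by linarith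
  unfold chiT aT H1 H2 H3
  rw [h]
  subst hu'
  ring

theorem k4g_L_0 {r : ℝ} (h0 : 0 ≤ r) (h1 : r ≤ 1) :
    0 ≤ (39 / 10) + (-7 / 10) * r + (-93 / 20) * r ^ 2 + (13 / 4) * r ^ 4 + (-3 / 2) * r ^ 6 := by
  have key : ∀ x y : ℝ, 0 ≤ x → 0 ≤ y → 0 ≤ (39 / 10) * y ^ 6
        + (227 / 10) * x ^ 1 * y ^ 5
        + (1007 / 20) * x ^ 2 * y ^ 4
        + (262 / 5) * x ^ 3 * y ^ 3
        + (537 / 20) * x ^ 4 * y ^ 2
        + (39 / 5) * x ^ 5 * y ^ 1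
        + (3 / 10) * x ^ 6 := by
    intro x y hx hy
    positivity
  have h2 := key (r - 0) (1 - r) (sub_nonneg.2 h0) (sub_nonneg.2 h1)
  refine h2.trans (le_of_eq ?_)
  ring


theorem k4g_U0_0 {a : ℝ} (h0 : 0 ≤ a) (h1 : a ≤ (1 / 3)) :
    0 ≤ 1 + (-4) * a + (-27 / 20) * a ^ 2 + (43 / 2) * a ^ 3 + (-243 / 10) * a ^ 4 := by
  have key : ∀ x y : ℝ, 0 ≤ x → 0 ≤ y → 0 ≤ 81 * y ^ 4
        + 216 * x ^ 1 * y ^ 3
        + (2997 / 20) * x ^ 2 * y ^ 2
        + (201 / 5) * x ^ 3 * y ^ 1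
        + (21 / 20) * x ^ 4 := by
    intro x y hx hy
    positivity
  have h2 := key (a - 0) ((1 / 3) - a) (sub_nonneg.2 h0) (sub_nonneg.2 h1)
  refine h2.trans (le_of_eq ?_)
  ring


theorem k4g_U1_0 {r : ℝ} (h0 : 0 ≤ r) (h1 : r ≤ (1 / 2)) :
    0 ≤ 1 + (-4) * r ^ 2 + (-7 / 10) * r ^ 3 + (93 / 20) * r ^ 4 + (-13 / 4) * r ^ 6 + (3 / 2) * r ^ 8 := by
  have key : ∀ x y : ℝ, 0 ≤ x → 0 ≤ y → 0 ≤ 256 * y ^ 8
        + 2048 * x ^ 1 * y ^ 7
        + 6912 * x ^ 2 * y ^ 6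
        + (63888 / 5) * x ^ 3 * y ^ 5
        + (70212 / 5) * x ^ 4 * y ^ 4
        + (46448 / 5) * x ^ 5 * y ^ 3
        + (17687 / 5) * x ^ 6 * y ^ 2
        + (3358 / 5) * x ^ 7 * y ^ 1
        + (81 / 2) * x ^ 8 := by
    intro x y hx hy
    positivity
  have h2 := key (r - 0) ((1 / 2) - r) (sub_nonneg.2 h0) (sub_nonneg.2 h1)
  refine h2.trans (le_of_eq ?_)
  ring


theorem k4g_U2_0 {r : ℝ} (h0 : (1 / 2) ≤ r) (h1 : r ≤ (29 / 50)) :
    0 ≤ (13 / 20) + 3 * r + (-59 / 20) * r ^ 2 + (-171 / 8) * r ^ 3 + (-27 / 20) * r ^ 4 + (2001 / 40) * r ^ 5 + (43 / 2) * r ^ 6 + (-387 / 10) * r ^ 7 + (-243 / 10) * r ^ 8 := by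
  have key : ∀ x y : ℝ, 0 ≤ x → 0 ≤ y → 0 ≤ (12359619140625 / 131072) * y ^ 8
        + (10216064453125 / 16384) * x ^ 1 * y ^ 7
        + (57710302734375 / 32768) * x ^ 2 * y ^ 6
        + (45248669921875 / 16384) * x ^ 3 * y ^ 5
        + (171212609921875 / 65536) * x ^ 4 * y ^ 4
        + (24775736171875 / 16384) * x ^ 5 * y ^ 3
        + (16891363398375 / 32768) * x ^ 6 * y ^ 2
        + (1511463534805 / 16384) * x ^ 7 * y ^ 1
        + (4119829765077 / 655360) * x ^ 8 := by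
    intro x y hx hy
    positivity
  have h2 := key (r - (1 / 2)) ((29 / 50) - r) (sub_nonneg.2 h0) (sub_nonneg.2 h1)
  refine h2.trans (le_of_eq ?_)
  ring


theorem k4g_U3_0 {r : ℝ} (h0 : (57 / 100) ≤ r) (h1 : r ≤ (157 / 200)) :
    0 ≤ (13 / 20) + (-3) * r + (-59 / 20) * r ^ 2 + (171 / 8) * r ^ 3 + (-27 / 20) * r ^ 4 + (-2001 / 40) * r ^ 5 + (43 / 2) * r ^ 6 + (387 / 10) * r ^ 7 + (-243 / 10) * r ^ 8 := by
  have key : ∀ x y : ℝ, 0 ≤ x → 0 ≤ y → 0 ≤ (137228035769965696 / 58441001388005) * y ^ 8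
        + (1979529769845296384 / 58441001388005) * x ^ 1 * y ^ 7
        + (8791957320710377472 / 58441001388005) * x ^ 2 * y ^ 6
        + (18421345902013086272 / 58441001388005) * x ^ 3 * y ^ 5
        + (4156827469029674384 / 11688200277601) * x ^ 4 * y ^ 4
        + (13372455538100825968 / 58441001388005) * x ^ 5 * y ^ 3
        + (5417301324590675792 / 58441001388005) * x ^ 6 * y ^ 2
        + (1720315430502142156 / 58441001388005) * x ^ 7 * y ^ 1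
        + (723204995816462757 / 116882002776010) * x ^ 8 := by
    intro x y hx hy
    positivity
  have h2 := key (r - (57 / 100)) ((157 / 200) - r) (sub_nonneg.2 h0) (sub_nonneg.2 h1)
  refine h2.trans (le_of_eq ?_)
  ring

theorem k4g_U3_1 {r : ℝ} (h0 : (157 / 200) ≤ r) (h1 : r ≤ 1) :
    0 ≤ (13 / 20) + (-3) * r + (-59 / 20) * r ^ 2 + (171 / 8) * r ^ 3 + (-27 / 20) * r ^ 4 + (-2001 / 40) * r ^ 5 + (43 / 2) * r ^ 6 + (387 / 10) * r ^ 7 + (-243 / 10) * r ^ 8 := by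
  have key : ∀ x y : ℝ, 0 ≤ x → 0 ≤ y → 0 ≤ (723204995816462757 / 116882002776010) * y ^ 8
        + (813064907205911980 / 11688200277601) * x ^ 1 * y ^ 7
        + (4366473012656520000 / 11688200277601) * x ^ 2 * y ^ 6
        + (13825316651539000000 / 11688200277601) * x ^ 3 * y ^ 5
        + (27080827711240000000 / 11688200277601) * x ^ 4 * y ^ 4
        + (32867355688000000000 / 11688200277601) * x ^ 5 * y ^ 3
        + (23875752000000000000 / 11688200277601) * x ^ 6 * y ^ 2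
        + (9425920000000000000 / 11688200277601) * x ^ 7 * y ^ 1
        + (1536000000000000000 / 11688200277601) * x ^ 8 := by
    intro x y hx hy
    positivity
  have h2 := key (r - (157 / 200)) (1 - r) (sub_nonneg.2 h0) (sub_nonneg.2 h1)
  refine h2.trans (le_of_eq ?_)
  ring


theorem k4g_g2_pos (a : ℝ) : 0 ≤ 2 - 33 / 4 * a + 43 / 5 * a ^ 2 := by
  nlinarith [sq_nonneg (a - 165 / 344)]

theorem gh_lower {a p B : ℝ} (ha0 : 0 ≤ a) (ha1 : a ≤ 1) (hB0 : 0 ≤ B) (hB : B ≤ 3 * a ^ 2)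
    (hp : 9 * a * p ^ 2 ≤ B ^ 2) (hpa : p ^ 2 ≤ a ^ 3) : 1 / 10 * a ≤ gh a p B := by
  obtain ⟨r, hr0, rfl⟩ : ∃ r : ℝ, 0 ≤ r ∧ a = r ^ 2 := ⟨√a, Real.sqrt_nonneg a, (Real.sq_sqrt ha0).symm⟩
  have hr1 : r ≤ 1 := by nlinarith
  have hp3 : p ≤ r ^ 3 := by
    have h1 : p ^ 2 ≤ (r ^ 3) ^ 2 := by
      refine hpa.trans (le_of_eq ?_)
      ring
    exact le_trans (le_abs_self p) (abs_le_of_sq_le_sq h1 (by positivity))
  have h2 := mul_le_mul_of_nonneg_left hB (k4g_g2_pos (r ^ 2))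
  have h3 := mul_nonneg (sq_nonneg r) (k4g_L_0 hr0 hr1)
  unfold gh
  nlinarith [h2, h3, hp3]

theorem gh_upper {a p B : ℝ} (ha0 : 0 ≤ a) (ha1 : a ≤ 1) (hB0 : 0 ≤ B) (hB : B ≤ 3 * a ^ 2)
    (hp : 9 * a * p ^ 2 ≤ B ^ 2) (hp3 : (3 * a - 1) / 2 ≤ p) : gh a p B ≤ 1 := by
  obtain ⟨r, hr0, rfl⟩ : ∃ r : ℝ, 0 ≤ r ∧ a = r ^ 2 := ⟨√a, Real.sqrt_nonneg a, (Real.sq_sqrt ha0).symm⟩
  have hr1 : r ≤ 1 := by nlinarith
  have hg2 := k4g_g2_pos (r ^ 2)
  have hpB : 3 * r * |p| ≤ B := by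
    have h1 : (3 * r * |p|) ^ 2 ≤ B ^ 2 := by
      refine le_trans (le_of_eq ?_) hp
      rw [mul_pow, sq_abs]
      ring
    exact le_trans (le_abs_self _) (abs_le_of_sq_le_sq h1 hB0)
  rcases le_or_gt (1 / 3) (r ^ 2) with hcase | hcase
  · -- `a ≥ 1/3`
    have hp0 : 0 ≤ p := by linarith
    rw [abs_of_nonneg hp0] at hpB
    have hr57 : 57 / 100 ≤ r := by nlinarith
    have hU3 : 0 ≤ 1 - r ^ 2 * (4 + 27 / 20 * r ^ 2 - 43 / 2 * (r ^ 2) ^ 2
        + 243 / 10 * (r ^ 2) ^ 3)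
        + (7 / 10 + 3 * r * (2 - 33 / 4 * r ^ 2 + 43 / 5 * (r ^ 2) ^ 2)) * ((3 * r ^ 2 - 1) / 2) := by
      rcases le_total r (157 / 200) with hh | hh
      · refine (k4g_U3_0 hr57 hh).trans (le_of_eq ?_)
        ring
      · refine (k4g_U3_1 hh hr1).trans (le_of_eq ?_)
        ring
    have h2 := mul_le_mul_of_nonneg_left hpB hg2
    have h3 : 0 ≤ 7 / 10 + 3 * r * (2 - 33 / 4 * r ^ 2 + 43 / 5 * (r ^ 2) ^ 2) := by positivity
    have h4 := mul_le_mul_of_nonneg_left hp3 h3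
    unfold gh
    nlinarith [hU3, h2, h4]
  · -- `a < 1/3`
    have hU0 := k4g_U0_0 (sq_nonneg r) hcase.le
    rcases le_total 0 p with hp0 | hp0
    · have h2 := mul_nonneg hg2 hB0
      unfold gh
      nlinarith [hU0, h2, hp0]
    · rw [abs_of_nonpos hp0] at hpB
      have h2 := mul_le_mul_of_nonneg_left hpB hg2
      rcases le_or_gt (7 / 10 - 3 * r * (2 - 33 / 4 * r ^ 2 + 43 / 5 * (r ^ 2) ^ 2)) 0 with hk | hk
      · have h3 := mul_nonneg_of_nonpos_of_nonpos hk hp0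
        unfold gh
        nlinarith [hU0, h2, h3]
      · rcases le_total r (1 / 2) with hr2 | hr2
        · -- `|p| ≤ r ^ 3`
          rcases hr0.eq_or_lt with h0 | h0
          · rw [← h0] at hB hp3 ⊢
            have hB00 : B = 0 := by
              apply le_antisymm _ hB0
              nlinarith
            unfold gh
            rw [hB00]
            nlinarith
          · have h4 : -p ≤ r ^ 3 := by
              by_contra hcon
              push Not at hcon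
              have h5 : 3 * r * r ^ 3 < 3 * r * (-p) := mul_lt_mul_of_pos_left hcon (by positivity)
              have h6 : 3 * (r ^ 2) ^ 2 = 3 * r * r ^ 3 := by ring
              linarith
            have h5 := mul_le_mul_of_nonneg_left h4 hk.le
            have hU1 := k4g_U1_0 hr0 hr2
            unfold gh
            nlinarith [hU1, h2, h5]
        · have hr58 : r ≤ 29 / 50 := by nlinarith
          have h4 : -p ≤ (1 - 3 * r ^ 2) / 2 := by linarith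
          have h5 := mul_le_mul_of_nonneg_left h4 hk.le
          have hU2 := k4g_U2_0 hr2 hr58
          unfold gh
          nlinarith [hU2, h2, h5]

end Vale.Agent.P154.K4
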