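import Vale.Agent.Lib.P154.K4Defs

/-!
# `q = 4`: the functional `kap` under the edge operator
-/

open scoped BigOperators

namespace Vale.Agent.P154.K4

/-- the inequality for one pair: `u` is the half-sum of the pair, `r` the geometric mean -/
theorem pair_smooth {lam u r : ℝ} (h0 : 0 ≤ lam) (h1 : lam ≤ 1) (hr : 0 ≤ r) (hru : r ≤ u)
    (hu : u ≤ 2) :
    lam ^ 3 * r + (1 - lam) * (1 + lam * (1 + lam) * u - lam ^ 2 * u ^ 2 / 2
        + lam ^ 2 * r ^ 2 / 2)
      ≤ √((1 - lam) * (1 - lam + 2 * lam * u) + lam ^ 2 * r ^ 2) := by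
  apply Real.le_sqrt_of_sq_le
  have ha : 0 ≤ 1 - lam := by linarith
  have hd : 0 ≤ u - r := by linarith
  have hM : 0 ≤ 2 * lam + (1 - lam) * (u + r) := by
    have : 0 ≤ u + r := by linarith
    positivity
  have hM2 : 0 ≤ 2 - lam * (2 * lam + (1 - lam) * (u + r)) := by
    have h4 : 0 ≤ 4 - (u + r) := by linarith
    have h5 : 2 - lam * (2 * lam + (1 - lam) * (u + r))
        = 2 * (1 - lam) ^ 2 + lam * (1 - lam) * (4 - (u + r)) := by ring
    rw [h5]
    positivity
  have key : (1 - lam) * (1 - lam + 2 * lam * u) + lam ^ 2 * r ^ 2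
      - (lam ^ 3 * r + (1 - lam) * (1 + lam * (1 + lam) * u - lam ^ 2 * u ^ 2 / 2
        + lam ^ 2 * r ^ 2 / 2)) ^ 2
      = lam ^ 2 * (u - r) / 4 * (2 * lam * (1 - lam) * (u + r - 2) ^ 2
        + lam * (2 * lam + (1 - lam) * (u + r)) * (2 - lam * (2 * lam + (1 - lam) * (u + r)))
          * (u - r)) := by ring
  have hpos : 0 ≤ lam ^ 2 * (u - r) / 4 * (2 * lam * (1 - lam) * (u + r - 2) ^ 2
        + lam * (2 * lam + (1 - lam) * (u + r)) * (2 - lam * (2 * lam + (1 - lam) * (u + r)))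
          * (u - r)) := by positivity
  linarith

/-- the unnormalised form of `pair_smooth` -/
theorem pair_smooth' {lam s a b : ℝ} (h0 : 0 ≤ lam) (h1 : lam ≤ 1) (hs : 0 < s) (ha : 0 ≤ a)
    (hb : 0 ≤ b) (hab : a + b ≤ 4 * s) :
    lam ^ 3 * √(a * b) + (1 - lam) * (s + lam * (1 + lam) * ((a + b) / 2)
        - lam ^ 2 * ((a - b) ^ 2 / (8 * s)))
      ≤ √((lam * a + (1 - lam) * s) * (lam * b + (1 - lam) * s)) := by
  have hs' : s ≠ 0 := hs.ne'
  have hsq : √(a * b) ^ 2 = a * b := Real.sq_sqrt (mul_nonneg ha hb)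
  have hr : 0 ≤ √(a * b) / s := by positivity
  have hru : √(a * b) / s ≤ (a + b) / (2 * s) := by
    have h2 : √(a * b) ≤ (a + b) / 2 := by
      apply Real.sqrt_le_iff.mpr
      constructor
      · linarith
      · nlinarith [sq_nonneg (a - b)]
    calc √(a * b) / s ≤ ((a + b) / 2) / s := by gcongr
      _ = (a + b) / (2 * s) := by field_simp
  have hu : (a + b) / (2 * s) ≤ 2 := by
    rw [div_le_iff₀ (by positivity)]
    linarith
  have h := pair_smooth h0 h1 hr hru hu
  have h2 := mul_le_mul_of_nonneg_left h hs.le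
  have e1 : s * √((1 - lam) * (1 - lam + 2 * lam * ((a + b) / (2 * s)))
      + lam ^ 2 * (√(a * b) / s) ^ 2)
      = √((lam * a + (1 - lam) * s) * (lam * b + (1 - lam) * s)) := by
    have e2 : (lam * a + (1 - lam) * s) * (lam * b + (1 - lam) * s)
        = s ^ 2 * ((1 - lam) * (1 - lam + 2 * lam * ((a + b) / (2 * s)))
          + lam ^ 2 * (√(a * b) / s) ^ 2) := by
      rw [div_pow, hsq]
      field_simp
      ring
    rw [e2, Real.sqrt_mul (sq_nonneg s), Real.sqrt_sq hs.le]
  rw [e1] at h2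
  refine le_trans (le_of_eq ?_) h2
  rw [div_pow √(a * b), hsq]
  field_simp
  ring

theorem kap_smooth {lam : ℝ} (h0 : 0 ≤ lam) (h1 : lam ≤ 1) (w : Fin 4 → ℝ)
    (hw : ∀ i, 0 ≤ w i) :
    kap (smooth lam w) ≤ lam ^ 2 * (1 - lam) * chi w + lam ^ 3 * kap w := by
  have hx := hw 0
  have hy := hw 1
  have hz := hw 2
  have hu := hw 3
  unfold kap smooth kapT chi
  simp only [Fin.sum_univ_four]
  push_cast
  generalize w 0 = x at *
  generalize w 1 = y at *
  generalize w 2 = z at *
  generalize w 3 = u at *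
  rcases eq_or_lt_of_le (show 0 ≤ x + y + z + u by positivity) with hS | hS
  · have ex : x = 0 := by linarith
    have ey : y = 0 := by linarith
    have ez : z = 0 := by linarith
    have eu : u = 0 := by linarith
    subst ex ey ez eu
    simp
  · have hs : 0 < (x + y + z + u) / 4 := by positivity
    have e : (1 - lam) / 4 * (x + y + z + u) = (1 - lam) * ((x + y + z + u) / 4) := by ring
    rw [e]
    have p1 := pair_smooth' h0 h1 hs hx hy (by linarith)
    have p2 := pair_smooth' h0 h1 hs hx hz (by linarith)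
    have p3 := pair_smooth' h0 h1 hs hx hu (by linarith)
    have p4 := pair_smooth' h0 h1 hs hy hz (by linarith)
    have p5 := pair_smooth' h0 h1 hs hy hu (by linarith)
    have p6 := pair_smooth' h0 h1 hs hz hu (by linarith)
    have hchi : (4 * (x ^ 2 + y ^ 2 + z ^ 2 + u ^ 2) / (x + y + z + u) - (x + y + z + u))
        / (4 * (4 - 1))
        = ((x - y) ^ 2 / (8 * ((x + y + z + u) / 4)) + (x - z) ^ 2 / (8 * ((x + y + z + u) / 4))
          + (x - u) ^ 2 / (8 * ((x + y + z + u) / 4)) + (y - z) ^ 2 / (8 * ((x + y + z + u) / 4))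
          + (y - u) ^ 2 / (8 * ((x + y + z + u) / 4))
          + (z - u) ^ 2 / (8 * ((x + y + z + u) / 4))) / 6 := by
      have hS' : x + y + z + u ≠ 0 := hS.ne'
      field_simp
      ring
    rw [hchi]
    generalize (x - y) ^ 2 / (8 * ((x + y + z + u) / 4)) = d1 at *
    generalize (x - z) ^ 2 / (8 * ((x + y + z + u) / 4)) = d2 at *
    generalize (x - u) ^ 2 / (8 * ((x + y + z + u) / 4)) = d3 at *
    generalize (y - z) ^ 2 / (8 * ((x + y + z + u) / 4)) = d4 at *
    generalize (y - u) ^ 2 / (8 * ((x + y + z + u) / 4)) = d5 at *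
    generalize (z - u) ^ 2 / (8 * ((x + y + z + u) / 4)) = d6 at *
    linarith [p1, p2, p3, p4, p5, p6]

end Vale.Agent.P154.K4
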