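import Vale.Agent.Lib.P154.K4Defs

/-!
# `q = 4`: the final polynomial inequality at the vertex `(0,0)` of the triangles

`Fin6 a 0 0 b 0 0 = a * b * (4 * (a - b) ^ 2 + a * b * R00 a b)`, and `R00` is positive on the
unit square (Bernstein form on four boxes).
-/

namespace Vale.Agent.P154.K4

/-- `Fin6 a 0 0 b 0 0 = a * b * (4 * (a - b) ^ 2 + a * b * R00 a b)` -/
noncomputable def R00 (a b : ℝ) : ℝ :=
    41 / 40 - 591 / 40 * b + 3129 / 40 * b ^ 2 - 591 / 40 * a + 1789 / 8 * a * b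
    - 1143 / 40 * a * b ^ 2 + 3987 / 8 * a * b ^ 3 + 3129 / 40 * a ^ 2
    - 1143 / 40 * a ^ 2 * b - 16995 / 32 * a ^ 2 * b ^ 2 - 14931 / 32 * a ^ 2 * b ^ 3
    + 32805 / 32 * a ^ 2 * b ^ 4 + 3987 / 8 * a ^ 3 * b - 14931 / 32 * a ^ 3 * b ^ 2
    - 9675 / 4 * a ^ 3 * b ^ 3 + 10935 / 8 * a ^ 3 * b ^ 4 + 32805 / 32 * a ^ 4 * b ^ 2
    + 10935 / 8 * a ^ 4 * b ^ 3

theorem fin6_00_eq (a b : ℝ) :
    Fin6 a 0 0 b 0 0 = a * b * (4 * (a - b) ^ 2 + a * b * R00 a b) := by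
  unfold Fin6 PhA gh M1 M2 M3 R00
  ring

theorem R00_symm (a b : ℝ) : R00 a b = R00 b a := by
  unfold R00
  ring

theorem R00_box0 (s p t q : ℝ) (hs : 0 ≤ s) (hp : 0 ≤ p) (ht : 0 ≤ t) (hq : 0 ≤ q)
    (h1 : p = 1 - s) (h2 : q = 1 - t) : 0 ≤ R00 (s / 8) (t / 8) := by
  have h : R00 (s / 8) (t / 8) =
      (41 / 40) * p ^ 4 * q ^ 4 + (721 / 320) * p ^ 4 * t * q ^ 3
      + (4689 / 2560) * p ^ 4 * t ^ 2 * q ^ 2 + (257 / 256) * p ^ 4 * t ^ 3 * q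
      + (205 / 512) * p ^ 4 * t ^ 4 + (721 / 320) * s * p ^ 3 * q ^ 4
      + (2621 / 512) * s * p ^ 3 * t * q ^ 3
      + (136641 / 20480) * s * p ^ 3 * t ^ 2 * q ^ 2
      + (1166639 / 163840) * s * p ^ 3 * t ^ 3 * q + (543079 / 163840) * s * p ^ 3 * t ^ 4
      + (4689 / 2560) * s ^ 2 * p ^ 2 * q ^ 4
      + (136641 / 20480) * s ^ 2 * p ^ 2 * t * q ^ 3
      + (10526673 / 655360) * s ^ 2 * p ^ 2 * t ^ 2 * q ^ 2
      + (103737873 / 5242880) * s ^ 2 * p ^ 2 * t ^ 3 * q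
      + (359376129 / 41943040) * s ^ 2 * p ^ 2 * t ^ 4 + (257 / 256) * s ^ 3 * p * q ^ 4
      + (1166639 / 163840) * s ^ 3 * p * t * q ^ 3
      + (103737873 / 5242880) * s ^ 3 * p * t ^ 2 * q ^ 2
      + (118247917 / 5242880) * s ^ 3 * p * t ^ 3 * q
      + (745976887 / 83886080) * s ^ 3 * p * t ^ 4 + (205 / 512) * s ^ 4 * q ^ 4
      + (543079 / 163840) * s ^ 4 * t * q ^ 3
      + (359376129 / 41943040) * s ^ 4 * t ^ 2 * q ^ 2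
      + (745976887 / 83886080) * s ^ 4 * t ^ 3 * q + (136038301 / 41943040) * s ^ 4 * t ^ 4 := by
    unfold R00
    rw [h1, h2]
    ring
  rw [h]
  positivity

theorem R00_box1 (s p t q : ℝ) (hs : 0 ≤ s) (hp : 0 ≤ p) (ht : 0 ≤ t) (hq : 0 ≤ q)
    (h1 : p = 1 - s) (h2 : q = 1 - t) : 0 ≤ R00 (s / 4) (1 / 8 + t / 8) := by
  have h : R00 (s / 4) (1 / 8 + t / 8) =
      (205 / 512) * p ^ 4 * q ^ 4 + (563 / 256) * p ^ 4 * t * q ^ 3
      + (13869 / 2560) * p ^ 4 * t ^ 2 * q ^ 2 + (3737 / 640) * p ^ 4 * t ^ 3 * q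
      + (1421 / 640) * p ^ 4 * t ^ 4 + (411879 / 81920) * s * p ^ 3 * q ^ 4
      + (2457353 / 81920) * s * p ^ 3 * t * q ^ 3
      + (2675979 / 40960) * s * p ^ 3 * t ^ 2 * q ^ 2
      + (1249827 / 20480) * s * p ^ 3 * t ^ 3 * q + (211603 / 10240) * s * p ^ 3 * t ^ 4
      + (176024193 / 10485760) * s ^ 2 * p ^ 2 * q ^ 4
      + (1881093 / 20480) * s ^ 2 * p ^ 2 * t * q ^ 3
      + (240414981 / 1310720) * s ^ 2 * p ^ 2 * t ^ 2 * q ^ 2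
      + (5215911 / 32768) * s ^ 2 * p ^ 2 * t ^ 3 * q
      + (6662889 / 131072) * s ^ 2 * p ^ 2 * t ^ 4
      + (43794673 / 2097152) * s ^ 3 * p * q ^ 4
      + (27843593 / 262144) * s ^ 3 * p * t * q ^ 3
      + (52060749 / 262144) * s ^ 3 * p * t ^ 2 * q ^ 2
      + (10667123 / 65536) * s ^ 3 * p * t ^ 3 * q + (6493285 / 131072) * s ^ 3 * p * t ^ 4
      + (46118367 / 5242880) * s ^ 4 * q ^ 4 + (223403429 / 5242880) * s ^ 4 * t * q ^ 3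
      + (24932841 / 327680) * s ^ 4 * t ^ 2 * q ^ 2
      + (78299097 / 1310720) * s ^ 4 * t ^ 3 * q + (1432271 / 81920) * s ^ 4 * t ^ 4 := by
    unfold R00
    rw [h1, h2]
    ring
  rw [h]
  positivity

theorem R00_box2 (s p t q : ℝ) (hs : 0 ≤ s) (hp : 0 ≤ p) (ht : 0 ≤ t) (hq : 0 ≤ q)
    (h1 : p = 1 - s) (h2 : q = 1 - t) : 0 ≤ R00 (s / 2) (1 / 4 + t / 4) := by
  have h : R00 (s / 2) (1 / 4 + t / 4) =
      (1421 / 640) * p ^ 4 * q ^ 4 + (4789 / 320) * p ^ 4 * t * q ^ 3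
      + (23337 / 640) * p ^ 4 * t ^ 2 * q ^ 2 + (2953 / 80) * p ^ 4 * t ^ 3 * q
      + (2111 / 160) * p ^ 4 * t ^ 4 + (166131 / 5120) * s * p ^ 3 * q ^ 4
      + (982913 / 5120) * s * p ^ 3 * t * q ^ 3
      + (1053657 / 2560) * s * p ^ 3 * t ^ 2 * q ^ 2
      + (487587 / 1280) * s * p ^ 3 * t ^ 3 * q + (82477 / 640) * s * p ^ 3 * t ^ 4
      + (15183213 / 163840) * s ^ 2 * p ^ 2 * q ^ 4
      + (20516361 / 40960) * s ^ 2 * p ^ 2 * t * q ^ 3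
      + (10245891 / 10240) * s ^ 2 * p ^ 2 * t ^ 2 * q ^ 2
      + (9042267 / 10240) * s ^ 2 * p ^ 2 * t ^ 3 * q
      + (2986767 / 10240) * s ^ 2 * p ^ 2 * t ^ 4 + (2145343 / 20480) * s ^ 3 * p * q ^ 4
      + (10526359 / 20480) * s ^ 3 * p * t * q ^ 3
      + (19169607 / 20480) * s ^ 3 * p * t ^ 2 * q ^ 2
      + (1953503 / 2560) * s ^ 3 * p * t ^ 3 * q + (1223527 / 5120) * s ^ 3 * p * t ^ 4
      + (7806747 / 163840) * s ^ 4 * q ^ 4 + (1144193 / 5120) * s ^ 4 * t * q ^ 3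
      + (15837069 / 40960) * s ^ 4 * t ^ 2 * q ^ 2 + (3059907 / 10240) * s ^ 4 * t ^ 3 * q
      + (91819 / 1024) * s ^ 4 * t ^ 4 := by
    unfold R00
    rw [h1, h2]
    ring
  rw [h]
  positivity

theorem R00_box3 (s p t q : ℝ) (hs : 0 ≤ s) (hp : 0 ≤ p) (ht : 0 ≤ t) (hq : 0 ≤ q)
    (h1 : p = 1 - s) (h2 : q = 1 - t) : 0 ≤ R00 (s) (1 / 2 + t / 2) := by
  have h : R00 (s) (1 / 2 + t / 2) =
      (2111 / 160) * p ^ 4 * q ^ 4 + (169 / 2) * p ^ 4 * t * q ^ 3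
      + (31023 / 160) * p ^ 4 * t ^ 2 * q ^ 2 + (2993 / 16) * p ^ 4 * t ^ 3 * q
      + (2579 / 40) * p ^ 4 * t ^ 4 + (65589 / 320) * s * p ^ 3 * q ^ 4
      + (393977 / 320) * s * p ^ 3 * t * q ^ 3 + (217737 / 80) * s * p ^ 3 * t ^ 2 * q ^ 2
      + (52641 / 20) * s * p ^ 3 * t ^ 3 * q + (18731 / 20) * s * p ^ 3 * t ^ 4
      + (241995 / 512) * s ^ 2 * p ^ 2 * q ^ 4
      + (3501651 / 1280) * s ^ 2 * p ^ 2 * t * q ^ 3
      + (976701 / 160) * s ^ 2 * p ^ 2 * t ^ 2 * q ^ 2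
      + (2008707 / 320) * s ^ 2 * p ^ 2 * t ^ 3 * q
      + (399987 / 160) * s ^ 2 * p ^ 2 * t ^ 4 + (382459 / 1280) * s ^ 3 * p * q ^ 4
      + (786479 / 640) * s ^ 3 * p * t * q ^ 3
      + (1378293 / 640) * s ^ 3 * p * t ^ 2 * q ^ 2 + (97517 / 40) * s ^ 3 * p * t ^ 3 * q
      + (228479 / 160) * s ^ 3 * p * t ^ 4 + (1139379 / 2560) * s ^ 4 * q ^ 4
      + (607651 / 256) * s ^ 4 * t * q ^ 3 + (1594959 / 320) * s ^ 4 * t ^ 2 * q ^ 2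
      + (326295 / 64) * s ^ 4 * t ^ 3 * q + (350749 / 160) * s ^ 4 * t ^ 4 := by
    unfold R00
    rw [h1, h2]
    ring
  rw [h]
  positivity

theorem R00_nonneg_of_le {a b : ℝ} (ha0 : 0 ≤ a) (hb1 : b ≤ 1) (hab : a ≤ b) :
    0 ≤ R00 a b := by
  rcases le_total b (1 / 8) with hb | hb
  · have h := R00_box0 (8 * a) (1 - 8 * a) (8 * b) (1 - 8 * b) (by linarith) (by linarith)
      (by linarith) (by linarith) rfl rfl
    have e1 : 8 * a / 8 = a := by ring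
    have e2 : 8 * b / 8 = b := by ring
    rwa [e1, e2] at h
  rcases le_total b (1 / 4) with hb' | hb'
  · have h := R00_box1 (4 * a) (1 - 4 * a) (8 * b - 1) (1 - (8 * b - 1)) (by linarith)
      (by linarith) (by linarith) (by linarith) rfl rfl
    have e1 : 4 * a / 4 = a := by ring
    have e2 : 1 / 8 + (8 * b - 1) / 8 = b := by ring
    rwa [e1, e2] at h
  rcases le_total b (1 / 2) with hb'' | hb''
  · have h := R00_box2 (2 * a) (1 - 2 * a) (4 * b - 1) (1 - (4 * b - 1)) (by linarith)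
      (by linarith) (by linarith) (by linarith) rfl rfl
    have e1 : 2 * a / 2 = a := by ring
    have e2 : 1 / 4 + (4 * b - 1) / 4 = b := by ring
    rwa [e1, e2] at h
  · have h := R00_box3 a (1 - a) (2 * b - 1) (1 - (2 * b - 1)) (by linarith)
      (by linarith) (by linarith) (by linarith) rfl rfl
    have e2 : 1 / 2 + (2 * b - 1) / 2 = b := by ring
    rwa [e2] at h

theorem R00_nonneg {a b : ℝ} (ha0 : 0 ≤ a) (ha1 : a ≤ 1) (hb0 : 0 ≤ b) (hb1 : b ≤ 1) :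
    0 ≤ R00 a b := by
  rcases le_total a b with h | h
  · exact R00_nonneg_of_le ha0 hb1 h
  · rw [R00_symm]
    exact R00_nonneg_of_le hb0 ha1 h

theorem fin6_00 {a b : ℝ} (ha0 : 0 ≤ a) (ha1 : a ≤ 1) (hb0 : 0 ≤ b) (hb1 : b ≤ 1) :
    0 ≤ Fin6 a 0 0 b 0 0 := by
  rw [fin6_00_eq]
  have h := R00_nonneg ha0 ha1 hb0 hb1
  positivity

end Vale.Agent.P154.K4
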