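import Vale.Agent.Lib.P154.K4Defs
import Vale.Agent.Lib.P154.Bern

/-!
# `q = 4`: the final polynomial inequality on the segment `p = B = 0`, `(b, s, C) = (t², t³, 3t⁴)`
-/

namespace Vale.Agent.P154.K4

open Vale.Agent.P154.Bern

def ZAp : List (List ℤ) :=
  [[6400, -3000, 5760, 0, 0, 0, 0, 0, 0, 0, 0],
   [0, 33280, -16416, -11520, 0, 0, 0, 0, 0, 0, 0],
   [0, -38880, -64200, 15312, 6400, 0, 0, 0, 0, 0, 0],
   [0, 0, 160152, 16920, 92460, 0, 0, 0, 0, 0, 0],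
   [0, 0, 0, 429216, -257440, -172800, 0, 0, 0, 0, 0],
   [0, 0, 0, -583200, -654120, -58320, 94200, 0, 0, 0, 0],
   [0, 0, 0, 0, 1322280, 760050, 682500, 0, 0, 0, 0],
   [0, 0, 0, 0, 0, 822240, -551400, -648000, 0, 0, 0],
   [0, 0, 0, 0, 0, -2187000, -3028050, -218700, 333000, 0, 0],
   [0, 0, 0, 0, 0, 0, 3608550, 3483000, 304875, 0, 0],
   [0, 0, 0, 0, 0, 0, 0, -3936600, -1642500, 0, 0],
   [0, 0, 0, 0, 0, 0, 0, 0, 2187000, 0, -101250],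
   [0, 0, 0, 0, 0, 0, 0, 0, 0, 0, -135000]]

def ZBp : List (List ℤ) :=
  [[5760, -3000, 6400, 0, 0, 0],
   [-11520, -16416, 33280, 0, 0, 0],
   [6400, 15312, -64200, -38880, 0, 0],
   [0, 92460, 16920, 160152, 0, 0],
   [0, -172800, -257440, 429216, 0, 0],
   [0, 94200, -58320, -654120, -583200, 0],
   [0, 0, 682500, 760050, 1322280, 0],
   [0, 0, -648000, -551400, 822240, 0],
   [0, 0, 333000, -218700, -3028050, -2187000],
   [0, 0, 0, 304875, 3483000, 3608550],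
   [0, 0, 0, 0, -1642500, -3936600],
   [0, 0, 0, -101250, 0, 2187000],
   [0, 0, 0, 0, -135000, 0]]

def ZAm : List (List ℤ) :=
  [[6400, 3000, 5760, 0, 0, 0, 0, 0, 0, 0, 0],
   [0, -33280, -16416, 11520, 0, 0, 0, 0, 0, 0, 0],
   [0, 38880, -64200, -15312, 6400, 0, 0, 0, 0, 0, 0],
   [0, 0, 160152, -16920, 92460, 0, 0, 0, 0, 0, 0],
   [0, 0, 0, -429216, -257440, 172800, 0, 0, 0, 0, 0],
   [0, 0, 0, 583200, -654120, 58320, 94200, 0, 0, 0, 0],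
   [0, 0, 0, 0, 1322280, -760050, 682500, 0, 0, 0, 0],
   [0, 0, 0, 0, 0, -822240, -551400, 648000, 0, 0, 0],
   [0, 0, 0, 0, 0, 2187000, -3028050, 218700, 333000, 0, 0],
   [0, 0, 0, 0, 0, 0, 3608550, -3483000, 304875, 0, 0],
   [0, 0, 0, 0, 0, 0, 0, 3936600, -1642500, 0, 0],
   [0, 0, 0, 0, 0, 0, 0, 0, 2187000, 0, -101250],
   [0, 0, 0, 0, 0, 0, 0, 0, 0, 0, -135000]]

def ZBm : List (List ℤ) :=
  [[5760, 3000, 6400, 0, 0, 0],
   [11520, -16416, -33280, 0, 0, 0],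
   [6400, -15312, -64200, 38880, 0, 0],
   [0, 92460, -16920, 160152, 0, 0],
   [0, 172800, -257440, -429216, 0, 0],
   [0, 94200, 58320, -654120, 583200, 0],
   [0, 0, 682500, -760050, 1322280, 0],
   [0, 0, 648000, -551400, -822240, 0],
   [0, 0, 333000, 218700, -3028050, 2187000],
   [0, 0, 0, 304875, -3483000, 3608550],
   [0, 0, 0, 0, -1642500, 3936600],
   [0, 0, 0, -101250, 0, 2187000],
   [0, 0, 0, 0, -135000, 0]]

theorem ZAp_chk : chk 11 4 true ZAp = true := by decide +kernel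
theorem ZBp_chk : chk 6 6 true ZBp = true := by decide +kernel
theorem ZAm_chk : chk 11 6 true ZAm = true := by decide +kernel
theorem ZBm_chk : chk 6 6 true ZBm = true := by decide +kernel

theorem ZAp_eq (a v : ℝ) : 1600 * Fin6 a 0 0 ((a * v) ^ 2) ((a * v) ^ 3) (3 * (a * v) ^ 4)
    = (a * (a * v) ^ 2 * a ^ 2) * ev2 a v ZAp := by
  simp only [Fin6, M1, M2, M3, PhA, gh, ZAp, ev2, ev]
  push_cast
  ring

theorem ZAm_eq (a v : ℝ) : 1600 * Fin6 a 0 0 ((-(a * v)) ^ 2) ((-(a * v)) ^ 3)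
    (3 * (-(a * v)) ^ 4) = (a * (a * v) ^ 2 * a ^ 2) * ev2 a v ZAm := by
  simp only [Fin6, M1, M2, M3, PhA, gh, ZAm, ev2, ev]
  push_cast
  ring

theorem ZBp_eq (t v : ℝ) : 1600 * Fin6 (t * v) 0 0 (t ^ 2) (t ^ 3) (3 * t ^ 4)
    = ((t * v) * t ^ 2 * t ^ 2) * ev2 t v ZBp := by
  simp only [Fin6, M1, M2, M3, PhA, gh, ZBp, ev2, ev]
  push_cast
  ring

theorem ZBm_eq (t v : ℝ) : 1600 * Fin6 (t * v) 0 0 ((-t) ^ 2) ((-t) ^ 3) (3 * (-t) ^ 4)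
    = ((t * v) * t ^ 2 * t ^ 2) * ev2 t v ZBm := by
  simp only [Fin6, M1, M2, M3, PhA, gh, ZBm, ev2, ev]
  push_cast
  ring

theorem fin6_0p_pos {a t : ℝ} (ha0 : 0 < a) (ha1 : a ≤ 1) (ht0 : 0 < t) (ht1 : t ≤ 1) :
    0 ≤ Fin6 a 0 0 (t ^ 2) (t ^ 3) (3 * t ^ 4) := by
  rcases le_total t a with h | h
  · have hv0 : 0 < t / a := by positivity
    have hv1 : t / a ≤ 1 := (div_le_one ha0).mpr h
    have h1 := chk_sound 11 4 true ZAp ZAp_chk a (t / a) ha0 ha1 hv0 hv1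
    have h2 := ZAp_eq a (t / a)
    rw [mul_div_cancel₀ t ha0.ne'] at h2
    have h3 : 0 ≤ 1600 * Fin6 a 0 0 (t ^ 2) (t ^ 3) (3 * t ^ 4) := by rw [h2]; positivity
    linarith
  · have hv0 : 0 < a / t := by positivity
    have hv1 : a / t ≤ 1 := (div_le_one ht0).mpr h
    have h1 := chk_sound 6 6 true ZBp ZBp_chk t (a / t) ht0 ht1 hv0 hv1
    have h2 := ZBp_eq t (a / t)
    rw [mul_div_cancel₀ a ht0.ne'] at h2
    have h3 : 0 ≤ 1600 * Fin6 a 0 0 (t ^ 2) (t ^ 3) (3 * t ^ 4) := by rw [h2]; positivity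
    linarith

theorem fin6_0p_neg {a t : ℝ} (ha0 : 0 < a) (ha1 : a ≤ 1) (ht0 : 0 < t) (ht1 : t ≤ 1) :
    0 ≤ Fin6 a 0 0 ((-t) ^ 2) ((-t) ^ 3) (3 * (-t) ^ 4) := by
  rcases le_total t a with h | h
  · have hv0 : 0 < t / a := by positivity
    have hv1 : t / a ≤ 1 := (div_le_one ha0).mpr h
    have h1 := chk_sound 11 6 true ZAm ZAm_chk a (t / a) ha0 ha1 hv0 hv1
    have h2 := ZAm_eq a (t / a)
    rw [mul_div_cancel₀ t ha0.ne'] at h2
    have h3 : 0 ≤ 1600 * Fin6 a 0 0 ((-t) ^ 2) ((-t) ^ 3) (3 * (-t) ^ 4) := by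
      rw [h2]; positivity
    linarith
  · have hv0 : 0 < a / t := by positivity
    have hv1 : a / t ≤ 1 := (div_le_one ht0).mpr h
    have h1 := chk_sound 6 6 true ZBm ZBm_chk t (a / t) ht0 ht1 hv0 hv1
    have h2 := ZBm_eq t (a / t)
    rw [mul_div_cancel₀ a ht0.ne'] at h2
    have h3 : 0 ≤ 1600 * Fin6 a 0 0 ((-t) ^ 2) ((-t) ^ 3) (3 * (-t) ^ 4) := by
      rw [h2]; positivity
    linarith

theorem fin6_0p {a t : ℝ} (ha0 : 0 ≤ a) (ha1 : a ≤ 1) (ht0 : -1 ≤ t) (ht1 : t ≤ 1) :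
    0 ≤ Fin6 a 0 0 (t ^ 2) (t ^ 3) (3 * t ^ 4) := by
  rcases ha0.eq_or_lt with rfl | ha
  · simp [Fin6, M1, M2, M3, PhA, gh]
  rcases lt_trichotomy t 0 with ht | rfl | ht
  · have := fin6_0p_neg ha ha1 (t := -t) (by linarith) (by linarith)
    simpa using this
  · simp [Fin6, M1, M2, M3, PhA, gh]
  · exact fin6_0p_pos ha ha1 ht ht1

end Vale.Agent.P154.K4
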