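import Vale.Agent.Lib.P154.K4Defs
import Vale.Agent.Lib.P154.BoxPosFast

/-!
# `q = 4`: the final polynomial inequality at the vertices `p = ± a^(3/2)`, `B = 3 a^2`

Put `t = r * v` with `|v| ≤ 1` and check positivity on the four sign boxes with `BoxPos`.
-/

namespace Vale.Agent.P154.K4

open Vale.Agent.Lib.P154.BoxPos

/-- `20 * PhA (r^2) (r^3) (3 r^4)` -/
def exPh (r : Ex) : Ex :=
  .sub (.sub (.mul (.add (.c 20) (.mul (.c 36) (.pow r 2))) (.pow r 3))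
    (.mul (.add (.c 15) (.mul (.c 20) (.pow r 2))) (.pow r 4))) (.mul (.c 18) (.pow r 4))

/-- `20 * gh (r^2) (r^3) (3 r^4)` -/
def exG (r : Ex) : Ex :=
  .sub (.sub (.mul (.pow r 2) (.add (.sub (.add (.c 80) (.mul (.c 27) (.pow r 2)))
      (.mul (.c 430) (.pow r 4))) (.mul (.c 486) (.pow r 6))))
    (.mul (.c 14) (.pow r 3)))
    (.mul (.add (.sub (.c 40) (.mul (.c 165) (.pow r 2))) (.mul (.c 172) (.pow r 4)))
      (.mul (.c 3) (.pow r 4)))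

/-- `a * b` -/
def exAB (r t : Ex) : Ex := .mul (.pow r 2) (.pow t 2)

/-- `M1` -/
def exM1 (r t : Ex) : Ex :=
  .mul (.c 4) (.mul (.sub (.pow r 2) (.pow r 3)) (.sub (.pow t 2) (.pow t 3)))

/-- `M2` -/
def exM2 (r t : Ex) : Ex :=
  .add (.mul (.c 3) (.mul (exAB r t) (.mul (.sub (.c 1) (.pow r 2)) (.sub (.c 1) (.pow t 2)))))
    (.mul (.c 8) (.mul (.sub (.pow r 4) (.pow r 3)) (.sub (.pow t 4) (.pow t 3))))

/-- `M3` -/
def exM3 (r t : Ex) : Ex :=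
  .add (.mul (.c 6) (.mul (.mul (.pow r 3) (.pow t 3))
      (.mul (.sub (.c 1) (.pow r 2)) (.sub (.c 1) (.pow t 2)))))
    (.mul (.c 28) (.mul (exAB r t) (.mul (.sub (.pow r 2) (.pow r 3))
      (.sub (.pow t 2) (.pow t 3)))))

/-- `1600 * Fin6` -/
def exF (r t : Ex) : Ex :=
  .sub (.add (.mul (.pow (.add (.c 2) (.mul (.c 15) (exAB r t))) 2)
      (.sub (.sub (.sub (.mul (.c 400) (exAB r t)) (.mul (.c 400) (exM1 r t)))
        (.mul (exPh r) (exG t))) (.mul (exPh t) (exG r))))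
    (.mul (.c 1600) (.mul (.add (.c 1) (.mul (.c 15) (exAB r t))) (exM2 r t))))
    (.mul (.c 1600) (exM3 r t))

theorem exF_den (r t : Ex) (x : ℕ → ℝ) : (exF r t).den x
    = 1600 * Fin6 (r.den x ^ 2) (r.den x ^ 3) (3 * r.den x ^ 4)
      (t.den x ^ 2) (t.den x ^ 3) (3 * t.den x ^ 4) := by
  simp only [exF, exPh, exG, exAB, exM1, exM2, exM3, Ex.den, Fin6, M1, M2, M3, PhA, gh]
  push_cast
  ring

theorem fin6_box (s s' : ℤ) (T : Tree)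
    (h : (T.ok 2 && (exF (.mul (.c s) (.v 0)) (.mul (.mul (.c s) (.v 0))
      (.mul (.c s') (.v 1)))).vok 2 && qchk 2 [23, 13] T ((exF (.mul (.c s) (.v 0))
      (.mul (.mul (.c s) (.v 0)) (.mul (.c s') (.v 1)))).toP 2)) = true)
    {r v : ℝ} (hr0 : 0 ≤ r) (hr1 : r ≤ 1) (hv0 : 0 ≤ v) (hv1 : v ≤ 1) :
    0 ≤ Fin6 ((s * r) ^ 2) ((s * r) ^ 3) (3 * (s * r) ^ 4)
      ((s * r * (s' * v)) ^ 2) ((s * r * (s' * v)) ^ 3) (3 * (s * r * (s' * v)) ^ 4) := by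
  have key := qchk_sound_expr 2 [23, 13] T _ h (fun i => if i = 0 then r else v)
    (by intro i; show 0 ≤ if i = 0 then r else v; split_ifs <;> assumption)
    (by intro i; show (if i = 0 then r else v) ≤ 1; split_ifs <;> assumption)
  rw [exF_den] at key
  simp only [Ex.den, if_true, one_ne_zero, if_false] at key
  linarith

theorem fin6_box1 {r v : ℝ} (hr0 : 0 ≤ r) (hr1 : r ≤ 1) (hv0 : 0 ≤ v) (hv1 : v ≤ 1) :
    0 ≤ Fin6 (r ^ 2) (r ^ 3) (3 * r ^ 4) ((r * v) ^ 2) ((r * v) ^ 3) (3 * (r * v) ^ 4) := by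
  have := fin6_box 1 1 (.node 0 .leaf .leaf) (by decide +kernel) hr0 hr1 hv0 hv1
  simpa using this

theorem fin6_box2 {r v : ℝ} (hr0 : 0 ≤ r) (hr1 : r ≤ 1) (hv0 : 0 ≤ v) (hv1 : v ≤ 1) :
    0 ≤ Fin6 (r ^ 2) (r ^ 3) (3 * r ^ 4) ((r * -v) ^ 2) ((r * -v) ^ 3) (3 * (r * -v) ^ 4) := by
  have := fin6_box 1 (-1) (.node 0 .leaf (.node 1 .leaf (.node 0 .leaf .leaf)))
    (by decide +kernel) hr0 hr1 hv0 hv1
  simpa using this

theorem fin6_box3 {r v : ℝ} (hr0 : 0 ≤ r) (hr1 : r ≤ 1) (hv0 : 0 ≤ v) (hv1 : v ≤ 1) :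
    0 ≤ Fin6 ((-r) ^ 2) ((-r) ^ 3) (3 * (-r) ^ 4) ((-r * v) ^ 2) ((-r * v) ^ 3)
      (3 * (-r * v) ^ 4) := by
  have := fin6_box (-1) 1 .leaf (by decide +kernel) hr0 hr1 hv0 hv1
  simpa using this

theorem fin6_box4 {r v : ℝ} (hr0 : 0 ≤ r) (hr1 : r ≤ 1) (hv0 : 0 ≤ v) (hv1 : v ≤ 1) :
    0 ≤ Fin6 ((-r) ^ 2) ((-r) ^ 3) (3 * (-r) ^ 4) ((-r * -v) ^ 2) ((-r * -v) ^ 3)
      (3 * (-r * -v) ^ 4) := by
  have := fin6_box (-1) (-1) (.node 0 .leaf .leaf) (by decide +kernel) hr0 hr1 hv0 hv1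
  simpa using this

theorem fin6_sym (a p B b s C : ℝ) : Fin6 a p B b s C = Fin6 b s C a p B := by
  unfold Fin6 M1 M2 M3
  ring

theorem fin6_pp_le {r t : ℝ} (hr0 : -1 ≤ r) (hr1 : r ≤ 1) (htr : |t| ≤ |r|) :
    0 ≤ Fin6 (r ^ 2) (r ^ 3) (3 * r ^ 4) (t ^ 2) (t ^ 3) (3 * t ^ 4) := by
  rcases eq_or_ne r 0 with h0 | h0
  · rw [h0, abs_zero] at htr
    have ht : t = 0 := abs_nonpos_iff.1 htr
    rw [h0, ht]
    unfold Fin6 M1 M2 M3 PhA gh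
    norm_num
  · obtain ⟨v, hv⟩ : ∃ v, t = r * v := ⟨t / r, by field_simp⟩
    have hv1 : |v| ≤ 1 := by
      rw [hv, abs_mul] at htr
      have : 0 < |r| := abs_pos.2 h0
      by_contra hcon
      push Not at hcon
      nlinarith
    rw [abs_le] at hv1
    rw [hv]
    rcases le_total 0 r with hr | hr <;> rcases le_total 0 v with hv' | hv'
    · exact fin6_box1 hr hr1 hv' hv1.2
    · have := fin6_box2 (r := r) (v := -v) hr hr1 (by linarith) (by linarith)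
      rwa [neg_neg] at this
    · have := fin6_box3 (r := -r) (v := v) (by linarith) (by linarith) hv' hv1.2
      rwa [neg_neg] at this
    · have := fin6_box4 (r := -r) (v := -v) (by linarith) (by linarith) (by linarith) (by linarith)
      rwa [neg_neg, neg_neg] at this

theorem fin6_pp {r t : ℝ} (hr0 : -1 ≤ r) (hr1 : r ≤ 1) (ht0 : -1 ≤ t) (ht1 : t ≤ 1) :
    0 ≤ Fin6 (r ^ 2) (r ^ 3) (3 * r ^ 4) (t ^ 2) (t ^ 3) (3 * t ^ 4) := by
  rcases le_total |t| |r| with h | h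
  · exact fin6_pp_le hr0 hr1 h
  · rw [fin6_sym]
    exact fin6_pp_le ht0 ht1 h

end Vale.Agent.P154.K4
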