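import Vale.Agent.Lib.P154.K4Red
import Vale.Agent.Lib.P154.K4V00
import Vale.Agent.Lib.P154.K4V0p
import Vale.Agent.Lib.P154.K4Vpp

/-!
# `q = 4`: the final polynomial inequality
-/

namespace Vale.Agent.P154.K4

/-- bi-affine reduction to the vertices of the triangles -/
theorem fin6_nonneg {a p B b s C : ℝ} (ha0 : 0 ≤ a) (ha1 : a ≤ 1) (hB0 : 0 ≤ B)
    (hB : B ≤ 3 * a ^ 2) (hp : 9 * a * p ^ 2 ≤ B ^ 2) (hpa : p ^ 2 ≤ a ^ 3) (hb0 : 0 ≤ b)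
    (hb1 : b ≤ 1) (hC0 : 0 ≤ C) (hC : C ≤ 3 * b ^ 2) (hs : 9 * b * s ^ 2 ≤ C ^ 2)
    (hsb : s ^ 2 ≤ b ^ 3) : 0 ≤ Fin6 a p B b s C :=
  fin6_nonneg_of fin6_00 fin6_0p fin6_pp ha0 ha1 hB0 hB hp hpa hb0 hb1 hC0 hC hs hsb

end Vale.Agent.P154.K4
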