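import Vale.Agent.Lib.P154.K4T
import Vale.Agent.Lib.P154.K4B
import Vale.Agent.Lib.P154.K4S
import Vale.Agent.Lib.P154.K4A1
import Vale.Agent.Lib.P154.K4G
import Vale.Agent.Lib.P154.K4V
import Vale.Agent.Lib.P154.K4Frame

/-!
# The certificate for `q = 4`, `0 ≤ lam ≤ 1`
-/

open scoped BigOperators

namespace Vale.Agent.P154.K4

theorem mass_eq (w : Fin 4 → ℝ) : mass w = massT (w 0) (w 1) (w 2) (w 3) := by
  unfold mass massT
  simp only [Fin.sum_univ_four]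
  norm_num

theorem chi_eq (w : Fin 4 → ℝ) : chi w = chiT (w 0) (w 1) (w 2) (w 3) := by
  unfold chi chiT
  simp only [Fin.sum_univ_four]
  norm_num

/-- `chi` summed over the permutations, in Hadamard coordinates -/
theorem sum_chi_eq {w w' : Fin 4 → ℝ} (h : w 0 + w 1 + w 2 + w 3 = 4)
    (h' : w' 0 + w' 1 + w' 2 + w' 3 = 4) {x1 x2 x3 y1 y2 y3 : ℝ}
    (hx1 : x1 = H1 (w 0) (w 1) (w 2) (w 3)) (hx2 : x2 = H2 (w 0) (w 1) (w 2) (w 3))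
    (hx3 : x3 = H3 (w 0) (w 1) (w 2) (w 3))
    (hy1 : y1 = H1 (w' 0) (w' 1) (w' 2) (w' 3)) (hy2 : y2 = H2 (w' 0) (w' 1) (w' 2) (w' 3))
    (hy3 : y3 = H3 (w' 0) (w' 1) (w' 2) (w' 3)) :
    ∑ s : Equiv.Perm (Fin 4), chi (fun i => w i * w' (s i)) =
    (tm x1 x2 x3 y1 y2 y3 + tm x1 x2 x3 y1 (-y2) (-y3) + tm x1 x2 x3 (-y1) y2 (-y3)
      + tm x1 x2 x3 (-y1) (-y2) y3)
    + (tm x1 x2 x3 y1 y3 y2 + tm x1 x2 x3 y1 (-y3) (-y2) + tm x1 x2 x3 (-y1) y3 (-y2)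
      + tm x1 x2 x3 (-y1) (-y3) y2)
    + (tm x1 x2 x3 y2 y1 y3 + tm x1 x2 x3 y2 (-y1) (-y3) + tm x1 x2 x3 (-y2) y1 (-y3)
      + tm x1 x2 x3 (-y2) (-y1) y3)
    + (tm x1 x2 x3 y2 y3 y1 + tm x1 x2 x3 y2 (-y3) (-y1) + tm x1 x2 x3 (-y2) y3 (-y1)
      + tm x1 x2 x3 (-y2) (-y3) y1)
    + (tm x1 x2 x3 y3 y1 y2 + tm x1 x2 x3 y3 (-y1) (-y2) + tm x1 x2 x3 (-y3) y1 (-y2)
      + tm x1 x2 x3 (-y3) (-y1) y2)
    + (tm x1 x2 x3 y3 y2 y1 + tm x1 x2 x3 y3 (-y2) (-y1) + tm x1 x2 x3 (-y3) y2 (-y1)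
      + tm x1 x2 x3 (-y3) (-y2) y1) := by
  have e0 : (fun s : Equiv.Perm (Fin 4) => chi (fun i => w i * w' (s i))) =
      fun s => (fun i j k l : Fin 4 =>
        chiT (w 0 * w' i) (w 1 * w' j) (w 2 * w' k) (w 3 * w' l)) (s 0) (s 1) (s 2) (s 3) := by
    funext s
    rw [chi_eq]
  have w0 : w 0 = 1 + x1 + x2 + x3 := by
    rw [hx1, hx2, hx3]; unfold H1 H2 H3; linarith
  have w1 : w 1 = 1 + x1 - x2 - x3 := by
    rw [hx1, hx2, hx3]; unfold H1 H2 H3; linarith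
  have w2 : w 2 = 1 - x1 + x2 - x3 := by
    rw [hx1, hx2, hx3]; unfold H1 H2 H3; linarith
  have w3 : w 3 = 1 - x1 - x2 + x3 := by
    rw [hx1, hx2, hx3]; unfold H1 H2 H3; linarith
  have v0 : w' 0 = 1 + y1 + y2 + y3 := by
    rw [hy1, hy2, hy3]; unfold H1 H2 H3; linarith
  have v1 : w' 1 = 1 + y1 - y2 - y3 := by
    rw [hy1, hy2, hy3]; unfold H1 H2 H3; linarith
  have v2 : w' 2 = 1 - y1 + y2 - y3 := by
    rw [hy1, hy2, hy3]; unfold H1 H2 H3; linarith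
  have v3 : w' 3 = 1 - y1 - y2 + y3 := by
    rw [hy1, hy2, hy3]; unfold H1 H2 H3; linarith
  rw [e0, sum_perm4 (fun i j k l : Fin 4 =>
    chiT (w 0 * w' i) (w 1 * w' j) (w 2 * w' k) (w 3 * w' l))]
  simp only [w0, w1, w2, w3, v0, v1, v2, v3]
  have T : ∀ a b c a1 a2 a3 b1 b2 b3 b4 : ℝ, b1 = 1 + a1 + a2 + a3 → b2 = 1 + a1 - a2 - a3 →
      b3 = 1 - a1 + a2 - a3 → b4 = 1 - a1 - a2 + a3 →
      chiT ((1 + a + b + c) * b1) ((1 + a - b - c) * b2) ((1 - a + b - c) * b3)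
        ((1 - a - b + c) * b4) = tm a b c a1 a2 a3 := by
    intro a b c a1 a2 a3 b1 b2 b3 b4 h1 h2 h3 h4
    rw [h1, h2, h3, h4]
    rfl
  rw [T x1 x2 x3 y1 y2 y3 (1 + y1 + y2 + y3) (1 + y1 - y2 - y3) (1 - y1 + y2 - y3) (1 - y1 - y2 + y3) (by ring) (by ring) (by ring) (by ring)]
  rw [T x1 x2 x3 y1 (-y2) (-y3) (1 + y1 - y2 - y3) (1 + y1 + y2 + y3) (1 - y1 - y2 + y3) (1 - y1 + y2 - y3) (by ring) (by ring) (by ring) (by ring)]
  rw [T x1 x2 x3 (-y1) y2 (-y3) (1 - y1 + y2 - y3) (1 - y1 - y2 + y3) (1 + y1 + y2 + y3) (1 + y1 - y2 - y3) (by ring) (by ring) (by ring) (by ring)]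
  rw [T x1 x2 x3 (-y1) (-y2) y3 (1 - y1 - y2 + y3) (1 - y1 + y2 - y3) (1 + y1 - y2 - y3) (1 + y1 + y2 + y3) (by ring) (by ring) (by ring) (by ring)]
  rw [T x1 x2 x3 y1 y3 y2 (1 + y1 + y2 + y3) (1 + y1 - y2 - y3) (1 - y1 - y2 + y3) (1 - y1 + y2 - y3) (by ring) (by ring) (by ring) (by ring)]
  rw [T x1 x2 x3 y1 (-y3) (-y2) (1 + y1 - y2 - y3) (1 + y1 + y2 + y3) (1 - y1 + y2 - y3) (1 - y1 - y2 + y3) (by ring) (by ring) (by ring) (by ring)]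
  rw [T x1 x2 x3 (-y1) (-y3) y2 (1 - y1 + y2 - y3) (1 - y1 - y2 + y3) (1 + y1 - y2 - y3) (1 + y1 + y2 + y3) (by ring) (by ring) (by ring) (by ring)]
  rw [T x1 x2 x3 (-y1) y3 (-y2) (1 - y1 - y2 + y3) (1 - y1 + y2 - y3) (1 + y1 + y2 + y3) (1 + y1 - y2 - y3) (by ring) (by ring) (by ring) (by ring)]
  rw [T x1 x2 x3 y2 y1 y3 (1 + y1 + y2 + y3) (1 - y1 + y2 - y3) (1 + y1 - y2 - y3) (1 - y1 - y2 + y3) (by ring) (by ring) (by ring) (by ring)]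
  rw [T x1 x2 x3 (-y2) y1 (-y3) (1 + y1 - y2 - y3) (1 - y1 - y2 + y3) (1 + y1 + y2 + y3) (1 - y1 + y2 - y3) (by ring) (by ring) (by ring) (by ring)]
  rw [T x1 x2 x3 y2 (-y1) (-y3) (1 - y1 + y2 - y3) (1 + y1 + y2 + y3) (1 - y1 - y2 + y3) (1 + y1 - y2 - y3) (by ring) (by ring) (by ring) (by ring)]
  rw [T x1 x2 x3 (-y2) (-y1) y3 (1 - y1 - y2 + y3) (1 + y1 - y2 - y3) (1 - y1 + y2 - y3) (1 + y1 + y2 + y3) (by ring) (by ring) (by ring) (by ring)]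
  rw [T x1 x2 x3 y2 y3 y1 (1 + y1 + y2 + y3) (1 - y1 + y2 - y3) (1 - y1 - y2 + y3) (1 + y1 - y2 - y3) (by ring) (by ring) (by ring) (by ring)]
  rw [T x1 x2 x3 (-y2) (-y3) y1 (1 + y1 - y2 - y3) (1 - y1 - y2 + y3) (1 - y1 + y2 - y3) (1 + y1 + y2 + y3) (by ring) (by ring) (by ring) (by ring)]
  rw [T x1 x2 x3 y2 (-y3) (-y1) (1 - y1 + y2 - y3) (1 + y1 + y2 + y3) (1 + y1 - y2 - y3) (1 - y1 - y2 + y3) (by ring) (by ring) (by ring) (by ring)]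
  rw [T x1 x2 x3 (-y2) y3 (-y1) (1 - y1 - y2 + y3) (1 + y1 - y2 - y3) (1 + y1 + y2 + y3) (1 - y1 + y2 - y3) (by ring) (by ring) (by ring) (by ring)]
  rw [T x1 x2 x3 y3 y1 y2 (1 + y1 + y2 + y3) (1 - y1 - y2 + y3) (1 + y1 - y2 - y3) (1 - y1 + y2 - y3) (by ring) (by ring) (by ring) (by ring)]
  rw [T x1 x2 x3 (-y3) y1 (-y2) (1 + y1 - y2 - y3) (1 - y1 + y2 - y3) (1 + y1 + y2 + y3) (1 - y1 - y2 + y3) (by ring) (by ring) (by ring) (by ring)]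
  rw [T x1 x2 x3 (-y3) (-y1) y2 (1 - y1 + y2 - y3) (1 + y1 - y2 - y3) (1 - y1 - y2 + y3) (1 + y1 + y2 + y3) (by ring) (by ring) (by ring) (by ring)]
  rw [T x1 x2 x3 y3 (-y1) (-y2) (1 - y1 - y2 + y3) (1 + y1 + y2 + y3) (1 - y1 + y2 - y3) (1 + y1 - y2 - y3) (by ring) (by ring) (by ring) (by ring)]
  rw [T x1 x2 x3 y3 y2 y1 (1 + y1 + y2 + y3) (1 - y1 - y2 + y3) (1 - y1 + y2 - y3) (1 + y1 - y2 - y3) (by ring) (by ring) (by ring) (by ring)]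
  rw [T x1 x2 x3 (-y3) (-y2) y1 (1 + y1 - y2 - y3) (1 - y1 + y2 - y3) (1 - y1 - y2 + y3) (1 + y1 + y2 + y3) (by ring) (by ring) (by ring) (by ring)]
  rw [T x1 x2 x3 (-y3) y2 (-y1) (1 - y1 + y2 - y3) (1 + y1 - y2 - y3) (1 + y1 + y2 + y3) (1 - y1 - y2 + y3) (by ring) (by ring) (by ring) (by ring)]
  rw [T x1 x2 x3 y3 (-y2) (-y1) (1 - y1 - y2 + y3) (1 + y1 + y2 + y3) (1 + y1 - y2 - y3) (1 - y1 + y2 - y3) (by ring) (by ring) (by ring) (by ring)]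
  ring

/-! ### Homogeneity -/

theorem mass_smul {t : ℝ} (u : Fin 4 → ℝ) : mass (fun i => t * u i) = t * mass u := by
  simp only [mass_eq, massT]
  ring

theorem chi_smul {t : ℝ} (ht : t ≠ 0) (u : Fin 4 → ℝ) :
    chi (fun i => t * u i) = t * chi u := by
  simp only [chi_eq, chiT]
  have e1 : t * u 0 + t * u 1 + t * u 2 + t * u 3 = t * (u 0 + u 1 + u 2 + u 3) := by ring
  have e2 : 4 * ((t * u 0) ^ 2 + (t * u 1) ^ 2 + (t * u 2) ^ 2 + (t * u 3) ^ 2)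
      = t * (t * (4 * (u 0 ^ 2 + u 1 ^ 2 + u 2 ^ 2 + u 3 ^ 2))) := by ring
  rw [e1, e2, mul_div_mul_left _ _ ht]
  ring

theorem kap_smul {t : ℝ} (ht : 0 ≤ t) (u : Fin 4 → ℝ) :
    kap (fun i => t * u i) = t * kap u := by
  simp only [kap, kapT]
  have e : ∀ a b : ℝ, √(t * a * (t * b)) = t * √(a * b) := by
    intro a b
    have : t * a * (t * b) = t ^ 2 * (a * b) := by ring
    rw [this, Real.sqrt_mul (sq_nonneg t), Real.sqrt_sq ht]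
  rw [e, e, e, e, e, e]
  ring

theorem g4_smul {t : ℝ} (ht : t ≠ 0) (u : Fin 4 → ℝ) :
    g4 (fun i => t * u i) = t * g4 u := by
  simp only [g4, gT]
  have e1 : massT (t * u 0) (t * u 1) (t * u 2) (t * u 3) = t * massT (u 0) (u 1) (u 2) (u 3) := by
    unfold massT; ring
  have e2 : aT (t * u 0) (t * u 1) (t * u 2) (t * u 3) = t ^ 2 * aT (u 0) (u 1) (u 2) (u 3) := by
    unfold aT H1 H2 H3; ring
  have e3 : pT (t * u 0) (t * u 1) (t * u 2) (t * u 3) = t ^ 3 * pT (u 0) (u 1) (u 2) (u 3) := by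
    unfold pT H1 H2 H3; ring
  have e4 : bT (t * u 0) (t * u 1) (t * u 2) (t * u 3) = t ^ 4 * bT (u 0) (u 1) (u 2) (u 3) := by
    unfold bT H1 H2 H3; ring
  rw [e1, e2, e3, e4, mul_pow, mul_pow, mul_pow, mul_div_mul_left _ _ (pow_ne_zero 2 ht),
    mul_div_mul_left _ _ (pow_ne_zero 3 ht), mul_div_mul_left _ _ (pow_ne_zero 4 ht)]
  ring

theorem zero_of_sum {w : Fin 4 → ℝ} (hw : ∀ i, 0 ≤ w i) (h : w 0 + w 1 + w 2 + w 3 = 0) :
    w = fun _ => 0 := by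
  have h0 := hw 0
  have h1 := hw 1
  have h2 := hw 2
  have h3 := hw 3
  funext i
  fin_cases i
  · show w 0 = 0
    linarith
  · show w 1 = 0
    linarith
  · show w 2 = 0
    linarith
  · show w 3 = 0
    linarith

theorem chi_zero : chi (fun _ : Fin 4 => (0 : ℝ)) = 0 := by
  rw [chi_eq, chiT]; norm_num

theorem kap_zero : kap (fun _ : Fin 4 => (0 : ℝ)) = 0 := by
  simp [kap, kapT]

theorem mass_zero : mass (fun _ : Fin 4 => (0 : ℝ)) = 0 := by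
  rw [mass_eq, massT]; norm_num

theorem g4_zero : g4 (fun _ : Fin 4 => (0 : ℝ)) = 0 := by
  simp [g4, gT, massT]

/-- normalisation -/
theorem exists_norm {w : Fin 4 → ℝ} (hw : ∀ i, 0 ≤ w i) (h : w 0 + w 1 + w 2 + w 3 ≠ 0) :
    ∃ t : ℝ, ∃ u : Fin 4 → ℝ, 0 < t ∧ (∀ i, 0 ≤ u i) ∧ u 0 + u 1 + u 2 + u 3 = 4 ∧
      w = fun i => t * u i := by
  have hS : 0 < w 0 + w 1 + w 2 + w 3 :=
    lt_of_le_of_ne (add_nonneg (add_nonneg (add_nonneg (hw 0) (hw 1)) (hw 2)) (hw 3)) (Ne.symm h)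
  refine ⟨(w 0 + w 1 + w 2 + w 3) / 4, fun i => w i / ((w 0 + w 1 + w 2 + w 3) / 4), by positivity,
    fun i => div_nonneg (hw i) (by positivity), ?_, ?_⟩
  · field_simp
  · funext i
    field_simp

/-! ### The normalised product inequality -/

theorem prodA_norm {w w' : Fin 4 → ℝ} (hw : ∀ i, 0 ≤ w i) (hw' : ∀ i, 0 ≤ w' i)
    (h : w 0 + w 1 + w 2 + w 3 = 4) (h' : w' 0 + w' 1 + w' 2 + w' 3 = 4) :
    ∑ s : Equiv.Perm (Fin 4), chi (fun i => w i * w' (s i)) ≤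
      24 * (chi w * (1 - g4 w') + kap w * g4 w' + chi w' * (1 - g4 w) + kap w' * g4 w) := by
  have m1 : massT (w 0) (w 1) (w 2) (w 3) = 1 := by unfold massT; rw [h]; norm_num
  have m1' : massT (w' 0) (w' 1) (w' 2) (w' 3) = 1 := by unfold massT; rw [h']; norm_num
  have F1 := phi_le (hw 0) (hw 1) (hw 2) (hw 3) h
  have F2 := phi_le (hw' 0) (hw' 1) (hw' 2) (hw' 3) h'
  have cA := chiT_eq h
  have cB := chiT_eq h'
  have w0 : 0 ≤ 1 + H1 (w 0) (w 1) (w 2) (w 3) + H2 (w 0) (w 1) (w 2) (w 3)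
      + H3 (w 0) (w 1) (w 2) (w 3) := by
    have := hw 0
    unfold H1 H2 H3; linarith
  have w1 : 0 ≤ 1 + H1 (w 0) (w 1) (w 2) (w 3) - H2 (w 0) (w 1) (w 2) (w 3)
      - H3 (w 0) (w 1) (w 2) (w 3) := by
    have := hw 1
    unfold H1 H2 H3; linarith
  have w2 : 0 ≤ 1 - H1 (w 0) (w 1) (w 2) (w 3) + H2 (w 0) (w 1) (w 2) (w 3)
      - H3 (w 0) (w 1) (w 2) (w 3) := by
    have := hw 2
    unfold H1 H2 H3; linarith
  have w3 : 0 ≤ 1 - H1 (w 0) (w 1) (w 2) (w 3) - H2 (w 0) (w 1) (w 2) (w 3)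
      + H3 (w 0) (w 1) (w 2) (w 3) := by
    have := hw 3
    unfold H1 H2 H3; linarith
  have v0 : 0 ≤ 1 + H1 (w' 0) (w' 1) (w' 2) (w' 3) + H2 (w' 0) (w' 1) (w' 2) (w' 3)
      + H3 (w' 0) (w' 1) (w' 2) (w' 3) := by
    have := hw' 0
    unfold H1 H2 H3; linarith
  have v1 : 0 ≤ 1 + H1 (w' 0) (w' 1) (w' 2) (w' 3) - H2 (w' 0) (w' 1) (w' 2) (w' 3)
      - H3 (w' 0) (w' 1) (w' 2) (w' 3) := by
    have := hw' 1
    unfold H1 H2 H3; linarith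
  have v2 : 0 ≤ 1 - H1 (w' 0) (w' 1) (w' 2) (w' 3) + H2 (w' 0) (w' 1) (w' 2) (w' 3)
      - H3 (w' 0) (w' 1) (w' 2) (w' 3) := by
    have := hw' 2
    unfold H1 H2 H3; linarith
  have v3 : 0 ≤ 1 - H1 (w' 0) (w' 1) (w' 2) (w' 3) - H2 (w' 0) (w' 1) (w' 2) (w' 3)
      + H3 (w' 0) (w' 1) (w' 2) (w' 3) := by
    have := hw' 3
    unfold H1 H2 H3; linarith
  have ha0 := aT_nonneg (w 0) (w 1) (w 2) (w 3)
  have ha1 := aT_le_one (hw 0) (hw 1) (hw 2) (hw 3) h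
  have hB0 := bT_nonneg (w 0) (w 1) (w 2) (w 3)
  have hB := bT_le (w 0) (w 1) (w 2) (w 3)
  have hp := pT_sq_le (w 0) (w 1) (w 2) (w 3)
  have hpa := pT_sq_le_cube (w 0) (w 1) (w 2) (w 3)
  have hb0 := aT_nonneg (w' 0) (w' 1) (w' 2) (w' 3)
  have hb1 := aT_le_one (hw' 0) (hw' 1) (hw' 2) (hw' 3) h'
  have hC0 := bT_nonneg (w' 0) (w' 1) (w' 2) (w' 3)
  have hC := bT_le (w' 0) (w' 1) (w' 2) (w' 3)
  have hs := pT_sq_le (w' 0) (w' 1) (w' 2) (w' 3)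
  have hsb := pT_sq_le_cube (w' 0) (w' 1) (w' 2) (w' 3)
  have hF := fin6_nonneg ha0 ha1 hB0 hB hp hpa hb0 hb1 hC0 hC hs hsb
  have hg := le_trans (mul_nonneg (by norm_num) ha0) (gh_lower ha0 ha1 hB0 hB hp hpa)
  have hg' := le_trans (mul_nonneg (by norm_num) hb0) (gh_lower hb0 hb1 hC0 hC hs hsb)
  have hS := tmS_le (1 / (1 + 15 / 2 * (aT (w 0) (w 1) (w 2) (w 3) * aT (w' 0) (w' 1) (w' 2) (w' 3))))
    w0 w1 w2 w3 v0 v1 v2 v3 (a := aT (w 0) (w 1) (w 2) (w 3)) (p := pT (w 0) (w 1) (w 2) (w 3))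
    (B := bT (w 0) (w 1) (w 2) (w 3)) (b := aT (w' 0) (w' 1) (w' 2) (w' 3))
    (s := pT (w' 0) (w' 1) (w' 2) (w' 3)) (C := bT (w' 0) (w' 1) (w' 2) (w' 3))
    rfl rfl rfl rfl rfl rfl
  rw [← sum_chi_eq h h' rfl rfl rfl rfl rfl rfl] at hS
  have gw : g4 w = gh (aT (w 0) (w 1) (w 2) (w 3)) (pT (w 0) (w 1) (w 2) (w 3))
      (bT (w 0) (w 1) (w 2) (w 3)) := by
    unfold g4 gT; rw [m1]; norm_num
  have gw' : g4 w' = gh (aT (w' 0) (w' 1) (w' 2) (w' 3)) (pT (w' 0) (w' 1) (w' 2) (w' 3))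
      (bT (w' 0) (w' 1) (w' 2) (w' 3)) := by
    unfold g4 gT; rw [m1']; norm_num
  have cw : chi w = aT (w 0) (w 1) (w 2) (w 3) := by rw [chi_eq, cA]
  have cw' : chi w' = aT (w' 0) (w' 1) (w' 2) (w' 3) := by rw [chi_eq, cB]
  have kw : aT (w 0) (w 1) (w 2) (w 3) - kap w ≤
      PhA (aT (w 0) (w 1) (w 2) (w 3)) (pT (w 0) (w 1) (w 2) (w 3)) (bT (w 0) (w 1) (w 2) (w 3)) := by
    rw [cA] at F1; exact F1
  have kw' : aT (w' 0) (w' 1) (w' 2) (w' 3) - kap w' ≤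
      PhA (aT (w' 0) (w' 1) (w' 2) (w' 3)) (pT (w' 0) (w' 1) (w' 2) (w' 3))
        (bT (w' 0) (w' 1) (w' 2) (w' 3)) := by
    rw [cB] at F2; exact F2
  rw [gw, gw', cw, cw']
  generalize aT (w 0) (w 1) (w 2) (w 3) = a at *
  generalize pT (w 0) (w 1) (w 2) (w 3) = p at *
  generalize bT (w 0) (w 1) (w 2) (w 3) = B at *
  generalize aT (w' 0) (w' 1) (w' 2) (w' 3) = b at *
  generalize pT (w' 0) (w' 1) (w' 2) (w' 3) = s at *
  generalize bT (w' 0) (w' 1) (w' 2) (w' 3) = C at *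
  generalize kap w = k at *
  generalize kap w' = k' at *
  refine le_trans hS ?_
  have hD : 0 < 1 + 15 / 2 * (a * b) := by positivity
  set D := 1 + 15 / 2 * (a * b) with hDdef
  have e1 : (a - k) * gh b s C ≤ PhA a p B * gh b s C := mul_le_mul_of_nonneg_right kw hg'
  have e2 : (b - k') * gh a p B ≤ PhA b s C * gh a p B := mul_le_mul_of_nonneg_right kw' hg
  have hF' : 0 ≤ a * b - M1 a p b s - PhA a p B * gh b s C - PhA b s C * gh a p B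
      + (2 * (1 / D) - (1 / D) ^ 2) * M2 a p B b s C - (1 / D) ^ 2 * M3 a p B b s C := by
    have e3 : a * b - M1 a p b s - PhA a p B * gh b s C - PhA b s C * gh a p B
        + (2 * (1 / D) - (1 / D) ^ 2) * M2 a p B b s C - (1 / D) ^ 2 * M3 a p B b s C
        = Fin6 a p B b s C / D ^ 2 := by
      unfold Fin6
      have e4 : 1 + 15 * (a * b) = 2 * D - 1 := by rw [hDdef]; ring
      rw [e4, ← hDdef]
      field_simp
    rw [e3]
    positivity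
  unfold M0
  nlinarith [e1, e2, hF']

/-- the product inequality for `chi` -/
theorem prodA4 (w w' : Fin 4 → ℝ) (hw : ∀ i, 0 ≤ w i) (hw' : ∀ i, 0 ≤ w' i) :
    ∑ s : Equiv.Perm (Fin 4), chi (fun i => w i * w' (s i)) ≤
      (Nat.factorial 4 : ℝ) *
        (chi w * (mass w' - g4 w') + kap w * g4 w' + chi w' * (mass w - g4 w) + kap w' * g4 w) := by
  have f4 : (Nat.factorial 4 : ℝ) = 24 := by norm_num [Nat.factorial]
  rw [f4]
  by_cases h : w 0 + w 1 + w 2 + w 3 = 0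
  · have e := zero_of_sum hw h
    subst e
    simp only [zero_mul, chi_zero, kap_zero, mass_zero, g4_zero, Finset.sum_const_zero]
    norm_num
  by_cases h' : w' 0 + w' 1 + w' 2 + w' 3 = 0
  · have e := zero_of_sum hw' h'
    subst e
    simp only [mul_zero, chi_zero, kap_zero, mass_zero, g4_zero, Finset.sum_const_zero]
    norm_num
  obtain ⟨t, u, ht, hu, hu4, rfl⟩ := exists_norm hw h
  obtain ⟨t', u', ht', hu', hu4', rfl⟩ := exists_norm hw' h'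
  have m1 : mass u = 1 := by rw [mass_eq, massT, hu4]; norm_num
  have m1' : mass u' = 1 := by rw [mass_eq, massT, hu4']; norm_num
  have key := prodA_norm hu hu' hu4 hu4'
  have e1 : ∀ s : Equiv.Perm (Fin 4), chi (fun i => t * u i * (t' * u' (s i)))
      = t * t' * chi (fun i => u i * u' (s i)) := by
    intro s
    have : (fun i => t * u i * (t' * u' (s i))) = fun i => (t * t') * (u i * u' (s i)) := by
      funext i; ring
    rw [this, chi_smul (mul_ne_zero ht.ne' ht'.ne')]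
  simp only [e1]
  rw [← Finset.mul_sum, chi_smul ht.ne', chi_smul ht'.ne', mass_smul, mass_smul, m1, m1',
    g4_smul ht.ne', g4_smul ht'.ne', kap_smul ht.le, kap_smul ht'.le]
  calc t * t' * ∑ s : Equiv.Perm (Fin 4), chi (fun i => u i * u' (s i))
      ≤ t * t' * (24 * (chi u * (1 - g4 u') + kap u * g4 u' + chi u' * (1 - g4 u)
        + kap u' * g4 u)) := mul_le_mul_of_nonneg_left key (mul_pos ht ht').le
    _ = _ := by ring

theorem g4_lower (w : Fin 4 → ℝ) (hw : ∀ i, 0 ≤ w i) : 1 / 10 * chi w ≤ g4 w := by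
  by_cases h : w 0 + w 1 + w 2 + w 3 = 0
  · have e := zero_of_sum hw h
    subst e
    rw [chi_zero, g4_zero]
    norm_num
  obtain ⟨t, u, ht, hu, hu4, rfl⟩ := exists_norm hw h
  rw [chi_smul ht.ne', g4_smul ht.ne']
  have m1 : massT (u 0) (u 1) (u 2) (u 3) = 1 := by unfold massT; rw [hu4]; norm_num
  have key := gh_lower (aT_nonneg (u 0) (u 1) (u 2) (u 3))
    (aT_le_one (hu 0) (hu 1) (hu 2) (hu 3) hu4)
    (bT_nonneg (u 0) (u 1) (u 2) (u 3)) (bT_le (u 0) (u 1) (u 2) (u 3))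
    (pT_sq_le (u 0) (u 1) (u 2) (u 3)) (pT_sq_le_cube (u 0) (u 1) (u 2) (u 3))
  have gu : g4 u = gh (aT (u 0) (u 1) (u 2) (u 3)) (pT (u 0) (u 1) (u 2) (u 3))
      (bT (u 0) (u 1) (u 2) (u 3)) := by
    unfold g4 gT; rw [m1]; norm_num
  have cu : chi u = aT (u 0) (u 1) (u 2) (u 3) := by rw [chi_eq, chiT_eq hu4]
  rw [gu, cu]
  calc 1 / 10 * (t * aT (u 0) (u 1) (u 2) (u 3)) = t * (1 / 10 * aT (u 0) (u 1) (u 2) (u 3)) := by
        ring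
    _ ≤ _ := mul_le_mul_of_nonneg_left key ht.le

theorem g4_upper (w : Fin 4 → ℝ) (hw : ∀ i, 0 ≤ w i) : g4 w ≤ mass w := by
  by_cases h : w 0 + w 1 + w 2 + w 3 = 0
  · have e := zero_of_sum hw h
    subst e
    rw [mass_zero, g4_zero]
  obtain ⟨t, u, ht, hu, hu4, rfl⟩ := exists_norm hw h
  rw [mass_smul, g4_smul ht.ne']
  have m1 : massT (u 0) (u 1) (u 2) (u 3) = 1 := by unfold massT; rw [hu4]; norm_num
  have key := gh_upper (aT_nonneg (u 0) (u 1) (u 2) (u 3))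
    (aT_le_one (hu 0) (hu 1) (hu 2) (hu 3) hu4)
    (bT_nonneg (u 0) (u 1) (u 2) (u 3)) (bT_le (u 0) (u 1) (u 2) (u 3))
    (pT_sq_le (u 0) (u 1) (u 2) (u 3)) (pT_ge (hu 0) (hu 1) (hu 2) (hu 3) hu4)
  have gu : g4 u = gh (aT (u 0) (u 1) (u 2) (u 3)) (pT (u 0) (u 1) (u 2) (u 3))
      (bT (u 0) (u 1) (u 2) (u 3)) := by
    unfold g4 gT; rw [m1]; norm_num
  have mu : mass u = 1 := by rw [mass_eq, m1]
  rw [gu, mu]
  exact mul_le_mul_of_nonneg_left key ht.le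

/-- the certificate for `q = 4` and `0 ≤ lam ≤ 1` -/
noncomputable def cert4 {lam : ℝ} (h0 : 0 ≤ lam) (h1 : lam ≤ 1) : KCert 4 lam where
  kap := kap
  g := g4
  gam := 1 / 10
  kc := 9
  gam_pos := by norm_num
  kc_ge := by norm_num
  kap_nonneg := kap_nonneg
  kap_le_mass := kap_le_mass
  kap_le_chi := kap_le_chi
  g_lower := g4_lower
  g_upper := g4_upper
  prodA := prodA4
  prodK := fun w w' hw hw' => by
    have f4 : (Nat.factorial 4 : ℝ) = 24 := by norm_num [Nat.factorial]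
    rw [f4]
    exact le_of_eq (kap_prod w w' hw hw')
  smoothK := kap_smooth h0 h1

end Vale.Agent.P154.K4
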