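import Vale.Agent.Lib.P154.Cert

/-!
# The certificate for `q = 4`, `0 ≤ lam ≤ 1`: definitions

`kap` is `mass` minus the average of `√(w i * w j)` over the six pairs (Bhattacharyya).
For a vector with coordinates `x y z u` of average one we use the Hadamard coordinates
`H1 H2 H3` and the invariants `aT = (H1^2+H2^2+H3^2)/3`, `pT = H1*H2*H3`,
`bT = H1^2*H2^2 + H2^2*H3^2 + H3^2*H1^2`.
-/

open scoped BigOperators

namespace Vale.Agent.P154.K4

noncomputable def massT (x y z u : ℝ) : ℝ := (x + y + z + u) / 4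

noncomputable def chiT (x y z u : ℝ) : ℝ :=
  (4 * (x ^ 2 + y ^ 2 + z ^ 2 + u ^ 2) / (x + y + z + u) - (x + y + z + u)) / (4 * (4 - 1))

noncomputable def kapT (x y z u : ℝ) : ℝ :=
  (x + y + z + u) / 4 -
    (√(x * y) + √(x * z) + √(x * u) + √(y * z) + √(y * u) + √(z * u)) / 6

/-- the functional `kap` -/
noncomputable def kap (w : Fin 4 → ℝ) : ℝ := kapT (w 0) (w 1) (w 2) (w 3)

/-- Hadamard coordinates -/
noncomputable def H1 (x y z u : ℝ) : ℝ := (x + y - z - u) / 4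
noncomputable def H2 (x y z u : ℝ) : ℝ := (x - y + z - u) / 4
noncomputable def H3 (x y z u : ℝ) : ℝ := (x - y - z + u) / 4

noncomputable def aT (x y z u : ℝ) : ℝ := (H1 x y z u ^ 2 + H2 x y z u ^ 2 + H3 x y z u ^ 2) / 3
noncomputable def pT (x y z u : ℝ) : ℝ := H1 x y z u * H2 x y z u * H3 x y z u
noncomputable def bT (x y z u : ℝ) : ℝ :=
  H1 x y z u ^ 2 * H2 x y z u ^ 2 + H2 x y z u ^ 2 * H3 x y z u ^ 2
    + H3 x y z u ^ 2 * H1 x y z u ^ 2

/-- affine majorant of `chi - kap` -/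
noncomputable def PhA (a p B : ℝ) : ℝ := (1 + 9 / 5 * a) * p - (3 / 4 + a) * a ^ 2 - 3 / 10 * B

/-- the weight `g` in the invariants -/
noncomputable def gh (a p B : ℝ) : ℝ :=
  a * (4 + 27 / 20 * a - 43 / 2 * a ^ 2 + 243 / 10 * a ^ 3) - 7 / 10 * p
    - (2 - 33 / 4 * a + 43 / 5 * a ^ 2) * B

noncomputable def gT (x y z u : ℝ) : ℝ :=
  massT x y z u * gh (aT x y z u / massT x y z u ^ 2) (pT x y z u / massT x y z u ^ 3)
    (bT x y z u / massT x y z u ^ 4)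

/-- the functional `g` -/
noncomputable def g4 (w : Fin 4 → ℝ) : ℝ := gT (w 0) (w 1) (w 2) (w 3)

/-- the moments `M j = (1/24) ∑ s, (e2 (w * w' ∘ s) / 6) * (Z s - 1) ^ j` -/
noncomputable def M0 (a b : ℝ) : ℝ := (1 - a) * (1 - b)
noncomputable def M1 (a p b s : ℝ) : ℝ := 4 * (a - p) * (b - s)
noncomputable def M2 (a p B b s C : ℝ) : ℝ :=
  3 * a * (1 - a) * b * (1 - b) + 8 * (B / 3 - p) * (C / 3 - s)
    + 8 / 3 * (3 * a ^ 2 - B) * (3 * b ^ 2 - C)
noncomputable def M3 (a p B b s C : ℝ) : ℝ :=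
  6 * p * (1 - a) * s * (1 - b) + 28 * (a * (a - p)) * (b * (b - s))
    - 16 / 3 * ((a * (a - p)) * (3 * b ^ 2 - C) + (b * (b - s)) * (3 * a ^ 2 - B))
    + 40 / 9 * (3 * a ^ 2 - B) * (3 * b ^ 2 - C)

/-- the final polynomial -/
noncomputable def Fin6 (a p B b s C : ℝ) : ℝ :=
  (1 + 15 / 2 * (a * b)) ^ 2 *
      (a * b - M1 a p b s - PhA a p B * gh b s C - PhA b s C * gh a p B)
    + (1 + 15 * (a * b)) * M2 a p B b s C - M3 a p B b s C

end Vale.Agent.P154.K4
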