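import Vale.Agent.Lib.P154.K4Defs

/-!
# Moment identities for the product of two four-state vectors (Hadamard coordinates)
-/

namespace Vale.Agent.P154.K4

/-- `((1+c)^2 - |v|^2/3) * c^j` -/
noncomputable def Pj (j : ℕ) (x1 x2 x3 y1 y2 y3 : ℝ) : ℝ :=
  ((1 + (x1 * y1 + x2 * y2 + x3 * y3)) ^ 2
    - ((x1 + y1 + x2 * y3 + x3 * y2) ^ 2 + (x2 + y2 + x3 * y1 + x1 * y3) ^ 2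
      + (x3 + y3 + x1 * y2 + x2 * y1) ^ 2) / 3) * (x1 * y1 + x2 * y2 + x3 * y3) ^ j

/-- sum over the four even sign changes of `y` -/
noncomputable def Vj (j : ℕ) (x1 x2 x3 y1 y2 y3 : ℝ) : ℝ :=
  Pj j x1 x2 x3 y1 y2 y3 + Pj j x1 x2 x3 y1 (-y2) (-y3) + Pj j x1 x2 x3 (-y1) y2 (-y3)
    + Pj j x1 x2 x3 (-y1) (-y2) y3

/-- sum over the six permutations of `y` -/
noncomputable def Sj (j : ℕ) (x1 x2 x3 y1 y2 y3 : ℝ) : ℝ :=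
  Vj j x1 x2 x3 y1 y2 y3 + Vj j x1 x2 x3 y1 y3 y2 + Vj j x1 x2 x3 y2 y1 y3
    + Vj j x1 x2 x3 y2 y3 y1 + Vj j x1 x2 x3 y3 y1 y2 + Vj j x1 x2 x3 y3 y2 y1

theorem S0_eq (x1 x2 x3 y1 y2 y3 : ℝ) : Sj 0 x1 x2 x3 y1 y2 y3
    = 24 * M0 ((x1 ^ 2 + x2 ^ 2 + x3 ^ 2) / 3) ((y1 ^ 2 + y2 ^ 2 + y3 ^ 2) / 3) := by
  unfold Sj Vj Pj M0
  ring

theorem S1_eq (x1 x2 x3 y1 y2 y3 : ℝ) : Sj 1 x1 x2 x3 y1 y2 y3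
    = 24 * M1 ((x1 ^ 2 + x2 ^ 2 + x3 ^ 2) / 3) (x1 * x2 * x3)
        ((y1 ^ 2 + y2 ^ 2 + y3 ^ 2) / 3) (y1 * y2 * y3) := by
  unfold Sj Vj Pj M1
  ring

theorem S2_eq (x1 x2 x3 y1 y2 y3 : ℝ) : Sj 2 x1 x2 x3 y1 y2 y3
    = 24 * M2 ((x1 ^ 2 + x2 ^ 2 + x3 ^ 2) / 3) (x1 * x2 * x3)
        (x1 ^ 2 * x2 ^ 2 + x2 ^ 2 * x3 ^ 2 + x3 ^ 2 * x1 ^ 2)
        ((y1 ^ 2 + y2 ^ 2 + y3 ^ 2) / 3) (y1 * y2 * y3)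
        (y1 ^ 2 * y2 ^ 2 + y2 ^ 2 * y3 ^ 2 + y3 ^ 2 * y1 ^ 2) := by
  unfold Sj Vj Pj M2
  ring

theorem S3_eq (x1 x2 x3 y1 y2 y3 : ℝ) : Sj 3 x1 x2 x3 y1 y2 y3
    = 24 * M3 ((x1 ^ 2 + x2 ^ 2 + x3 ^ 2) / 3) (x1 * x2 * x3)
        (x1 ^ 2 * x2 ^ 2 + x2 ^ 2 * x3 ^ 2 + x3 ^ 2 * x1 ^ 2)
        ((y1 ^ 2 + y2 ^ 2 + y3 ^ 2) / 3) (y1 * y2 * y3)
        (y1 ^ 2 * y2 ^ 2 + y2 ^ 2 * y3 ^ 2 + y3 ^ 2 * y1 ^ 2) := by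
  unfold Sj Vj Pj M3
  ring

end Vale.Agent.P154.K4
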