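import Vale.Agent.Lib.P154.K4Defs

/-!
# `q = 4`: reduction of the final polynomial inequality to the vertices of the triangles
-/

namespace Vale.Agent.P154.K4

theorem fin6_symm (a p B b s C : ℝ) : Fin6 a p B b s C = Fin6 b s C a p B := by
  unfold Fin6 M1 M2 M3
  ring

theorem fin6_affine (a p B t lp lm : ℝ) :
    Fin6 a p B (t ^ 2) (t ^ 3 * (lp - lm)) (3 * t ^ 4 * (lp + lm)) =
      (1 - lp - lm) * Fin6 a p B (t ^ 2) 0 0 + lp * Fin6 a p B (t ^ 2) (t ^ 3) (3 * t ^ 4)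
        + lm * Fin6 a p B (t ^ 2) ((-t) ^ 3) (3 * (-t) ^ 4) := by
  unfold Fin6 M1 M2 M3 PhA gh
  ring

/-- affine reduction in the second triple -/
theorem fin6_red {a p B b s C : ℝ} (hb0 : 0 ≤ b) (hC0 : 0 ≤ C) (hC : C ≤ 3 * b ^ 2)
    (hs : 9 * b * s ^ 2 ≤ C ^ 2) (hsb : s ^ 2 ≤ b ^ 3) (h0 : 0 ≤ Fin6 a p B b 0 0)
    (h1 : ∀ t : ℝ, t ^ 2 = b → 0 ≤ Fin6 a p B (t ^ 2) (t ^ 3) (3 * t ^ 4)) :
    0 ≤ Fin6 a p B b s C := by
  rcases hb0.eq_or_lt with hb | hb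
  · subst hb
    have hs0 : s = 0 := by
      have : s ^ 2 ≤ 0 := by simpa using hsb
      exact pow_eq_zero_iff (two_ne_zero) |>.1 (le_antisymm this (sq_nonneg s))
    have hC00 : C = 0 := by
      have : C ≤ 0 := by simpa using hC
      exact le_antisymm this hC0
    rw [hs0, hC00]
    exact h0
  · obtain ⟨t, ht, htb⟩ : ∃ t : ℝ, 0 < t ∧ t ^ 2 = b :=
      ⟨√b, Real.sqrt_pos.2 hb, Real.sq_sqrt hb.le⟩
    subst htb
    have h2 : |3 * t * s| ≤ C := by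
      refine abs_le_of_sq_le_sq ?_ hC0
      calc (3 * t * s) ^ 2 = 9 * t ^ 2 * s ^ 2 := by ring
        _ ≤ C ^ 2 := hs
    obtain ⟨h3, h4⟩ := abs_le.1 h2
    have ht4 : 0 < 6 * t ^ 4 := by positivity
    set lp : ℝ := (C + 3 * t * s) / (6 * t ^ 4) with hlp
    set lm : ℝ := (C - 3 * t * s) / (6 * t ^ 4) with hlm
    have hlp0 : 0 ≤ lp := div_nonneg (by linarith) ht4.le
    have hlm0 : 0 ≤ lm := div_nonneg (by linarith) ht4.le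
    have hsum : lp + lm = C / (3 * t ^ 4) := by
      rw [hlp, hlm]
      field_simp
      ring
    have hl0 : 0 ≤ 1 - lp - lm := by
      have h5 : C / (3 * t ^ 4) ≤ 1 := by
        rw [div_le_one (by positivity)]
        calc C ≤ 3 * (t ^ 2) ^ 2 := hC
          _ = 3 * t ^ 4 := by ring
      linarith
    have es : s = t ^ 3 * (lp - lm) := by
      rw [hlp, hlm]
      field_simp
      ring
    have eC : C = 3 * t ^ 4 * (lp + lm) := by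
      rw [hsum]
      field_simp
    rw [es, eC, fin6_affine]
    have h6 := h1 t rfl
    have h7 := h1 (-t) (by ring)
    have e7 : (-t) ^ 2 = t ^ 2 := by ring
    rw [e7] at h7
    have := mul_nonneg hl0 h0
    have := mul_nonneg hlp0 h6
    have := mul_nonneg hlm0 h7
    linarith

/-- bi-affine reduction to the vertices of the triangles -/
theorem fin6_nonneg_of
    (fin6_00 : ∀ {a b : ℝ}, 0 ≤ a → a ≤ 1 → 0 ≤ b → b ≤ 1 → 0 ≤ Fin6 a 0 0 b 0 0)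
    (fin6_0p : ∀ {a t : ℝ}, 0 ≤ a → a ≤ 1 → -1 ≤ t → t ≤ 1 →
      0 ≤ Fin6 a 0 0 (t ^ 2) (t ^ 3) (3 * t ^ 4))
    (fin6_pp : ∀ {r t : ℝ}, -1 ≤ r → r ≤ 1 → -1 ≤ t → t ≤ 1 →
      0 ≤ Fin6 (r ^ 2) (r ^ 3) (3 * r ^ 4) (t ^ 2) (t ^ 3) (3 * t ^ 4))
    {a p B b s C : ℝ} (ha0 : 0 ≤ a) (ha1 : a ≤ 1) (hB0 : 0 ≤ B)
    (hB : B ≤ 3 * a ^ 2) (hp : 9 * a * p ^ 2 ≤ B ^ 2) (hpa : p ^ 2 ≤ a ^ 3) (hb0 : 0 ≤ b)
    (hb1 : b ≤ 1) (hC0 : 0 ≤ C) (hC : C ≤ 3 * b ^ 2) (hs : 9 * b * s ^ 2 ≤ C ^ 2)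
    (hsb : s ^ 2 ≤ b ^ 3) : 0 ≤ Fin6 a p B b s C := by
  have hone : ∀ {x t : ℝ}, t ^ 2 = x → x ≤ 1 → -1 ≤ t ∧ t ≤ 1 := by
    intro x t h hx
    rw [← abs_le, ← sq_le_one_iff_abs_le_one, h]
    exact hx
  refine fin6_red hb0 hC0 hC hs hsb ?_ fun t ht => ?_
  · rw [fin6_symm]
    refine fin6_red ha0 hB0 hB hp hpa (fin6_00 hb0 hb1 ha0 ha1) fun r hr => ?_
    obtain ⟨h1, h2⟩ := hone hr ha1
    exact fin6_0p hb0 hb1 h1 h2
  · obtain ⟨h1, h2⟩ := hone ht hb1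
    rw [fin6_symm]
    refine fin6_red ha0 hB0 hB hp hpa ?_ fun r hr => ?_
    · rw [fin6_symm]
      exact fin6_0p ha0 ha1 h1 h2
    · obtain ⟨h3, h4⟩ := hone hr ha1
      exact fin6_pp h1 h2 h3 h4

end Vale.Agent.P154.K4
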