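import Vale.Agent.Lib.P154.K4Mom

/-!
# `q = 4`: upper bound for the averaged `chi` of a product
-/

open scoped BigOperators

namespace Vale.Agent.P154.K4

/-- pointwise bound for one product vector `v` -/
theorem chiT_le {x y z u c eta : ℝ} (hx : 0 ≤ x) (hy : 0 ≤ y) (hz : 0 ≤ z) (hu : 0 ≤ u)
    (hc : (x + y + z + u) / 4 = 1 + c) :
    chiT x y z u ≤ (1 + c) - (x * y + x * z + x * u + y * z + y * u + z * u) / 6 *
      (1 - c + (2 * eta - eta ^ 2) * c ^ 2 - eta ^ 2 * c ^ 3) := by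
  set e := x * y + x * z + x * u + y * z + y * u + z * u with he
  have he0 : 0 ≤ e := by rw [he]; positivity
  have hS : x + y + z + u = 4 * (1 + c) := by linarith
  have hS0 : 0 ≤ x + y + z + u := by positivity
  have hZ0 : 0 ≤ 1 + c := by linarith
  have hsq : x ^ 2 + y ^ 2 + z ^ 2 + u ^ 2 = 16 * (1 + c) ^ 2 - 2 * e := by
    have : (x + y + z + u) ^ 2 = (4 * (1 + c)) ^ 2 := by rw [hS]
    rw [he]; nlinarith [this]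
  unfold chiT
  rw [hS, hsq]
  rcases hZ0.eq_or_lt with h | h
  · have hs0 : x + y + z + u = 0 := by rw [hS, ← h]; ring
    have e0 : e = 0 := by
      have hx0 : x = 0 := by linarith
      have hy0 : y = 0 := by linarith
      have hz0 : z = 0 := by linarith
      have hu0 : u = 0 := by linarith
      rw [he, hx0, hy0, hz0, hu0]; ring
    rw [← h, e0]
    norm_num
  · have key : e / 6 * (1 - c + (2 * eta - eta ^ 2) * c ^ 2 - eta ^ 2 * c ^ 3)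
        ≤ e / 6 / (1 + c) := by
      rw [le_div_iff₀ h]
      have h1 : (1 - c + (2 * eta - eta ^ 2) * c ^ 2 - eta ^ 2 * c ^ 3) * (1 + c)
          = 1 - (1 - (1 - eta * c) * (1 + c)) ^ 2 := by ring
      have h2 : (1 - c + (2 * eta - eta ^ 2) * c ^ 2 - eta ^ 2 * c ^ 3) * (1 + c) ≤ 1 := by
        rw [h1]
        nlinarith [sq_nonneg (1 - (1 - eta * c) * (1 + c))]
      calc e / 6 * (1 - c + (2 * eta - eta ^ 2) * c ^ 2 - eta ^ 2 * c ^ 3) * (1 + c)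
          = e / 6 * ((1 - c + (2 * eta - eta ^ 2) * c ^ 2 - eta ^ 2 * c ^ 3) * (1 + c)) := by ring
        _ ≤ e / 6 * 1 := mul_le_mul_of_nonneg_left h2 (by positivity)
        _ = e / 6 := by ring
    have h3 : (4 * (16 * (1 + c) ^ 2 - 2 * e) / (4 * (1 + c)) - 4 * (1 + c)) / (4 * (4 - 1))
        = (1 + c) - e / 6 / (1 + c) := by
      field_simp
      ring
    rw [h3]
    linarith

/-- one term in Hadamard coordinates -/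
noncomputable def tm (x1 x2 x3 y1 y2 y3 : ℝ) : ℝ :=
  chiT ((1 + x1 + x2 + x3) * (1 + y1 + y2 + y3)) ((1 + x1 - x2 - x3) * (1 + y1 - y2 - y3))
    ((1 - x1 + x2 - x3) * (1 - y1 + y2 - y3)) ((1 - x1 - x2 + x3) * (1 - y1 - y2 + y3))

theorem tm_le {x1 x2 x3 y1 y2 y3 : ℝ} (eta : ℝ)
    (hx0 : 0 ≤ 1 + x1 + x2 + x3) (hx1 : 0 ≤ 1 + x1 - x2 - x3) (hx2 : 0 ≤ 1 - x1 + x2 - x3)
    (hx3 : 0 ≤ 1 - x1 - x2 + x3)
    (hy0 : 0 ≤ 1 + y1 + y2 + y3) (hy1 : 0 ≤ 1 + y1 - y2 - y3) (hy2 : 0 ≤ 1 - y1 + y2 - y3)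
    (hy3 : 0 ≤ 1 - y1 - y2 + y3) :
    tm x1 x2 x3 y1 y2 y3 ≤ (1 + (x1 * y1 + x2 * y2 + x3 * y3))
      - (Pj 0 x1 x2 x3 y1 y2 y3 - Pj 1 x1 x2 x3 y1 y2 y3
        + (2 * eta - eta ^ 2) * Pj 2 x1 x2 x3 y1 y2 y3 - eta ^ 2 * Pj 3 x1 x2 x3 y1 y2 y3) := by
  have h := chiT_le (x := (1 + x1 + x2 + x3) * (1 + y1 + y2 + y3))
    (y := (1 + x1 - x2 - x3) * (1 + y1 - y2 - y3))
    (z := (1 - x1 + x2 - x3) * (1 - y1 + y2 - y3))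
    (u := (1 - x1 - x2 + x3) * (1 - y1 - y2 + y3))
    (c := x1 * y1 + x2 * y2 + x3 * y3) (eta := eta)
    (mul_nonneg hx0 hy0) (mul_nonneg hx1 hy1) (mul_nonneg hx2 hy2) (mul_nonneg hx3 hy3)
    (by ring)
  have e : ((1 + x1 + x2 + x3) * (1 + y1 + y2 + y3) * ((1 + x1 - x2 - x3) * (1 + y1 - y2 - y3))
      + (1 + x1 + x2 + x3) * (1 + y1 + y2 + y3) * ((1 - x1 + x2 - x3) * (1 - y1 + y2 - y3))
      + (1 + x1 + x2 + x3) * (1 + y1 + y2 + y3) * ((1 - x1 - x2 + x3) * (1 - y1 - y2 + y3))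
      + (1 + x1 - x2 - x3) * (1 + y1 - y2 - y3) * ((1 - x1 + x2 - x3) * (1 - y1 + y2 - y3))
      + (1 + x1 - x2 - x3) * (1 + y1 - y2 - y3) * ((1 - x1 - x2 + x3) * (1 - y1 - y2 + y3))
      + (1 - x1 + x2 - x3) * (1 - y1 + y2 - y3) * ((1 - x1 - x2 + x3) * (1 - y1 - y2 + y3))) / 6
      = (1 + (x1 * y1 + x2 * y2 + x3 * y3)) ^ 2
    - ((x1 + y1 + x2 * y3 + x3 * y2) ^ 2 + (x2 + y2 + x3 * y1 + x1 * y3) ^ 2
      + (x3 + y3 + x1 * y2 + x2 * y1) ^ 2) / 3 := by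
    ring
  rw [e] at h
  unfold tm
  refine le_trans h (le_of_eq ?_)
  unfold Pj
  ring

/-- the average over the four even sign changes -/
theorem tmV_le {x1 x2 x3 y1 y2 y3 : ℝ} (eta : ℝ)
    (hx0 : 0 ≤ 1 + x1 + x2 + x3) (hx1 : 0 ≤ 1 + x1 - x2 - x3) (hx2 : 0 ≤ 1 - x1 + x2 - x3)
    (hx3 : 0 ≤ 1 - x1 - x2 + x3)
    (hy0 : 0 ≤ 1 + y1 + y2 + y3) (hy1 : 0 ≤ 1 + y1 - y2 - y3) (hy2 : 0 ≤ 1 - y1 + y2 - y3)
    (hy3 : 0 ≤ 1 - y1 - y2 + y3) :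
    tm x1 x2 x3 y1 y2 y3 + tm x1 x2 x3 y1 (-y2) (-y3) + tm x1 x2 x3 (-y1) y2 (-y3)
      + tm x1 x2 x3 (-y1) (-y2) y3 ≤ 4
      - (Vj 0 x1 x2 x3 y1 y2 y3 - Vj 1 x1 x2 x3 y1 y2 y3
        + (2 * eta - eta ^ 2) * Vj 2 x1 x2 x3 y1 y2 y3 - eta ^ 2 * Vj 3 x1 x2 x3 y1 y2 y3) := by
  have h1 := tm_le (y1 := y1) (y2 := y2) (y3 := y3) eta hx0 hx1 hx2 hx3
    (by linarith) (by linarith) (by linarith) (by linarith)
  have h2 := tm_le (y1 := y1) (y2 := -y2) (y3 := -y3) eta hx0 hx1 hx2 hx3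
    (by linarith) (by linarith) (by linarith) (by linarith)
  have h3 := tm_le (y1 := -y1) (y2 := y2) (y3 := -y3) eta hx0 hx1 hx2 hx3
    (by linarith) (by linarith) (by linarith) (by linarith)
  have h4 := tm_le (y1 := -y1) (y2 := -y2) (y3 := y3) eta hx0 hx1 hx2 hx3
    (by linarith) (by linarith) (by linarith) (by linarith)
  unfold Vj
  linarith

/-- the upper bound for the sum over the 24 signed permutations -/
theorem tmS_le {x1 x2 x3 y1 y2 y3 : ℝ} (eta : ℝ)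
    (hx0 : 0 ≤ 1 + x1 + x2 + x3) (hx1 : 0 ≤ 1 + x1 - x2 - x3) (hx2 : 0 ≤ 1 - x1 + x2 - x3)
    (hx3 : 0 ≤ 1 - x1 - x2 + x3)
    (hy0 : 0 ≤ 1 + y1 + y2 + y3) (hy1 : 0 ≤ 1 + y1 - y2 - y3) (hy2 : 0 ≤ 1 - y1 + y2 - y3)
    (hy3 : 0 ≤ 1 - y1 - y2 + y3) {a p B b s C : ℝ}
    (ha : (x1 ^ 2 + x2 ^ 2 + x3 ^ 2) / 3 = a) (hp : x1 * x2 * x3 = p)
    (hB : x1 ^ 2 * x2 ^ 2 + x2 ^ 2 * x3 ^ 2 + x3 ^ 2 * x1 ^ 2 = B)
    (hb : (y1 ^ 2 + y2 ^ 2 + y3 ^ 2) / 3 = b) (hs : y1 * y2 * y3 = s)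
    (hC : y1 ^ 2 * y2 ^ 2 + y2 ^ 2 * y3 ^ 2 + y3 ^ 2 * y1 ^ 2 = C) :
    (tm x1 x2 x3 y1 y2 y3 + tm x1 x2 x3 y1 (-y2) (-y3) + tm x1 x2 x3 (-y1) y2 (-y3)
      + tm x1 x2 x3 (-y1) (-y2) y3)
    + (tm x1 x2 x3 y1 y3 y2 + tm x1 x2 x3 y1 (-y3) (-y2) + tm x1 x2 x3 (-y1) y3 (-y2)
      + tm x1 x2 x3 (-y1) (-y3) y2)
    + (tm x1 x2 x3 y2 y1 y3 + tm x1 x2 x3 y2 (-y1) (-y3) + tm x1 x2 x3 (-y2) y1 (-y3)
      + tm x1 x2 x3 (-y2) (-y1) y3)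
    + (tm x1 x2 x3 y2 y3 y1 + tm x1 x2 x3 y2 (-y3) (-y1) + tm x1 x2 x3 (-y2) y3 (-y1)
      + tm x1 x2 x3 (-y2) (-y3) y1)
    + (tm x1 x2 x3 y3 y1 y2 + tm x1 x2 x3 y3 (-y1) (-y2) + tm x1 x2 x3 (-y3) y1 (-y2)
      + tm x1 x2 x3 (-y3) (-y1) y2)
    + (tm x1 x2 x3 y3 y2 y1 + tm x1 x2 x3 y3 (-y2) (-y1) + tm x1 x2 x3 (-y3) y2 (-y1)
      + tm x1 x2 x3 (-y3) (-y2) y1)
    ≤ 24 * (1 - M0 a b + M1 a p b s - (2 * eta - eta ^ 2) * M2 a p B b s C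
        + eta ^ 2 * M3 a p B b s C) := by
  have h1 := tmV_le (y1 := y1) (y2 := y2) (y3 := y3) eta hx0 hx1 hx2 hx3
    (by linarith) (by linarith) (by linarith) (by linarith)
  have h2 := tmV_le (y1 := y1) (y2 := y3) (y3 := y2) eta hx0 hx1 hx2 hx3
    (by linarith) (by linarith) (by linarith) (by linarith)
  have h3 := tmV_le (y1 := y2) (y2 := y1) (y3 := y3) eta hx0 hx1 hx2 hx3
    (by linarith) (by linarith) (by linarith) (by linarith)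
  have h4 := tmV_le (y1 := y2) (y2 := y3) (y3 := y1) eta hx0 hx1 hx2 hx3
    (by linarith) (by linarith) (by linarith) (by linarith)
  have h5 := tmV_le (y1 := y3) (y2 := y1) (y3 := y2) eta hx0 hx1 hx2 hx3
    (by linarith) (by linarith) (by linarith) (by linarith)
  have h6 := tmV_le (y1 := y3) (y2 := y2) (y3 := y1) eta hx0 hx1 hx2 hx3
    (by linarith) (by linarith) (by linarith) (by linarith)
  have s0 := S0_eq x1 x2 x3 y1 y2 y3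
  have s1 := S1_eq x1 x2 x3 y1 y2 y3
  have s2 := S2_eq x1 x2 x3 y1 y2 y3
  have s3 := S3_eq x1 x2 x3 y1 y2 y3
  rw [ha, hb] at s0
  rw [ha, hp, hb, hs] at s1
  rw [ha, hp, hB, hb, hs, hC] at s2
  rw [ha, hp, hB, hb, hs, hC] at s3
  unfold Sj at s0 s1 s2 s3
  linear_combination h1 + h2 + h3 + h4 + h5 + h6 - s0 + s1 - (2 * eta - eta ^ 2) * s2
    + eta ^ 2 * s3

end Vale.Agent.P154.K4
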