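import Vale.Agent.Lib.P154.BoxPos

/-!
# Polynomial identities by evaluation at one large integer point

`Ex.val` is the value of a polynomial expression at an integer point and `Ex.maj` the value of the
expression with absolute values of the coefficients.  If the point grows fast enough, an
expression which vanishes there vanishes identically (`ident_sound`).  With explicitly given
nonnegative Bernstein coefficients `b` this proves nonnegativity on the unit box (`kchk_sound`).
-/

namespace Vale.Agent.Lib.P154.BoxPos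

section lists
variable {α : Type}

/-- value of a coefficient list, integers -/
def evLZ (f : α → ℤ) (t : ℤ) : List α → ℤ
  | [] => 0
  | a :: l => f a + t * evLZ f t l

/-- value of a coefficient list, natural numbers -/
def evLN (f : α → ℕ) (t : ℕ) : List α → ℕ
  | [] => 0
  | a :: l => f a + t * evLN f t l

theorem evLZ_cast (f : α → ℤ) (g : α → ℝ) (t : ℤ) (h : ∀ a, ((f a : ℤ) : ℝ) = g a) :
    ∀ l : List α, ((evLZ f t l : ℤ) : ℝ) = evL g (t : ℝ) l
  | [] => by simp [evLZ, evL]
  | a :: l => by
    simp only [evLZ, evL, Int.cast_add, Int.cast_mul, h, evLZ_cast f g t h l]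

theorem evLN_addL (f : α → α → α) (v : α → ℕ) (t : ℕ) (hf : ∀ a b, v (f a b) ≤ v a + v b) :
    ∀ l m : List α, evLN v t (addL f l m) ≤ evLN v t l + evLN v t m
  | [], m => by simp [addL, evLN]
  | a :: l, [] => by simp [addL, evLN]
  | a :: l, b :: m => by
    have h1 := hf a b
    have h2 := Nat.mul_le_mul_left t (evLN_addL f v t hf l m)
    simp only [addL, evLN]
    rw [Nat.mul_add] at h2
    omega

theorem evLN_map_mul (g : α → α → α) (v : α → ℕ) (t : ℕ) (a : α)
    (hg : ∀ b, v (g a b) ≤ v a * v b) :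
    ∀ l : List α, evLN v t (l.map (g a)) ≤ v a * evLN v t l
  | [] => by simp [evLN]
  | b :: l => by
    have h1 := hg b
    have h2 := Nat.mul_le_mul_left t (evLN_map_mul g v t a hg l)
    simp only [List.map_cons, evLN]
    calc v (g a b) + t * evLN v t (l.map (g a)) ≤ v a * v b + t * (v a * evLN v t l) :=
          Nat.add_le_add h1 h2
      _ = v a * (v b + t * evLN v t l) := by ring

theorem evLN_mulL (f g : α → α → α) (z : α) (v : α → ℕ) (t : ℕ)
    (hf : ∀ a b, v (f a b) ≤ v a + v b) (hg : ∀ a b, v (g a b) ≤ v a * v b) (hz : v z = 0) :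
    ∀ l m : List α, evLN v t (mulL f g z l m) ≤ evLN v t l * evLN v t m
  | [], m => by simp [mulL, evLN]
  | a :: l, m => by
    have h1 := evLN_addL f v t hf (m.map (g a)) (z :: mulL f g z l m)
    have h2 := evLN_map_mul g v t a (hg a) m
    have h3 := Nat.mul_le_mul_left t (evLN_mulL f g z v t hf hg hz l m)
    simp only [mulL]
    refine h1.trans ?_
    simp only [evLN, hz]
    calc evLN v t (m.map (g a)) + (0 + t * evLN v t (mulL f g z l m))
          ≤ v a * evLN v t m + (0 + t * (evLN v t l * evLN v t m)) := by omega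
      _ = (v a + t * evLN v t l) * evLN v t m := by ring

theorem evLN_mem (v : α → ℕ) : ∀ (l : List α) (a : α), a ∈ l → v a ≤ evLN v 1 l
  | [], a, h => absurd h (by simp)
  | b :: l, a, h => by
    rcases List.mem_cons.1 h with h | h
    · rw [h]; simp only [evLN]; omega
    · have := evLN_mem v l a h
      simp only [evLN]; omega

theorem natAbs_evLZ (f : α → ℤ) (g : α → ℕ) (t : ℕ) (h : ∀ a, (f a).natAbs ≤ g a) :
    ∀ l : List α, (evLZ f (t : ℤ) l).natAbs ≤ evLN g t l
  | [] => by simp [evLZ, evLN]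
  | a :: l => by
    simp only [evLZ, evLN]
    refine (Int.natAbs_add_le _ _).trans ?_
    rw [Int.natAbs_mul, Int.natAbs_natCast]
    exact Nat.add_le_add (h a) (Nat.mul_le_mul_left _ (natAbs_evLZ f g t h l))

theorem zero_list (f : α → ℤ) (g : α → ℕ) (t : ℕ) (h : ∀ a, (f a).natAbs ≤ g a) :
    ∀ l : List α, evLN g 1 l < t → evLZ f (t : ℤ) l = 0 → ∀ a ∈ l, f a = 0
  | [], _, _ => by simp
  | b :: l, hlt, h0 => by
    have hlt' : g b + evLN g 1 l < t := by
      have := hlt
      simp only [evLN, one_mul] at this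
      exact this
    have h0' : f b + (t : ℤ) * evLZ f (t : ℤ) l = 0 := h0
    have hb : f b = 0 := by
      have hd : (t : ℤ) ∣ f b := ⟨-evLZ f (t : ℤ) l, by linarith⟩
      have hs := h b
      apply Int.eq_zero_of_dvd_of_natAbs_lt_natAbs hd
      rw [Int.natAbs_natCast]
      omega
    have hl : evLZ f (t : ℤ) l = 0 := by
      rw [hb, zero_add] at h0'
      rcases mul_eq_zero.1 h0' with h' | h'
      · have : t = 0 := by exact_mod_cast h'
        omega
      · exact h'
    intro a ha
    rcases List.mem_cons.1 ha with h' | h'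
    · rw [h', hb]
    · exact zero_list f g t h l (by omega) hl a h'

theorem evL_zero (v : α → ℝ) (t : ℝ) : ∀ l : List α, (∀ a ∈ l, v a = 0) → evL v t l = 0
  | [], _ => rfl
  | a :: l, h => by
    rw [evL, h a (by simp), evL_zero v t l (fun b hb => h b (by simp [hb]))]
    simp

end lists

/-- integer value -/
def evZ : (n : ℕ) → PT n → (ℕ → ℤ) → ℤ
  | 0, a, _ => toZ a
  | n + 1, l, x => evLZ (fun p => evZ n p (fun i => x (i + 1))) (x 0) l

/-- value with absolute values of the coefficients -/
def aev : (n : ℕ) → PT n → (ℕ → ℕ) → ℕ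
  | 0, a, _ => (toZ a).natAbs
  | n + 1, l, x => evLN (fun p => aev n p (fun i => x (i + 1))) (x 0) l

theorem evZ_cast : ∀ (n : ℕ) (p : PT n) (x : ℕ → ℤ),
    ((evZ n p x : ℤ) : ℝ) = ev n p (fun i => (x i : ℝ))
  | 0, _, _ => rfl
  | n + 1, p, x => evLZ_cast _ _ (x 0) (fun q => evZ_cast n q (fun i => x (i + 1))) p

theorem natAbs_evZ : ∀ (n : ℕ) (p : PT n) (N : ℕ → ℕ),
    (evZ n p (fun i => (N i : ℤ))).natAbs ≤ aev n p N
  | 0, _, _ => le_rfl
  | n + 1, p, N => natAbs_evLZ _ _ (N 0) (fun q => natAbs_evZ n q (fun i => N (i + 1))) p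

theorem zero_poly : ∀ (n : ℕ) (p : PT n) (N : ℕ → ℕ),
    (∀ k < n, aev n p (fun i => if i ≤ k then 1 else N i) < N k) →
    evZ n p (fun i => (N i : ℤ)) = 0 → ∀ x : ℕ → ℝ, ev n p x = 0
  | 0, p, N, _, h0, x => by
    have h0' : toZ p = 0 := h0
    show ((toZ p : ℤ) : ℝ) = 0
    rw [h0', Int.cast_zero]
  | n + 1, p, N, hN, h0, x => by
    have hk0 := hN 0 (by omega)
    have hz := zero_list (fun q => evZ n q (fun i => (N (i + 1) : ℤ)))
      (fun q => aev n q (fun i => N (i + 1))) (N 0)
      (fun q => natAbs_evZ n q (fun i => N (i + 1))) p hk0 h0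
    apply evL_zero
    intro q hq
    refine zero_poly n q (fun i => N (i + 1)) (fun k hk => ?_) (hz q hq) _
    have hk1 := hN (k + 1) (by omega)
    have key : aev (n + 1) p (fun i => if i ≤ k + 1 then 1 else N i) =
        evLN (fun q => aev n q (fun i => if i ≤ k then 1 else N (i + 1))) 1 p := by
      show evLN (fun q => aev n q (fun i => if i + 1 ≤ k + 1 then 1 else N (i + 1)))
        (if 0 ≤ k + 1 then 1 else N 0) p = _
      simp only [Nat.add_le_add_iff_right, Nat.zero_le, if_true]
    rw [key] at hk1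
    exact lt_of_le_of_lt (evLN_mem (fun q => aev n q (fun i => if i ≤ k then 1 else N (i + 1)))
      p q hq) hk1

theorem aev_zero : ∀ (n : ℕ) (x : ℕ → ℕ), aev n (zero n) x = 0
  | 0, _ => rfl
  | n + 1, _ => rfl

theorem aev_add : ∀ (n : ℕ) (p q : PT n) (x : ℕ → ℕ),
    aev n (add n p q) x ≤ aev n p x + aev n q x
  | 0, p, q, _ => Int.natAbs_add_le _ _
  | n + 1, p, q, x => evLN_addL (add n) _ (x 0) (fun a b => aev_add n a b _) p q

theorem aev_mul : ∀ (n : ℕ) (p q : PT n) (x : ℕ → ℕ),
    aev n (mul n p q) x ≤ aev n p x * aev n q x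
  | 0, p, q, _ => (Int.natAbs_mul _ _).le
  | n + 1, p, q, x => evLN_mulL (add n) (mul n) (zero n) _ (x 0) (fun a b => aev_add n a b _)
      (fun a b => aev_mul n a b _) (aev_zero n _) p q

theorem aev_const : ∀ (n : ℕ) (c : ℤ) (x : ℕ → ℕ), aev n (const n c) x = c.natAbs
  | 0, _, _ => rfl
  | n + 1, c, x => by
    show aev n (const n c) _ + x 0 * 0 = _
    rw [aev_const n c]
    simp

theorem aev_vr : ∀ (n i : ℕ) (x : ℕ → ℕ), i < n → aev n (vr n i) x = x i
  | 0, i, x, h => absurd h (by omega)
  | n + 1, 0, x, _ => by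
    show aev n (zero n) _ + x 0 * (aev n (const n 1) _ + x 0 * 0) = _
    rw [aev_zero, aev_const]
    simp
  | n + 1, i + 1, x, h => by
    show aev n (vr n i) _ + x 0 * 0 = _
    rw [aev_vr n i _ (by omega)]
    simp

theorem aev_pw (n : ℕ) (p : PT n) (x : ℕ → ℕ) : ∀ k, aev n (pw n p k) x ≤ aev n p x ^ k
  | 0 => by rw [pw, aev_const]; simp
  | k + 1 => by
    rw [pw, pow_succ]
    exact (aev_mul n _ _ x).trans (Nat.mul_le_mul_right _ (aev_pw n p x k))

/-- integer powers by repeated multiplication -/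
def zpw (a : ℤ) : ℕ → ℤ
  | 0 => 1
  | k + 1 => Int.mul (zpw a k) a

theorem zpw_eq (a : ℤ) : ∀ k, zpw a k = a ^ k
  | 0 => by simp [zpw]
  | k + 1 => by
    rw [pow_succ, ← zpw_eq a k]
    rfl

/-- value of an expression at an integer point -/
def Ex.val (N : ℕ → ℤ) : Ex → ℤ
  | .v i => N i
  | .c z => z
  | .add a b => Int.add (a.val N) (b.val N)
  | .sub a b => Int.sub (a.val N) (b.val N)
  | .mul a b => Int.mul (a.val N) (b.val N)
  | .pow a k => zpw (a.val N) k

/-- majorant of an expression -/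
def Ex.maj (N : ℕ → ℕ) : Ex → ℕ
  | .v i => N i
  | .c z => z.natAbs
  | .add a b => Nat.add (a.maj N) (b.maj N)
  | .sub a b => Nat.add (a.maj N) (b.maj N)
  | .mul a b => Nat.mul (a.maj N) (b.maj N)
  | .pow a k => Nat.pow (a.maj N) k

theorem Ex.val_cast (N : ℕ → ℤ) : ∀ e : Ex, ((e.val N : ℤ) : ℝ) = e.den (fun i => (N i : ℝ))
  | .v i => rfl
  | .c z => rfl
  | .add a b => by
    show (((a.val N) + (b.val N) : ℤ) : ℝ) = _
    rw [Int.cast_add, a.val_cast N, b.val_cast N]
    rfl
  | .sub a b => by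
    show (((a.val N) - (b.val N) : ℤ) : ℝ) = _
    rw [Int.cast_sub, a.val_cast N, b.val_cast N]
    rfl
  | .mul a b => by
    show (((a.val N) * (b.val N) : ℤ) : ℝ) = _
    rw [Int.cast_mul, a.val_cast N, b.val_cast N]
    rfl
  | .pow a k => by
    show ((zpw (a.val N) k : ℤ) : ℝ) = _
    rw [zpw_eq, Int.cast_pow, a.val_cast N]
    rfl

theorem Ex.aev_le (n : ℕ) (N : ℕ → ℕ) : ∀ e : Ex, e.vok n = true →
    aev n (e.toP n) N ≤ e.maj N
  | .v i, h => (aev_vr n i N (by simpa [Ex.vok] using h)).le
  | .c z, _ => (aev_const n z N).le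
  | .add a b, h => by
    simp only [Ex.vok, Bool.and_eq_true] at h
    exact (aev_add n _ _ N).trans (Nat.add_le_add (a.aev_le n N h.1) (b.aev_le n N h.2))
  | .sub a b, h => by
    simp only [Ex.vok, Bool.and_eq_true] at h
    refine (aev_add n _ _ N).trans (Nat.add_le_add (a.aev_le n N h.1) ?_)
    refine (aev_mul n _ _ N).trans ?_
    rw [aev_const]
    simpa using b.aev_le n N h.2
  | .mul a b, h => by
    simp only [Ex.vok, Bool.and_eq_true] at h
    exact (aev_mul n _ _ N).trans (Nat.mul_le_mul (a.aev_le n N h.1) (b.aev_le n N h.2))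
  | .pow a k, h => by
    simp only [Ex.vok] at h
    exact (aev_pw n _ N k).trans (Nat.pow_le_pow_left (a.aev_le n N h) k)

/-- the point is large enough for the expression `e` in `n` variables -/
def big (e : Ex) (N : ℕ → ℕ) : ℕ → Bool
  | 0 => true
  | k + 1 => Nat.blt (Nat.mul 2 (e.maj (fun i => if Nat.ble i k then 1 else N i))) (N k) &&
      big e N k

theorem big_sound (e : Ex) (N : ℕ → ℕ) : ∀ m, big e N m = true → ∀ k < m,
    2 * e.maj (fun i => if i ≤ k then 1 else N i) < N k
  | 0, _, k, hk => absurd hk (by omega)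
  | m + 1, h, k, hk => by
    simp only [big, Bool.and_eq_true, Nat.blt_eq] at h
    rcases Nat.lt_or_ge k m with h' | h'
    · exact big_sound e N m h.2 k h'
    · have hkm : k = m := by omega
      subst hkm
      have e1 : (fun i => if Nat.ble i k then 1 else N i) = fun i => if i ≤ k then 1 else N i := by
        funext i
        simp [Nat.ble_eq]
      rw [← e1]
      exact h.1

/-! ### Signs of the coefficients from the digits of the value -/

/-- digits of `V` in base `t` are less than `t / 2` and satisfy `f` -/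
def posL (t : ℕ) (f : ℕ → Bool) : ℕ → ℕ → Bool
  | 0, V => Nat.beq V 0
  | k + 1, V => Nat.blt (Nat.mul 2 (Nat.mod V t)) t && f (Nat.mod V t) &&
      posL t f k (Nat.div V t)

/-- nested digits -/
def posD : (n : ℕ) → (ℕ → ℕ) → List ℕ → ℕ → Bool
  | 0, _, _, _ => true
  | _ + 1, _, [], V => Nat.beq V 0
  | n + 1, N, d :: ds, V => posL (N 0) (posD n (fun i => N (i + 1)) ds) d V

theorem posL_sound {α : Type} (F : α → ℤ) (G : α → ℕ) (t : ℕ) (hFG : ∀ a, (F a).natAbs ≤ G a)
    (f : ℕ → Bool) (C Q : α → Prop) (hQ0 : ∀ a, C a → F a = 0 → Q a)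
    (hQ : ∀ a (V : ℕ), C a → F a = (V : ℤ) → f V = true → Q a) :
    ∀ (l : List α) (k V : ℕ), 2 * evLN G 1 l < t → (∀ a ∈ l, C a) → evLZ F (t : ℤ) l = (V : ℤ) →
      posL t f k V = true → ∀ a ∈ l, Q a
  | [], _, _, _, _, _, _ => by simp
  | b :: l, 0, V, hlt, hC, hV, h => by
    have hV0 : V = 0 := Nat.eq_of_beq_eq_true h
    have h0 : evLZ F (t : ℤ) (b :: l) = 0 := by rw [hV, hV0]; rfl
    intro a ha
    exact hQ0 a (hC a ha) (zero_list F G t hFG (b :: l) (by omega) h0 a ha)
  | b :: l, k + 1, V, hlt, hC, hV, h => by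
    simp only [posL, Bool.and_eq_true, Nat.blt_eq] at h
    obtain ⟨⟨h1, h2⟩, h3⟩ := h
    have h1' : 2 * (V % t) < t := h1
    have hlt' : 2 * (G b + evLN G 1 l) < t := by
      have := hlt
      simp only [evLN, one_mul] at this
      exact this
    have hV' : F b + (t : ℤ) * evLZ F (t : ℤ) l = (V : ℤ) := hV
    have hdm : ((V % t : ℕ) : ℤ) + (t : ℤ) * ((V / t : ℕ) : ℤ) = (V : ℤ) := by
      exact_mod_cast Nat.mod_add_div V t
    have hb : F b = ((V % t : ℕ) : ℤ) := by
      have hd : (t : ℤ) ∣ F b - ((V % t : ℕ) : ℤ) :=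
        ⟨((V / t : ℕ) : ℤ) - evLZ F (t : ℤ) l, by linarith⟩
      have hs := hFG b
      have hz : F b - ((V % t : ℕ) : ℤ) = 0 := by
        apply Int.eq_zero_of_dvd_of_natAbs_lt_natAbs hd
        rw [Int.natAbs_natCast]
        refine lt_of_le_of_lt (Int.natAbs_sub_le _ _) ?_
        rw [Int.natAbs_natCast]
        omega
      linarith
    have hl : evLZ F (t : ℤ) l = ((V / t : ℕ) : ℤ) := by
      have ht : (t : ℤ) ≠ 0 := by
        have : 0 < t := by omega
        exact_mod_cast this.ne'
      have : (t : ℤ) * evLZ F (t : ℤ) l = (t : ℤ) * ((V / t : ℕ) : ℤ) := by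
        rw [hb] at hV'
        linarith
      exact mul_left_cancel₀ ht this
    intro a ha
    rcases List.mem_cons.1 ha with h' | h'
    · rw [h']
      exact hQ b _ (hC b (by simp)) hb h2
    · exact posL_sound F G t hFG f C Q hQ0 hQ l k (V / t) (by omega)
        (fun a ha => hC a (by simp [ha])) hl h3 a h'

theorem evL_nonneg {α : Type} (v : α → ℝ) (t : ℝ) (ht : 0 ≤ t) :
    ∀ l : List α, (∀ a ∈ l, 0 ≤ v a) → 0 ≤ evL v t l
  | [], _ => le_rfl
  | a :: l, h => by
    have h1 := h a (by simp)
    have h2 := evL_nonneg v t ht l (fun b hb => h b (by simp [hb]))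
    simp only [evL]
    positivity

theorem mem_cond {n : ℕ} {p : PT (n + 1)} {N : ℕ → ℕ}
    (hN : ∀ k < n + 1, 2 * aev (n + 1) p (fun i => if i ≤ k then 1 else N i) < N k)
    (q : PT n) (hq : List.Mem q p) :
    ∀ k < n, 2 * aev n q (fun i => if i ≤ k then 1 else N (i + 1)) < N (k + 1) := by
  intro k hk
  have hk1 := hN (k + 1) (by omega)
  have key : aev (n + 1) p (fun i => if i ≤ k + 1 then 1 else N i) =
      evLN (fun q => aev n q (fun i => if i ≤ k then 1 else N (i + 1))) 1 p := by
    show evLN (fun q => aev n q (fun i => if i + 1 ≤ k + 1 then 1 else N (i + 1)))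
      (if 0 ≤ k + 1 then 1 else N 0) p = _
    simp only [Nat.add_le_add_iff_right, Nat.zero_le, if_true]
  rw [key] at hk1
  have := evLN_mem (fun q => aev n q (fun i => if i ≤ k then 1 else N (i + 1))) p q hq
  omega

theorem pos_poly : ∀ (n : ℕ) (p : PT n) (N : ℕ → ℕ) (ds : List ℕ) (V : ℕ),
    (∀ k < n, 2 * aev n p (fun i => if i ≤ k then 1 else N i) < N k) →
    evZ n p (fun i => (N i : ℤ)) = (V : ℤ) → posD n N ds V = true →
    ∀ x : ℕ → ℝ, (∀ i, 0 ≤ x i) → 0 ≤ ev n p x
  | 0, p, _, _, V, _, h0, _, x, _ => by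
    have h0' : toZ p = (V : ℤ) := h0
    show (0 : ℝ) ≤ ((toZ p : ℤ) : ℝ)
    rw [h0']
    exact_mod_cast Nat.zero_le V
  | n + 1, p, N, [], V, hN, h0, h, x, _ => by
    have hV0 : V = 0 := Nat.eq_of_beq_eq_true h
    rw [hV0] at h0
    exact (zero_poly (n + 1) p N (fun k hk => by have := hN k hk; omega) h0 x).ge
  | n + 1, p, N, d :: ds, V, hN, h0, h, x, hx => by
    have hk0 : 2 * evLN (fun q => aev n q (fun i => N (i + 1))) 1 p < N 0 := hN 0 (by omega)
    refine evL_nonneg _ _ (hx 0) p ?_
    refine posL_sound (fun q => evZ n q (fun i => (N (i + 1) : ℤ)))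
      (fun q => aev n q (fun i => N (i + 1))) (N 0)
      (fun q => natAbs_evZ n q (fun i => N (i + 1)))
      (posD n (fun i => N (i + 1)) ds)
      (fun q => ∀ k < n, 2 * aev n q (fun i => if i ≤ k then 1 else N (i + 1)) < N (k + 1))
      (fun q => 0 ≤ ev n q (fun i => x (i + 1))) ?_ ?_ p d V hk0
      (fun q hq => mem_cond hN q hq) h0 h
    · intro q hC hz
      exact (zero_poly n q (fun i => N (i + 1)) (fun k hk => by have := hC k hk; omega) hz _).ge
    · intro q W hC hW hf
      exact pos_poly n q (fun i => N (i + 1)) ds W hC hW hf _ (fun i => hx (i + 1))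

/-- an expression with nonnegative coefficients, proved at one point -/
def pchk (n : ℕ) (e : Ex) (N : ℕ → ℕ) (ds : List ℕ) : Bool :=
  e.vok n && big e N n && (match e.val (fun i => (N i : ℤ)) with
    | Int.ofNat V => posD n N ds V
    | Int.negSucc _ => false)

theorem pchk_sound (n : ℕ) (e : Ex) (N : ℕ → ℕ) (ds : List ℕ) (h : pchk n e N ds = true)
    (x : ℕ → ℝ) (hx : ∀ i, 0 ≤ x i) : 0 ≤ e.den x := by
  simp only [pchk, Bool.and_eq_true] at h
  obtain ⟨⟨hv, hb⟩, hp⟩ := h
  rw [← Ex.ev_toP n x e hv]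
  rcases hz : e.val (fun i => (N i : ℤ)) with V | V
  · rw [hz] at hp
    refine pos_poly n (e.toP n) N ds V (fun k hk => ?_) ?_ hp x hx
    · have h1 := e.aev_le n (fun i => if i ≤ k then 1 else N i) hv
      have h2 := big_sound e N n hb k hk
      omega
    · have h1 : ((evZ n (e.toP n) (fun i => (N i : ℤ)) : ℤ) : ℝ) = (((V : ℕ) : ℤ) : ℝ) := by
        rw [evZ_cast, Ex.ev_toP n _ e hv]
        have := Ex.val_cast (fun i => (N i : ℤ)) e
        rw [hz] at this
        rw [← this]
        rfl
      exact_mod_cast h1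
  · rw [hz] at hp
    exact absurd hp (by simp)

/-! ### Homogenisation -/

/-- degree bound in the variable `i` -/
def Ex.dg (i : ℕ) : Ex → ℕ
  | .v j => if Nat.beq i j then 1 else 0
  | .c _ => 0
  | .add a b => Nat.add (a.dg i) (Nat.sub (b.dg i) (a.dg i))
  | .sub a b => Nat.add (a.dg i) (Nat.sub (b.dg i) (a.dg i))
  | .mul a b => Nat.add (a.dg i) (b.dg i)
  | .pow a k => Nat.mul k (a.dg i)

/-- `∏_{i < n} (1 + v i) ^ d i` -/
def padE (d : ℕ → ℕ) : ℕ → Ex
  | 0 => .c 1
  | n + 1 => .mul (.pow (.add (.c 1) (.v n)) (d n)) (padE d n)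

/-- numerator of `e (x / (1 + x))` -/
def hom (n : ℕ) : Ex → Ex
  | .v i => .v i
  | .c z => .c z
  | .add a b => .add (.mul (hom n a) (padE (fun i => Nat.sub (b.dg i) (a.dg i)) n))
      (.mul (hom n b) (padE (fun i => Nat.sub (a.dg i) (b.dg i)) n))
  | .sub a b => .sub (.mul (hom n a) (padE (fun i => Nat.sub (b.dg i) (a.dg i)) n))
      (.mul (hom n b) (padE (fun i => Nat.sub (a.dg i) (b.dg i)) n))
  | .mul a b => .mul (hom n a) (hom n b)
  | .pow a k => .pow (hom n a) k

theorem padE_den (x : ℕ → ℝ) (d : ℕ → ℕ) : ∀ n, (padE d n).den x =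
    ∏ i ∈ Finset.range n, (1 + x i) ^ d i
  | 0 => by simp [padE, Ex.den]
  | n + 1 => by
    rw [Finset.prod_range_succ, ← padE_den x d n, padE]
    simp only [Ex.den]
    push_cast
    ring

theorem prod_pow_add (x : ℕ → ℝ) (d d' : ℕ → ℕ) (n : ℕ) :
    (∏ i ∈ Finset.range n, (1 + x i) ^ d i) * (∏ i ∈ Finset.range n, (1 + x i) ^ d' i) =
      ∏ i ∈ Finset.range n, (1 + x i) ^ (d i + d' i) := by
  rw [← Finset.prod_mul_distrib]
  exact Finset.prod_congr rfl fun i _ => (pow_add _ _ _).symm

theorem hom_den (n : ℕ) (x : ℕ → ℝ) (hx : ∀ i, 0 ≤ x i) : ∀ e : Ex, e.vok n = true →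
    (hom n e).den x = (∏ i ∈ Finset.range n, (1 + x i) ^ (e.dg i)) *
      e.den (fun i => x i / (1 + x i))
  | .v j, h => by
    have hj : j < n := by simpa [Ex.vok] using h
    have h1 : (1 + x j) ≠ 0 := by have := hx j; positivity
    have e1 : ∏ i ∈ Finset.range n, (1 + x i) ^ ((Ex.v j).dg i) = 1 + x j := by
      rw [Finset.prod_eq_single j]
      · simp [Ex.dg]
      · intro i _ hij
        simp [Ex.dg, hij]
      · intro hnj
        exact absurd (Finset.mem_range.2 hj) hnj
    rw [e1]
    simp only [hom, Ex.den]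
    field_simp
  | .c z, _ => by simp [hom, Ex.den, Ex.dg]
  | .add a b, h => by
    simp only [Ex.vok, Bool.and_eq_true] at h
    have ha := hom_den n x hx a h.1
    have hb := hom_den n x hx b h.2
    have ea : (∏ i ∈ Finset.range n, (1 + x i) ^ (a.dg i)) *
        (∏ i ∈ Finset.range n, (1 + x i) ^ (Nat.sub (b.dg i) (a.dg i))) =
        ∏ i ∈ Finset.range n, (1 + x i) ^ ((Ex.add a b).dg i) := prod_pow_add x _ _ n
    have eb : (∏ i ∈ Finset.range n, (1 + x i) ^ (b.dg i)) *
        (∏ i ∈ Finset.range n, (1 + x i) ^ (Nat.sub (a.dg i) (b.dg i))) =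
        ∏ i ∈ Finset.range n, (1 + x i) ^ ((Ex.add a b).dg i) := by
      rw [prod_pow_add]
      refine Finset.prod_congr rfl fun i _ => ?_
      congr 1
      show b.dg i + (a.dg i - b.dg i) = a.dg i + (b.dg i - a.dg i)
      omega
    simp only [hom, Ex.den, padE_den, ha, hb]
    rw [mul_add, ← ea]
    nth_rewrite 2 [ea]
    rw [← eb]
    ring
  | .sub a b, h => by
    simp only [Ex.vok, Bool.and_eq_true] at h
    have ha := hom_den n x hx a h.1
    have hb := hom_den n x hx b h.2
    have ea : (∏ i ∈ Finset.range n, (1 + x i) ^ (a.dg i)) *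
        (∏ i ∈ Finset.range n, (1 + x i) ^ (Nat.sub (b.dg i) (a.dg i))) =
        ∏ i ∈ Finset.range n, (1 + x i) ^ ((Ex.sub a b).dg i) := prod_pow_add x _ _ n
    have eb : (∏ i ∈ Finset.range n, (1 + x i) ^ (b.dg i)) *
        (∏ i ∈ Finset.range n, (1 + x i) ^ (Nat.sub (a.dg i) (b.dg i))) =
        ∏ i ∈ Finset.range n, (1 + x i) ^ ((Ex.sub a b).dg i) := by
      rw [prod_pow_add]
      refine Finset.prod_congr rfl fun i _ => ?_
      congr 1
      show b.dg i + (a.dg i - b.dg i) = a.dg i + (b.dg i - a.dg i)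
      omega
    simp only [hom, Ex.den, padE_den, ha, hb]
    rw [mul_sub, ← ea]
    nth_rewrite 2 [ea]
    rw [← eb]
    ring
  | .mul a b, h => by
    simp only [Ex.vok, Bool.and_eq_true] at h
    have ha := hom_den n x hx a h.1
    have hb := hom_den n x hx b h.2
    have e1 : ∏ i ∈ Finset.range n, (1 + x i) ^ ((Ex.mul a b).dg i) =
        (∏ i ∈ Finset.range n, (1 + x i) ^ (a.dg i)) *
        (∏ i ∈ Finset.range n, (1 + x i) ^ (b.dg i)) := (prod_pow_add x _ _ n).symm
    simp only [hom, Ex.den, ha, hb, e1]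
    ring
  | .pow a k, h => by
    simp only [Ex.vok] at h
    have ha := hom_den n x hx a h
    have e1 : ∏ i ∈ Finset.range n, (1 + x i) ^ ((Ex.pow a k).dg i) =
        (∏ i ∈ Finset.range n, (1 + x i) ^ (a.dg i)) ^ k := by
      rw [← Finset.prod_pow]
      refine Finset.prod_congr rfl fun i _ => ?_
      rw [← pow_mul]
      congr 1
      show k * a.dg i = a.dg i * k
      ring
    simp only [hom, Ex.den, ha, e1, mul_pow]

theorem den_continuous (x : ℕ → ℝ) : ∀ e : Ex, Continuous fun t : ℝ => e.den (fun i => t * x i)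
  | .v i => by simp only [Ex.den]; fun_prop
  | .c z => by simp only [Ex.den]; fun_prop
  | .add a b => by simp only [Ex.den]; exact (den_continuous x a).add (den_continuous x b)
  | .sub a b => by simp only [Ex.den]; exact (den_continuous x a).sub (den_continuous x b)
  | .mul a b => by simp only [Ex.den]; exact (den_continuous x a).mul (den_continuous x b)
  | .pow a k => by simp only [Ex.den]; exact (den_continuous x a).pow k

/-- the check of positivity on the unit box -/
def bchk (n : ℕ) (e : Ex) (N : ℕ → ℕ) (ds : List ℕ) : Bool :=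
  e.vok n && pchk n (hom n e) N ds

/-- **Soundness**: all Bernstein coefficients are nonnegative, hence the value is. -/
theorem bchk_sound (n : ℕ) (e : Ex) (N : ℕ → ℕ) (ds : List ℕ) (h : bchk n e N ds = true)
    (x : ℕ → ℝ) (h0 : ∀ i, 0 ≤ x i) (h1 : ∀ i, x i ≤ 1) : 0 ≤ e.den x := by
  simp only [bchk, Bool.and_eq_true] at h
  have key : ∀ t : ℝ, 0 ≤ t → t < 1 → 0 ≤ e.den (fun i => t * x i) := by
    intro t ht0 ht1
    have hlt : ∀ i, t * x i < 1 := by
      intro i
      have := h1 i
      have := h0 i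
      nlinarith
    have hnn : ∀ i, 0 ≤ t * x i := fun i => mul_nonneg ht0 (h0 i)
    set y : ℕ → ℝ := fun i => t * x i / (1 - t * x i) with hy
    have hy0 : ∀ i, 0 ≤ y i := fun i => div_nonneg (hnn i) (by have := hlt i; linarith)
    have hyy : (fun i => y i / (1 + y i)) = fun i => t * x i := by
      funext i
      have h2 : 1 - t * x i ≠ 0 := by have := hlt i; linarith
      have h3 : 1 + t * x i / (1 - t * x i) = 1 / (1 - t * x i) := by
        field_simp
        ring
      show t * x i / (1 - t * x i) / (1 + t * x i / (1 - t * x i)) = t * x i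
      rw [h3]
      field_simp
    have hp := pchk_sound n (hom n e) N ds h.2 y hy0
    rw [hom_den n y hy0 e h.1, hyy] at hp
    have hW : 0 < ∏ i ∈ Finset.range n, (1 + y i) ^ (e.dg i) := by
      apply Finset.prod_pos
      intro i _
      have := hy0 i
      positivity
    exact nonneg_of_mul_nonneg_right hp hW
  have hc := (den_continuous x e).tendsto 1
  have hc' : Filter.Tendsto (fun t : ℝ => e.den (fun i => t * x i)) (nhdsWithin 1 (Set.Iio 1))
      (nhds (e.den (fun i => 1 * x i))) := hc.mono_left nhdsWithin_le_nhds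
  have hge : 0 ≤ e.den (fun i => 1 * x i) := by
    refine ge_of_tendsto hc' ?_
    have hm : Set.Ioo (0 : ℝ) 1 ∈ nhdsWithin (1 : ℝ) (Set.Iio 1) :=
      Ioo_mem_nhdsLT (by norm_num)
    exact Filter.eventually_of_mem hm (fun t ht => key t ht.1.le ht.2)
  simpa using hge

/-! ### Subdivision -/

/-- substitution `v j → (s + v j) / 2`, denominators cleared -/
def half (j s : ℕ) : Ex → Ex
  | .v i => if Nat.beq i j then .add (.c (Int.ofNat s)) (.v i) else .v i
  | .c z => .c z
  | .add a b => .add (.mul (half j s a) (.c (Int.ofNat (Nat.pow 2 (Nat.sub (b.dg j) (a.dg j))))))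
      (.mul (half j s b) (.c (Int.ofNat (Nat.pow 2 (Nat.sub (a.dg j) (b.dg j))))))
  | .sub a b => .sub (.mul (half j s a) (.c (Int.ofNat (Nat.pow 2 (Nat.sub (b.dg j) (a.dg j))))))
      (.mul (half j s b) (.c (Int.ofNat (Nat.pow 2 (Nat.sub (a.dg j) (b.dg j))))))
  | .mul a b => .mul (half j s a) (half j s b)
  | .pow a k => .pow (half j s a) k

theorem ofNat_pow_cast (k : ℕ) : ((Int.ofNat (Nat.pow 2 k) : ℤ) : ℝ) = (2 : ℝ) ^ k := by
  show (((2 ^ k : ℕ) : ℤ) : ℝ) = _
  push_cast
  rfl

theorem half_den (j s : ℕ) (x : ℕ → ℝ) : ∀ e : Ex,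
    (half j s e).den x = 2 ^ (e.dg j) * e.den (Function.update x j (((s : ℝ) + x j) / 2))
  | .v i => by
    rcases Nat.decEq i j with h | h
    · have hb : Nat.beq i j = false := by
        rw [← Bool.not_eq_true, Nat.beq_eq]
        exact h
      have hb' : Nat.beq j i = false := by
        rw [← Bool.not_eq_true, Nat.beq_eq]
        exact fun h' => h h'.symm
      simp only [half, Ex.dg, hb, hb']
      simp [Ex.den, Function.update_of_ne h]
    · subst h
      have hb : Nat.beq i i = true := by rw [Nat.beq_eq]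
      simp only [half, Ex.dg, hb]
      simp [Ex.den]
      ring
  | .c z => by simp [half, Ex.den, Ex.dg]
  | .add a b => by
    have e1 : (Ex.add a b).dg j = a.dg j + (b.dg j - a.dg j) := rfl
    have e2 : a.dg j + (b.dg j - a.dg j) = b.dg j + (a.dg j - b.dg j) := by omega
    have e3 : Nat.sub (b.dg j) (a.dg j) = b.dg j - a.dg j := rfl
    have e4 : Nat.sub (a.dg j) (b.dg j) = a.dg j - b.dg j := rfl
    simp only [half, Ex.den, half_den j s x a, half_den j s x b, ofNat_pow_cast, e3, e4]
    rw [e1, mul_add]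
    nth_rewrite 2 [e2]
    rw [pow_add, pow_add]
    ring
  | .sub a b => by
    have e1 : (Ex.sub a b).dg j = a.dg j + (b.dg j - a.dg j) := rfl
    have e2 : a.dg j + (b.dg j - a.dg j) = b.dg j + (a.dg j - b.dg j) := by omega
    have e3 : Nat.sub (b.dg j) (a.dg j) = b.dg j - a.dg j := rfl
    have e4 : Nat.sub (a.dg j) (b.dg j) = a.dg j - b.dg j := rfl
    simp only [half, Ex.den, half_den j s x a, half_den j s x b, ofNat_pow_cast, e3, e4]
    rw [e1, mul_sub]
    nth_rewrite 2 [e2]
    rw [pow_add, pow_add]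
    ring
  | .mul a b => by
    have e1 : (Ex.mul a b).dg j = a.dg j + b.dg j := rfl
    simp only [half, Ex.den, half_den j s x a, half_den j s x b]
    rw [e1, pow_add]
    ring
  | .pow a k => by
    have e1 : (Ex.pow a k).dg j = k * a.dg j := rfl
    simp only [half, Ex.den, half_den j s x a]
    rw [e1, mul_pow, ← pow_mul, mul_comm k]

/-- subdivision certificate; a leaf carries the exponents of the point and the lengths -/
inductive HTree : Type
  | leaf (ex ds : List ℕ) : HTree
  | node (j : ℕ) (l r : HTree) : HTree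

/-- the point `2 ^ ex` -/
def npt (ex : List ℕ) (i : ℕ) : ℕ := Nat.pow 2 (ex.getD i 0)

/-- the check of positivity on the unit box with subdivisions -/
def tchk (n : ℕ) : HTree → Ex → Bool
  | .leaf ex ds, e => bchk n e (npt ex) ds
  | .node j l r, e => tchk n l (half j 0 e) && tchk n r (half j 1 e)

/-- **Soundness** of the check with subdivisions. -/
theorem tchk_sound (n : ℕ) : ∀ (T : HTree) (e : Ex), tchk n T e = true →
    ∀ x : ℕ → ℝ, (∀ i, 0 ≤ x i) → (∀ i, x i ≤ 1) → 0 ≤ e.den x
  | .leaf ex ds, e, h, x, h0, h1 => bchk_sound n e (npt ex) ds h x h0 h1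
  | .node j l r, e, h, x, h0, h1 => by
    simp only [tchk, Bool.and_eq_true] at h
    rcases le_total (x j) (1 / 2) with hx | hx
    · have hh := tchk_sound n l _ h.1 (Function.update x j (2 * x j)) (by
        intro i
        by_cases hi : i = j
        · subst hi; rw [Function.update_self]; have := h0 i; linarith
        · rw [Function.update_of_ne hi]; exact h0 i) (by
        intro i
        by_cases hi : i = j
        · subst hi; rw [Function.update_self]; linarith
        · rw [Function.update_of_ne hi]; exact h1 i)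
      rw [half_den] at hh
      have e1 : Function.update (Function.update x j (2 * x j)) j
          ((((0 : ℕ) : ℝ) + Function.update x j (2 * x j) j) / 2) = x := by
        funext i
        by_cases hi : i = j
        · subst hi
          rw [Function.update_self, Function.update_self]
          push_cast
          ring
        · rw [Function.update_of_ne hi, Function.update_of_ne hi]
      rw [e1] at hh
      exact nonneg_of_mul_nonneg_right hh (by positivity)
    · have hh := tchk_sound n r _ h.2 (Function.update x j (2 * x j - 1)) (by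
        intro i
        by_cases hi : i = j
        · subst hi; rw [Function.update_self]; linarith
        · rw [Function.update_of_ne hi]; exact h0 i) (by
        intro i
        by_cases hi : i = j
        · subst hi; rw [Function.update_self]; have := h1 i; linarith
        · rw [Function.update_of_ne hi]; exact h1 i)
      rw [half_den] at hh
      have e1 : Function.update (Function.update x j (2 * x j - 1)) j
          ((((1 : ℕ) : ℝ) + Function.update x j (2 * x j - 1) j) / 2) = x := by
        funext i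
        by_cases hi : i = j
        · subst hi
          rw [Function.update_self, Function.update_self]
          push_cast
          ring
        · rw [Function.update_of_ne hi, Function.update_of_ne hi]
      rw [e1] at hh
      exact nonneg_of_mul_nonneg_right hh (by positivity)

end Vale.Agent.Lib.P154.BoxPos
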