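import Mathlib

/-!
# Broadcasting on trees as a generative probability model (Mathlib `PMF`s)
-/

namespace Vale.Agent.P154.Pmf

/-- The data of level `n`: for `n = 0` the spin of the root; for `n + 1` the number `k` of children
of the root, and for each child the data of level `n` of the subtree below it. -/
def Obs (q : ℕ) : ℕ → Type
  | 0 => Fin q
  | n + 1 => Σ k : ℕ, Fin k → Obs q n

/-- The law of `k` independent samples of `p`. -/
noncomputable def iid {α : Type} (p : PMF α) : (k : ℕ) → PMF (Fin k → α)
  | 0 => PMF.pure Fin.elim0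
  | k + 1 => p.bind fun a => (iid p k).map fun f => Fin.cons a f

/-- The law of the data of level `n` given that the root has spin `i`: the number `k` of children
is sampled from `N`, and independently for every child its spin `j` is sampled from `K i` and then
the data of level `n` below it given its spin `j`. -/
noncomputable def data {q : ℕ} (N : PMF ℕ) (K : Fin q → PMF (Fin q)) :
    (n : ℕ) → Fin q → PMF (Obs q n)
  | 0 => fun i => PMF.pure i
  | n + 1 => fun i =>
      N.bind fun k => (iid ((K i).bind (data N K n)) k).map fun f => ⟨k, f⟩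

/-- The joint law of the root spin (uniform) and of the data of level `n`. -/
noncomputable def joint {q : ℕ} [NeZero q] (N : PMF ℕ) (K : Fin q → PMF (Fin q)) (n : ℕ) :
    PMF (Fin q × Obs q n) :=
  (PMF.uniformOfFintype (Fin q)).bind fun i => (data N K n i).map fun o => (i, o)

/-- The law of the data of level `n`. -/
noncomputable def seen {q : ℕ} [NeZero q] (N : PMF ℕ) (K : Fin q → PMF (Fin q)) (n : ℕ) :
    PMF (Obs q n) :=
  (joint N K n).map Prod.snd

/-- `(1/2) ∑ i |Pr (root spin = i ∣ data = o) - 1/q|`. -/
noncomputable def dev {q : ℕ} [NeZero q] (N : PMF ℕ) (K : Fin q → PMF (Fin q)) (n : ℕ)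
    (o : Obs q n) : ℝ :=
  1 / 2 * ∑ i, |(joint N K n (i, o)).toReal / (seen N K n o).toReal - 1 / q|

/-- `a_n`, the expectation of `dev`. -/
noncomputable def a {q : ℕ} [NeZero q] (N : PMF ℕ) (K : Fin q → PMF (Fin q)) (n : ℕ) : ℝ :=
  ∑' o : Obs q n, (seen N K n o).toReal * dev N K n o

end Vale.Agent.P154.Pmf
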