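import Vale.Agent.Lib.P154.Defs
import Vale.Agent.Lib.P154.PmfDefs

/-!
# The generative model of `PmfDefs` and the sums of `Defs` define the same sequences `a_n`
-/

open scoped BigOperators ENNReal

namespace Vale.Agent.P154.Pmf

open Vale.Agent.P154

theorem iid_apply {α : Type} (p : PMF α) (k : ℕ) (f : Fin k → α) :
    iid p k f = ∏ c, p (f c) := by
  classical
  induction k with
  | zero =>
    rw [Finset.univ_eq_empty, Finset.prod_empty]
    change PMF.pure Fin.elim0 f = 1
    rw [PMF.pure_apply, if_pos (Subsingleton.elim _ _)]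
  | succ k ih =>
    change (p.bind fun a => (iid p k).map fun g => (Fin.cons a g : Fin (k + 1) → α)) f = _
    rw [PMF.bind_apply, Fin.prod_univ_succ]
    have h1 : ∀ a : α, ((iid p k).map fun g => (Fin.cons a g : Fin (k + 1) → α)) f =
        if a = f 0 then iid p k (Fin.tail f) else 0 := by
      intro a
      rw [PMF.map_apply]
      by_cases h : a = f 0
      · rw [if_pos h, tsum_eq_single (Fin.tail f)]
        · rw [if_pos]
          rw [h, Fin.cons_self_tail]
        · intro g hg
          rw [if_neg]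
          intro hf
          apply hg
          rw [hf, Fin.tail_cons]
      · rw [if_neg h]
        refine ENNReal.tsum_eq_zero.2 fun g => ?_
        rw [if_neg]
        intro hf
        apply h
        rw [hf, Fin.cons_zero]
    have h2 : ∑' a : α, p a * ((iid p k).map fun g => (Fin.cons a g : Fin (k + 1) → α)) f =
        p (f 0) * iid p k (Fin.tail f) := by
      rw [tsum_eq_single (f 0)]
      · rw [h1, if_pos rfl]
      · intro a ha
        rw [h1, if_neg ha, mul_zero]
    rw [h2, ih]
    rfl

variable {q : ℕ}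

theorem data_succ (N : PMF ℕ) (K : Fin q → PMF (Fin q)) (n : ℕ) (i : Fin q) (k : ℕ)
    (f : Fin k → Obs q n) :
    data N K (n + 1) i ⟨k, f⟩ = N k * ∏ c, ∑ j, K i j * data N K n j (f c) := by
  classical
  change (N.bind fun k => (iid ((K i).bind (data N K n)) k).map
    fun f => (⟨k, f⟩ : Σ k : ℕ, Fin k → Obs q n)) ⟨k, f⟩ = _
  rw [PMF.bind_apply, tsum_eq_single k]
  · congr 1
    rw [PMF.map_apply, tsum_eq_single f]
    · rw [if_pos rfl, iid_apply]
      refine Finset.prod_congr rfl fun c _ => ?_
      rw [PMF.bind_apply, tsum_fintype]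
    · intro g hg
      rw [if_neg]
      intro h
      exact hg (eq_of_heq (Sigma.mk.inj h).2).symm
  · intro k' hk'
    rw [PMF.map_apply, ENNReal.tsum_eq_zero.2, mul_zero]
    intro g
    rw [if_neg]
    intro h
    exact hk' (Sigma.mk.inj h).1.symm

/-- the real valued likelihoods -/
noncomputable def lik (N : PMF ℕ) (K : Fin q → PMF (Fin q)) (n : ℕ) (i : Fin q)
    (o : Obs q n) : ℝ := (data N K n i o).toReal

theorem lik_succ (N : PMF ℕ) (K : Fin q → PMF (Fin q)) (n : ℕ) (i : Fin q) (k : ℕ)
    (f : Fin k → Obs q n) :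
    lik N K (n + 1) i ⟨k, f⟩ =
      (N k).toReal * ∏ c, ∑ j, (K i j).toReal * lik N K n j (f c) := by
  unfold lik
  rw [data_succ, ENNReal.toReal_mul, ENNReal.toReal_prod]
  congr 1
  refine Finset.prod_congr rfl fun c _ => ?_
  rw [ENNReal.toReal_sum]
  · refine Finset.sum_congr rfl fun j _ => ?_
    rw [ENNReal.toReal_mul]
  · intro j _
    exact ENNReal.mul_ne_top (PMF.apply_ne_top _ _) (PMF.apply_ne_top _ _)

theorem joint_apply [NeZero q] (N : PMF ℕ) (K : Fin q → PMF (Fin q)) (n : ℕ) (i : Fin q)
    (o : Obs q n) : (joint N K n (i, o)).toReal = 1 / (q : ℝ) * lik N K n i o := by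
  classical
  have h1 : joint N K n (i, o) = (q : ℝ≥0∞)⁻¹ * data N K n i o := by
    unfold joint
    rw [PMF.bind_apply, tsum_eq_single i]
    · rw [PMF.uniformOfFintype_apply, Fintype.card_fin]
      congr 1
      rw [PMF.map_apply, tsum_eq_single o]
      · rw [if_pos rfl]
      · intro o' ho'
        rw [if_neg]
        intro h
        exact ho' (Prod.ext_iff.1 h).2.symm
    · intro i' hi'
      rw [PMF.map_apply, ENNReal.tsum_eq_zero.2, mul_zero]
      intro o'
      rw [if_neg]
      intro h
      exact hi' (Prod.ext_iff.1 h).1.symm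
  rw [h1, ENNReal.toReal_mul, ENNReal.toReal_inv, ENNReal.toReal_natCast, one_div]
  rfl

theorem seen_apply [NeZero q] (N : PMF ℕ) (K : Fin q → PMF (Fin q)) (n : ℕ)
    (o : Obs q n) : (seen N K n o).toReal = obsProb (lik N K n) o := by
  have h1 : seen N K n = (PMF.uniformOfFintype (Fin q)).bind (data N K n) := by
    unfold seen joint
    rw [PMF.map_bind]
    congr 1
    funext i
    rw [PMF.map_comp]
    exact PMF.map_id _
  rw [h1, PMF.bind_apply, tsum_fintype, ENNReal.toReal_sum]
  · unfold obsProb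
    refine Finset.sum_congr rfl fun i _ => ?_
    rw [ENNReal.toReal_mul, PMF.uniformOfFintype_apply, Fintype.card_fin, ENNReal.toReal_inv,
      ENNReal.toReal_natCast, one_div]
    rfl
  · intro i _
    exact ENNReal.mul_ne_top (PMF.apply_ne_top _ _) (PMF.apply_ne_top _ _)

/-- the integrand -/
noncomputable def gg {Ω : Type} (L : Fin q → Ω → ℝ) (x : Ω) : ℝ :=
  obsProb L x * (1 / 2 * ∑ i, |posterior L x i - 1 / (q : ℝ)|)

theorem seen_mul_dev [NeZero q] (N : PMF ℕ) (K : Fin q → PMF (Fin q)) (n : ℕ)
    (o : Obs q n) : (seen N K n o).toReal * dev N K n o = gg (lik N K n) o := by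
  unfold dev gg posterior
  rw [seen_apply]
  congr 2
  refine Finset.sum_congr rfl fun i _ => ?_
  rw [joint_apply]

theorem gg_scale {Ω Ω' : Type} {L : Fin q → Ω → ℝ} {L' : Fin q → Ω' → ℝ} {x : Ω} {x' : Ω'}
    {c : ℝ} (h : ∀ i, L i x = c * L' i x') : gg L x = c * gg L' x' := by
  have h1 : obsProb L x = c * obsProb L' x' := by
    unfold obsProb
    rw [Finset.mul_sum]
    refine Finset.sum_congr rfl fun i _ => ?_
    rw [h]
    ring
  unfold gg
  rw [h1]
  by_cases hc : c = 0
  · rw [hc, zero_mul, zero_mul, zero_mul]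
  · have h2 : ∀ i, posterior L x i = posterior L' x' i := by
      intro i
      unfold posterior
      rw [h1, h]
      rw [mul_left_comm, mul_div_mul_left _ _ hc]
    rw [mul_assoc]
    congr 3
    refine Finset.sum_congr rfl fun i _ => ?_
    rw [h2]

theorem gg_nonneg {Ω : Type} {L : Fin q → Ω → ℝ} {x : Ω} (h : ∀ i, 0 ≤ L i x) :
    0 ≤ gg L x := by
  unfold gg obsProb
  refine mul_nonneg (Finset.sum_nonneg fun i _ => mul_nonneg (by positivity) (h i)) ?_
  exact mul_nonneg (by norm_num) (Finset.sum_nonneg fun i _ => abs_nonneg _)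

theorem gg_zero {Ω : Type} {L : Fin q → Ω → ℝ} {x : Ω} (h : ∀ i, L i x = 0) :
    gg L x = 0 := by
  unfold gg obsProb
  rw [Finset.sum_eq_zero, zero_mul]
  intro i _
  rw [h, mul_zero]

/-! ### regular trees -/

/-- embedding of the configurations on the regular tree -/
def emb (q m : ℕ) : (n : ℕ) → RegCfg q m n → Obs q n
  | 0 => fun x => x
  | n + 1 => fun x => ⟨m, fun c => emb q m n (x c)⟩

theorem emb_injective (q m : ℕ) (n : ℕ) : Function.Injective (emb q m n) := by
  induction n with
  | zero => exact fun x y h => h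
  | succ n ih =>
    intro x y h
    have h1 := eq_of_heq (Sigma.mk.inj h).2
    funext c
    exact ih (congrFun h1 c)

theorem lik_emb {lam : ℝ} {K : Fin q → PMF (Fin q)}
    (hK : ∀ i j, (K i j).toReal = lam * (if i = j then 1 else 0) + (1 - lam) / q) (m : ℕ)
    (n : ℕ) (i : Fin q) (x : RegCfg q m n) :
    lik (PMF.pure m) K n i (emb q m n x) = regLik q m lam n i x := by
  induction n generalizing i with
  | zero =>
    revert x
    change ∀ x : Fin q, (PMF.pure i x).toReal = if i = x then 1 else 0
    intro x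
    rw [PMF.pure_apply]
    by_cases h : i = x
    · rw [if_pos h, if_pos h.symm, ENNReal.toReal_one]
    · rw [if_neg h, if_neg (Ne.symm h), ENNReal.toReal_zero]
  | succ n ih =>
    change lik (PMF.pure m) K (n + 1) i ⟨m, fun c => emb q m n (x c)⟩ = _
    rw [lik_succ, PMF.pure_apply, if_pos rfl, ENNReal.toReal_one, one_mul]
    change _ = ∏ k : Fin m, ∑ j : Fin q, pottsKernel q lam i j * regLik q m lam n j (x k)
    refine Finset.prod_congr rfl fun c _ => Finset.sum_congr rfl fun j _ => ?_
    rw [ih, hK]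
    rfl

theorem lik_emb_zero (K : Fin q → PMF (Fin q)) (m : ℕ)
    (n : ℕ) (i : Fin q) (o : Obs q n) (ho : o ∉ Set.range (emb q m n)) :
    lik (PMF.pure m) K n i o = 0 := by
  induction n generalizing i with
  | zero => exact absurd ⟨o, rfl⟩ ho
  | succ n ih =>
    obtain ⟨k, f⟩ := o
    rw [lik_succ]
    by_cases hk : k = m
    · subst hk
      have h1 : ∃ c, f c ∉ Set.range (emb q k n) := by
        by_contra hcon
        push Not at hcon
        apply ho
        choose x hx using hcon
        exact ⟨x, congrArg (Sigma.mk k) (funext hx)⟩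
      obtain ⟨c, hc⟩ := h1
      rw [Finset.prod_eq_zero (Finset.mem_univ c), mul_zero]
      refine Finset.sum_eq_zero fun j _ => ?_
      rw [ih j _ hc, mul_zero]
    · rw [PMF.pure_apply, if_neg hk, ENNReal.toReal_zero, zero_mul]

theorem support_reg (K : Fin q → PMF (Fin q)) (m n : ℕ) :
    Function.support (gg (lik (PMF.pure m) K n)) ⊆ Set.range (emb q m n) := by
  intro o ho
  by_contra hcon
  exact ho (gg_zero fun i => lik_emb_zero K m n i o hcon)

theorem a_reg [NeZero q] {lam : ℝ} {K : Fin q → PMF (Fin q)}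
    (hK : ∀ i j, (K i j).toReal = lam * (if i = j then 1 else 0) + (1 - lam) / q) (m n : ℕ) :
    (Summable fun o => (seen (PMF.pure m) K n o).toReal * dev (PMF.pure m) K n o) ∧
      a (PMF.pure m) K n = regA q m lam n := by
  have h1 : ∀ o, (seen (PMF.pure m) K n o).toReal * dev (PMF.pure m) K n o =
      gg (lik (PMF.pure m) K n) o := seen_mul_dev _ K n
  constructor
  · simp only [h1]
    exact summable_of_hasFiniteSupport ((Set.finite_range (emb q m n)).subset (support_reg K m n))
  · unfold a
    rw [tsum_congr h1, ← (emb_injective q m n).tsum_eq (support_reg K m n), tsum_fintype]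
    unfold regA avgBias
    refine Finset.sum_congr rfl fun x _ => ?_
    have h2 := gg_scale (L := lik (PMF.pure m) K n) (L' := regLik q m lam n) (x := emb q m n x)
      (x' := x) (c := 1) (fun i => by rw [lik_emb hK, one_mul])
    rw [h2, one_mul]
    rfl

/-! ### Galton-Watson trees -/

/-- a family of pairs is a pair of families -/
def piSig {k : ℕ} {α : Type} {C : α → Type} :
    (Fin k → Σ t, C t) ≃ Σ T : Fin k → α, (c : Fin k) → C (T c) where
  toFun f := ⟨fun c => (f c).1, fun c => (f c).2⟩
  invFun p c := ⟨p.1 c, p.2 c⟩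
  left_inv _ := rfl
  right_inv _ := rfl

/-- observations are trees with spins on the last level -/
def obsEquiv (q : ℕ) : (n : ℕ) → (Σ t : GWTree n, GWCfg q n t) ≃ Obs q n
  | 0 => (Equiv.uniqueSigma (fun _ : Unit => Fin q))
  | n + 1 => (Equiv.sigmaAssoc (fun (k : ℕ) (T : Fin k → GWTree n) =>
        ((c : Fin k) → GWCfg q n (T c)))).trans
      ((Equiv.sigmaCongrRight fun k => (piSig (C := GWCfg q n)).symm.trans
        (Equiv.arrowCongr (Equiv.refl (Fin k)) (obsEquiv q n))))

theorem lik_gw {lam d : ℝ} {N : PMF ℕ}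
    (hN : ∀ k : ℕ, (N k).toReal = Real.exp (-d) * d ^ k / (Nat.factorial k))
    {K : Fin q → PMF (Fin q)}
    (hK : ∀ i j, (K i j).toReal = lam * (if i = j then 1 else 0) + (1 - lam) / q)
    (n : ℕ) (i : Fin q) (t : GWTree n) (x : GWCfg q n t) :
    lik N K n i (obsEquiv q n ⟨t, x⟩) = gwProb d n t * gwLik q lam n t i x := by
  induction n generalizing i with
  | zero =>
    revert x
    change ∀ x : Fin q, (PMF.pure i x).toReal = 1 * if i = x then 1 else 0
    intro x
    rw [one_mul, PMF.pure_apply]
    by_cases h : i = x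
    · rw [if_pos h, if_pos h.symm, ENNReal.toReal_one]
    · rw [if_neg h, if_neg (Ne.symm h), ENNReal.toReal_zero]
  | succ n ih =>
    obtain ⟨k, T⟩ := t
    change lik N K (n + 1) i ⟨k, fun c => obsEquiv q n ⟨T c, x c⟩⟩ = _
    rw [lik_succ, hN]
    change _ = (Real.exp (-d) * d ^ k / (Nat.factorial k : ℝ) * ∏ c : Fin k, gwProb d n (T c)) *
      ∏ c : Fin k, ∑ j : Fin q, pottsKernel q lam i j * gwLik q lam n (T c) j (x c)
    rw [mul_assoc, ← Finset.prod_mul_distrib]
    congr 1
    refine Finset.prod_congr rfl fun c _ => ?_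
    rw [Finset.mul_sum]
    refine Finset.sum_congr rfl fun j _ => ?_
    rw [ih, hK, mul_left_comm]
    rfl

theorem a_gw [NeZero q] {lam d : ℝ} {N : PMF ℕ}
    (hN : ∀ k : ℕ, (N k).toReal = Real.exp (-d) * d ^ k / (Nat.factorial k))
    {K : Fin q → PMF (Fin q)}
    (hK : ∀ i j, (K i j).toReal = lam * (if i = j then 1 else 0) + (1 - lam) / q) (n : ℕ)
    (hs : Summable (fun t : GWTree n => gwProb d n t * avgBias (gwLik q lam n t))) :
    (Summable fun o => (seen N K n o).toReal * dev N K n o) ∧ a N K n = gwA q d lam n := by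
  have h1 : ∀ o, (seen N K n o).toReal * dev N K n o = gg (lik N K n) o := seen_mul_dev _ K n
  have h2 : ∀ p : Σ t : GWTree n, GWCfg q n t, gg (lik N K n) (obsEquiv q n p) =
      gwProb d n p.1 * gg (gwLik q lam n p.1) p.2 := by
    rintro ⟨t, x⟩
    exact gg_scale fun i => lik_gw hN hK n i t x
  have h3 : ∀ t : GWTree n, ∑' x : GWCfg q n t, gwProb d n t * gg (gwLik q lam n t) x =
      gwProb d n t * avgBias (gwLik q lam n t) := by
    intro t
    rw [tsum_fintype, ← Finset.mul_sum]
    rfl
  have hnn : ∀ p : Σ t : GWTree n, GWCfg q n t,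
      0 ≤ gwProb d n p.1 * gg (gwLik q lam n p.1) p.2 := by
    intro p
    rw [← h2]
    exact gg_nonneg fun i => ENNReal.toReal_nonneg
  have hS : Summable fun p : Σ t : GWTree n, GWCfg q n t =>
      gwProb d n p.1 * gg (gwLik q lam n p.1) p.2 := by
    rw [summable_sigma_of_nonneg hnn]
    refine ⟨fun t => (hasSum_fintype _).summable, ?_⟩
    simp only [h3]
    exact hs
  have hS' : Summable fun o => gg (lik N K n) o := by
    rw [← (obsEquiv q n).summable_iff]
    refine hS.congr fun p => ?_
    exact (h2 p).symm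
  constructor
  · simp only [h1]
    exact hS'
  · unfold a gwA
    rw [tsum_congr h1, ← (obsEquiv q n).tsum_eq, tsum_congr h2, hS.tsum_sigma]
    exact tsum_congr h3

end Vale.Agent.P154.Pmf
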