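import Mathlib

/-!
# Scalar inequality (A) for `q = 3`
-/

namespace Vale.Agent.P154.Q3

/-- `C0 - E * W` -/
noncomputable def NN (a v h b w k : ℝ) : ℝ :=
  ((1-a)^2*(1-b)^2 + (1-b)*b*(1-3*v) + (1-a)*a*(1-3*w))
  - (1 - 3*a*b + 2*(3/2*(a-v))*(3/2*(b-w))) *
    (1 - a - b + (3/2*(a-v) - h/2)*w + (3/2*(b-w) - k/2)*v)

noncomputable def fz (z : ℝ) : ℝ := z^2 - 2/3*z^3

/-- the reduced polynomial with `h = z^4/3`, `k = u^4/3` -/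
noncomputable def n1 (z u : ℝ) : ℝ :=
  1+2*z*(1-u^2)+2*u*(1-z^2)-2*z*u*(1-z^2-u^2)-2*z^2-2*u^2+z^2*u^2
  - (1-3*(z*u)^2+2*(z*u)^3)*((z-z^2/6)*(1-2/3*u)+(u-u^2/6)*(1-2/3*z))

noncomputable def n2 (z u : ℝ) : ℝ :=
  1+2*z*(1-u^2)+2*u*(1-z^2)-2*z*u*(1-z^2-u^2)-2*z^2-2*u^2+z^2*u^2
  - (1-3*(z*u)^2+2*(z*u)^3)*((z-z^2*(1-z+3*z^2)/2)*(1-2/3*u)+(u-u^2*(1-u+3*u^2)/2)*(1-2/3*z))

theorem n1_nonneg {z u : ℝ} (hz0 : 0 ≤ z) (hz1 : z ≤ 1) (hu0 : -1/2 ≤ u) (hu1 : u ≤ 1) :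
    0 ≤ n1 z u := by
  have a1 : 0 ≤ 1 - z := by linarith
  have a2 : 0 ≤ u + 1/2 := by linarith
  have a3 : 0 ≤ 1 - u := by linarith
  have c0 : 0 ≤ (4/729)*z^0 + (160/2187)*z^1 + (-269/2187)*z^2 + (13/729)*z^3 + (74/2187)*z^4 + (-16/2187)*z^5 := by
    have e : (4/729)*z^0 + (160/2187)*z^1 + (-269/2187)*z^2 + (13/729)*z^3 + (74/2187)*z^4 + (-16/2187)*z^5 = (4/729)*(z^0*(1-z)^5) + (220/2187)*(z^1*(1-z)^4) + (491/2187)*(z^2*(1-z)^3) + (104/729)*(z^3*(1-z)^2) + (5/243)*(z^4*(1-z)^1) := by ring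
    rw [e]; positivity
  have c1 : 0 ≤ (428/729)*z^0 + (2072/2187)*z^1 + (-1609/2187)*z^2 + (-376/729)*z^3 + (-560/2187)*z^4 + (76/2187)*z^5 := by
    have e : (428/729)*z^0 + (2072/2187)*z^1 + (-1609/2187)*z^2 + (-376/729)*z^3 + (-560/2187)*z^4 + (76/2187)*z^5 = (428/729)*(z^0*(1-z)^5) + (8492/2187)*(z^1*(1-z)^4) + (19519/2187)*(z^2*(1-z)^3) + (6439/729)*(z^3*(1-z)^2) + (785/243)*(z^4*(1-z)^1) + (5/81)*(z^5*(1-z)^0) := by ring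
    rw [e]; positivity
  have c2 : 0 ≤ (1276/729)*z^0 + (3376/2187)*z^1 + (-6500/2187)*z^2 + (-320/729)*z^3 + (1088/2187)*z^4 + (-76/2187)*z^5 := by
    have e : (1276/729)*z^0 + (3376/2187)*z^1 + (-6500/2187)*z^2 + (-320/729)*z^3 + (1088/2187)*z^4 + (-76/2187)*z^5 = (1276/729)*(z^0*(1-z)^5) + (22516/2187)*(z^1*(1-z)^4) + (45284/2187)*(z^2*(1-z)^3) + (12692/729)*(z^3*(1-z)^2) + (152/27)*(z^4*(1-z)^1) + (28/81)*(z^5*(1-z)^0) := by ring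
    rw [e]; positivity
  have c3 : 0 ≤ (1300/729)*z^0 + (1240/2187)*z^1 + (-8648/2187)*z^2 + (1480/729)*z^3 + (20/2187)*z^4 + (-88/2187)*z^5 := by
    have e : (1300/729)*z^0 + (1240/2187)*z^1 + (-8648/2187)*z^2 + (1480/729)*z^3 + (20/2187)*z^4 + (-88/2187)*z^5 = (1300/729)*(z^0*(1-z)^5) + (20740/2187)*(z^1*(1-z)^4) + (35312/2187)*(z^2*(1-z)^3) + (8312/729)*(z^3*(1-z)^2) + (824/243)*(z^4*(1-z)^1) + (32/81)*(z^5*(1-z)^0) := by ring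
    rw [e]; positivity
  have c4 : 0 ≤ (464/729)*z^0 + (-160/2187)*z^1 + (-3616/2187)*z^2 + (1136/729)*z^3 + (-1136/2187)*z^4 + (112/2187)*z^5 := by
    have e : (464/729)*z^0 + (-160/2187)*z^1 + (-3616/2187)*z^2 + (1136/729)*z^3 + (-1136/2187)*z^4 + (112/2187)*z^5 = (464/729)*(z^0*(1-z)^5) + (6800/2187)*(z^1*(1-z)^4) + (9664/2187)*(z^2*(1-z)^3) + (1840/729)*(z^3*(1-z)^2) + (128/243)*(z^4*(1-z)^1) := by ring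
    rw [e]; positivity
  have c5 : 0 ≤ (16/729)*z^0 + (64/2187)*z^1 + (-128/2187)*z^2 + (-32/729)*z^3 + (80/2187)*z^4 + (32/2187)*z^5 := by
    have e : (16/729)*z^0 + (64/2187)*z^1 + (-128/2187)*z^2 + (-32/729)*z^3 + (80/2187)*z^4 + (32/2187)*z^5 = (16/729)*(z^0*(1-z)^5) + (304/2187)*(z^1*(1-z)^4) + (608/2187)*(z^2*(1-z)^3) + (128/729)*(z^3*(1-z)^2) := by ring
    rw [e]; positivity
  have key : n1 z u = ((4/729)*z^0 + (160/2187)*z^1 + (-269/2187)*z^2 + (13/729)*z^3 + (74/2187)*z^4 + (-16/2187)*z^5) * ((u+1/2)^0*(1-u)^5)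
      + ((428/729)*z^0 + (2072/2187)*z^1 + (-1609/2187)*z^2 + (-376/729)*z^3 + (-560/2187)*z^4 + (76/2187)*z^5) * ((u+1/2)^1*(1-u)^4)
      + ((1276/729)*z^0 + (3376/2187)*z^1 + (-6500/2187)*z^2 + (-320/729)*z^3 + (1088/2187)*z^4 + (-76/2187)*z^5) * ((u+1/2)^2*(1-u)^3)
      + ((1300/729)*z^0 + (1240/2187)*z^1 + (-8648/2187)*z^2 + (1480/729)*z^3 + (20/2187)*z^4 + (-88/2187)*z^5) * ((u+1/2)^3*(1-u)^2)
      + ((464/729)*z^0 + (-160/2187)*z^1 + (-3616/2187)*z^2 + (1136/729)*z^3 + (-1136/2187)*z^4 + (112/2187)*z^5) * ((u+1/2)^4*(1-u)^1)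
      + ((16/729)*z^0 + (64/2187)*z^1 + (-128/2187)*z^2 + (-32/729)*z^3 + (80/2187)*z^4 + (32/2187)*z^5) * ((u+1/2)^5*(1-u)^0) := by
    unfold n1; ring
  rw [key]
  have d0 := mul_nonneg c0 (mul_nonneg (pow_nonneg a2 0) (pow_nonneg a3 5))
  have d1 := mul_nonneg c1 (mul_nonneg (pow_nonneg a2 1) (pow_nonneg a3 4))
  have d2 := mul_nonneg c2 (mul_nonneg (pow_nonneg a2 2) (pow_nonneg a3 3))
  have d3 := mul_nonneg c3 (mul_nonneg (pow_nonneg a2 3) (pow_nonneg a3 2))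
  have d4 := mul_nonneg c4 (mul_nonneg (pow_nonneg a2 4) (pow_nonneg a3 1))
  have d5 := mul_nonneg c5 (mul_nonneg (pow_nonneg a2 5) (pow_nonneg a3 0))
  exact (add_nonneg (add_nonneg (add_nonneg (add_nonneg (add_nonneg d0 d1) d2) d3) d4) d5)

theorem n2_nonneg {z u : ℝ} (hz0 : -1/2 ≤ z) (hz1 : z ≤ 0) (hu0 : -1/2 ≤ u) (hu1 : u ≤ 0) :
    0 ≤ n2 z u := by
  have a1 : 0 ≤ z + 1/2 := by linarith
  have a0 : 0 ≤ -z := by linarith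
  have a2 : 0 ≤ u + 1/2 := by linarith
  have a3 : 0 ≤ -u := by linarith
  have c0 : 0 ≤ 36*z^0 + (152/3)*z^1 + (-257/3)*z^2 + (-181/3)*z^3 + (754/3)*z^4 + (128/3)*z^5 + (-512/3)*z^6 + (-64)*z^7 := by
    have e : 36*z^0 + (152/3)*z^1 + (-257/3)*z^2 + (-181/3)*z^3 + (754/3)*z^4 + (128/3)*z^5 + (-512/3)*z^6 + (-64)*z^7 = 1152*((z+1/2)^0*(-z)^7) + 8304*((z+1/2)^1*(-z)^6) + 32368*((z+1/2)^2*(-z)^5) + (224656/3)*((z+1/2)^3*(-z)^4) + (299696/3)*((z+1/2)^4*(-z)^3) + (223712/3)*((z+1/2)^5*(-z)^2) + (87040/3)*((z+1/2)^6*(-z)^1) + 4608*((z+1/2)^7*(-z)^0) := by ring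
    rw [e]; positivity
  have c1 : 0 ≤ 340*z^0 + (1816/3)*z^1 + (-537)*z^2 + (-628)*z^3 + (4868/3)*z^4 + 224*z^5 + (-832)*z^6 + (-240)*z^7 := by
    have e : 340*z^0 + (1816/3)*z^1 + (-537)*z^2 + (-628)*z^3 + (4868/3)*z^4 + 224*z^5 + (-832)*z^6 + (-240)*z^7 = 8304*((z+1/2)^0*(-z)^7) + 61952*((z+1/2)^1*(-z)^6) + 259296*((z+1/2)^2*(-z)^5) + (1889120/3)*((z+1/2)^3*(-z)^4) + 866208*((z+1/2)^4*(-z)^3) + 664288*((z+1/2)^5*(-z)^2) + (797696/3)*((z+1/2)^6*(-z)^1) + 43520*((z+1/2)^7*(-z)^0) := by ring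
    rw [e]; positivity
  have c2 : 0 ≤ 1332*z^0 + (7000/3)*z^1 + (-1802)*z^2 + (-2264)*z^3 + (14024/3)*z^4 + 464*z^5 + (-1616)*z^6 + (-336)*z^7 := by
    have e : 1332*z^0 + (7000/3)*z^1 + (-1802)*z^2 + (-2264)*z^3 + (14024/3)*z^4 + 464*z^5 + (-1616)*z^6 + (-336)*z^7 = 32368*((z+1/2)^0*(-z)^7) + 259296*((z+1/2)^1*(-z)^6) + 1091456*((z+1/2)^2*(-z)^5) + (7759040/3)*((z+1/2)^3*(-z)^4) + 3475264*((z+1/2)^4*(-z)^3) + 2626752*((z+1/2)^5*(-z)^2) + (3132416/3)*((z+1/2)^6*(-z)^1) + 170496*((z+1/2)^7*(-z)^0) := by ring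
    rw [e]; positivity
  have c3 : 0 ≤ 2764*z^0 + (13288/3)*z^1 + (-10852/3)*z^2 + (-12056/3)*z^3 + (22816/3)*z^4 + (1424/3)*z^5 + (-4688/3)*z^6 + (-208)*z^7 := by
    have e : 2764*z^0 + (13288/3)*z^1 + (-10852/3)*z^2 + (-12056/3)*z^3 + (22816/3)*z^4 + (1424/3)*z^5 + (-4688/3)*z^6 + (-208)*z^7 = (224656/3)*((z+1/2)^0*(-z)^7) + (1889120/3)*((z+1/2)^1*(-z)^6) + (7759040/3)*((z+1/2)^2*(-z)^5) + 5873664*((z+1/2)^3*(-z)^4) + (22848256/3)*((z+1/2)^4*(-z)^3) + (16839040/3)*((z+1/2)^5*(-z)^2) + (6579200/3)*((z+1/2)^6*(-z)^1) + 353792*((z+1/2)^7*(-z)^0) := by ring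
    rw [e]; positivity
  have c4 : 0 ≤ 3288*z^0 + (14128/3)*z^1 + (-4368)*z^2 + (-3936)*z^3 + 7456*z^4 + 240*z^5 + (-752)*z^6 + (-48)*z^7 := by
    have e : 3288*z^0 + (14128/3)*z^1 + (-4368)*z^2 + (-3936)*z^3 + 7456*z^4 + 240*z^5 + (-752)*z^6 + (-48)*z^7 = (299696/3)*((z+1/2)^0*(-z)^7) + 866208*((z+1/2)^1*(-z)^6) + 3475264*((z+1/2)^2*(-z)^5) + (22848256/3)*((z+1/2)^3*(-z)^4) + 9573376*((z+1/2)^4*(-z)^3) + 6889984*((z+1/2)^5*(-z)^2) + (7933952/3)*((z+1/2)^6*(-z)^1) + 420864*((z+1/2)^7*(-z)^0) := by ring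
    rw [e]; positivity
  have c5 : 0 ≤ 2256*z^0 + (8608/3)*z^1 + (-3104)*z^2 + (-2144)*z^3 + 4368*z^4 + 48*z^5 + (-144)*z^6 := by
    have e : 2256*z^0 + (8608/3)*z^1 + (-3104)*z^2 + (-2144)*z^3 + 4368*z^4 + 48*z^5 + (-144)*z^6 = (223712/3)*((z+1/2)^0*(-z)^7) + 664288*((z+1/2)^1*(-z)^6) + 2626752*((z+1/2)^2*(-z)^5) + (16839040/3)*((z+1/2)^3*(-z)^4) + 6889984*((z+1/2)^4*(-z)^3) + 4862976*((z+1/2)^5*(-z)^2) + (5513216/3)*((z+1/2)^6*(-z)^1) + 288768*((z+1/2)^7*(-z)^0) := by ring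
    rw [e]; positivity
  have c6 : 0 ≤ 832*z^0 + (2816/3)*z^1 + (-3584/3)*z^2 + (-1792/3)*z^3 + 1408*z^4 := by
    have e : 832*z^0 + (2816/3)*z^1 + (-3584/3)*z^2 + (-1792/3)*z^3 + 1408*z^4 = (87040/3)*((z+1/2)^0*(-z)^7) + (797696/3)*((z+1/2)^1*(-z)^6) + (3132416/3)*((z+1/2)^2*(-z)^5) + (6579200/3)*((z+1/2)^3*(-z)^4) + (7933952/3)*((z+1/2)^4*(-z)^3) + (5513216/3)*((z+1/2)^5*(-z)^2) + (2056192/3)*((z+1/2)^6*(-z)^1) + 106496*((z+1/2)^7*(-z)^0) := by ring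
    rw [e]; positivity
  have c7 : 0 ≤ 128*z^0 + 128*z^1 + (-192)*z^2 + (-64)*z^3 + 192*z^4 := by
    have e : 128*z^0 + 128*z^1 + (-192)*z^2 + (-64)*z^3 + 192*z^4 = 4608*((z+1/2)^0*(-z)^7) + 43520*((z+1/2)^1*(-z)^6) + 170496*((z+1/2)^2*(-z)^5) + 353792*((z+1/2)^3*(-z)^4) + 420864*((z+1/2)^4*(-z)^3) + 288768*((z+1/2)^5*(-z)^2) + 106496*((z+1/2)^6*(-z)^1) + 16384*((z+1/2)^7*(-z)^0) := by ring
    rw [e]; positivity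
  have key : n2 z u = (36*z^0 + (152/3)*z^1 + (-257/3)*z^2 + (-181/3)*z^3 + (754/3)*z^4 + (128/3)*z^5 + (-512/3)*z^6 + (-64)*z^7) * ((u+1/2)^0*(-u)^7)
      + (340*z^0 + (1816/3)*z^1 + (-537)*z^2 + (-628)*z^3 + (4868/3)*z^4 + 224*z^5 + (-832)*z^6 + (-240)*z^7) * ((u+1/2)^1*(-u)^6)
      + (1332*z^0 + (7000/3)*z^1 + (-1802)*z^2 + (-2264)*z^3 + (14024/3)*z^4 + 464*z^5 + (-1616)*z^6 + (-336)*z^7) * ((u+1/2)^2*(-u)^5)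
      + (2764*z^0 + (13288/3)*z^1 + (-10852/3)*z^2 + (-12056/3)*z^3 + (22816/3)*z^4 + (1424/3)*z^5 + (-4688/3)*z^6 + (-208)*z^7) * ((u+1/2)^3*(-u)^4)
      + (3288*z^0 + (14128/3)*z^1 + (-4368)*z^2 + (-3936)*z^3 + 7456*z^4 + 240*z^5 + (-752)*z^6 + (-48)*z^7) * ((u+1/2)^4*(-u)^3)
      + (2256*z^0 + (8608/3)*z^1 + (-3104)*z^2 + (-2144)*z^3 + 4368*z^4 + 48*z^5 + (-144)*z^6) * ((u+1/2)^5*(-u)^2)
      + (832*z^0 + (2816/3)*z^1 + (-3584/3)*z^2 + (-1792/3)*z^3 + 1408*z^4) * ((u+1/2)^6*(-u)^1)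
      + (128*z^0 + 128*z^1 + (-192)*z^2 + (-64)*z^3 + 192*z^4) * ((u+1/2)^7*(-u)^0) := by
    unfold n2; ring
  rw [key]
  have d0 := mul_nonneg c0 (mul_nonneg (pow_nonneg a2 0) (pow_nonneg a3 7))
  have d1 := mul_nonneg c1 (mul_nonneg (pow_nonneg a2 1) (pow_nonneg a3 6))
  have d2 := mul_nonneg c2 (mul_nonneg (pow_nonneg a2 2) (pow_nonneg a3 5))
  have d3 := mul_nonneg c3 (mul_nonneg (pow_nonneg a2 3) (pow_nonneg a3 4))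
  have d4 := mul_nonneg c4 (mul_nonneg (pow_nonneg a2 4) (pow_nonneg a3 3))
  have d5 := mul_nonneg c5 (mul_nonneg (pow_nonneg a2 5) (pow_nonneg a3 2))
  have d6 := mul_nonneg c6 (mul_nonneg (pow_nonneg a2 6) (pow_nonneg a3 1))
  have d7 := mul_nonneg c7 (mul_nonneg (pow_nonneg a2 7) (pow_nonneg a3 0))
  exact (add_nonneg (add_nonneg (add_nonneg (add_nonneg (add_nonneg (add_nonneg (add_nonneg d0 d1) d2) d3) d4) d5) d6) d7)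

end Vale.Agent.P154.Q3
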