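import Vale.Agent.Lib.P154.Q3A

/-!
# Scalar inequality (A) for `q = 3`, second part: reduction to the boundary
-/

namespace Vale.Agent.P154.Q3

theorem NN_symm (a v h b w k : ℝ) : NN a v h b w k = NN b w k a v h := by
  unfold NN; ring

/-- minorant for `h` on the negative side -/
theorem h_lower_neg {z s : ℝ} (hz0 : -1/2 ≤ z) (hz1 : z ≤ 0)
    (hs : s^3 = 1 - 3 * fz z) : z^4*(1-z+3*z^2) ≤ 1 - fz z - s := by
  have hB : s ≤ 1 - fz z - z^4*(1-z+3*z^2) := by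
    by_contra hcon
    rw [not_le] at hcon
    set B := 1 - fz z - z^4*(1-z+3*z^2) with hBdef
    have hlt : B^3 < s^3 := (Odd.strictMono_pow (by decide : Odd 3)) hcon
    have : s^3 ≤ B^3 := by
      rw [hs, hBdef]
      unfold fz
      obtain ⟨x, rfl⟩ : ∃ x, z = -x := ⟨-z, by ring⟩
      have hx0 : 0 ≤ x := by linarith
      have hx1 : x ≤ 1/2 := by linarith
      have hy : 0 ≤ 1/2 - x := by linarith
      have key : (1 - ((-x)^2 - 2/3*(-x)^3) - (-x)^4*(1-(-x)+3*(-x)^2))^3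
          - (1 - 3*((-x)^2 - 2/3*(-x)^3)) = x^5 * (8192*(x^0*(1/2-x)^13) + (286720/3)*(x^1*(1/2-x)^12) + 524288*(x^2*(1/2-x)^11) + (5470208/3)*(x^3*(1/2-x)^10) + (123458048/27)*(x^4*(1/2-x)^9) + (26526976/3)*(x^5*(1/2-x)^8) + (40672000/3)*(x^6*(1/2-x)^7) + (148157504/9)*(x^7*(1/2-x)^6) + (46579808/3)*(x^8*(1/2-x)^5) + (33100304/3)*(x^9*(1/2-x)^4) + (50959640/9)*(x^10*(1/2-x)^3) + (5898376/3)*(x^11*(1/2-x)^2) + 409874*(x^12*(1/2-x)^1) + (1030301/27)*(x^13*(1/2-x)^0)) := by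
        ring
      have : 0 ≤ x^5 * (8192*(x^0*(1/2-x)^13) + (286720/3)*(x^1*(1/2-x)^12) + 524288*(x^2*(1/2-x)^11) + (5470208/3)*(x^3*(1/2-x)^10) + (123458048/27)*(x^4*(1/2-x)^9) + (26526976/3)*(x^5*(1/2-x)^8) + (40672000/3)*(x^6*(1/2-x)^7) + (148157504/9)*(x^7*(1/2-x)^6) + (46579808/3)*(x^8*(1/2-x)^5) + (33100304/3)*(x^9*(1/2-x)^4) + (50959640/9)*(x^10*(1/2-x)^3) + (5898376/3)*(x^11*(1/2-x)^2) + 409874*(x^12*(1/2-x)^1) + (1030301/27)*(x^13*(1/2-x)^0)) := by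
        positivity
      linarith
    linarith
  linarith

theorem h_lower_pos {z s : ℝ} (hz0 : 0 ≤ z) (hz1 : z ≤ 1)
    (hs : s^3 = 1 - 3 * fz z) : z^4/3 ≤ 1 - fz z - s := by
  have hB : s ≤ 1 - fz z - z^4/3 := by
    by_contra hcon
    rw [not_le] at hcon
    set B := 1 - fz z - z^4/3 with hBdef
    have hlt : B^3 < s^3 := (Odd.strictMono_pow (by decide : Odd 3)) hcon
    have : s^3 ≤ B^3 := by
      rw [hs, hBdef]
      unfold fz
      set x := z^2 - 2/3*z^3 + z^4/3 with hx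
      have e : (1 - (z^2 - 2/3*z^3) - z^4/3)^3 - (1 - 3*(z^2-2/3*z^3)) = x^2*(3-x) - z^4 := by
        rw [hx]; ring
      have h1 : 2/3*z^2 ≤ x := by
        rw [hx]
        have : 0 ≤ z^2 * ((1 - z) * (1-z)) := by positivity
        nlinarith [this]
      have h2 : x ≤ 2/3 := by
        rw [hx]
        have hz2 : z^2 ≤ 1 := by nlinarith
        have := mul_nonneg (sub_nonneg.2 hz1) (pow_nonneg hz0 2)
        have := mul_nonneg (sub_nonneg.2 hz1) (pow_nonneg hz0 3)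
        nlinarith [mul_nonneg (sub_nonneg.2 hz1) hz0]
      have h3 : 4/9*z^4 ≤ x^2 := by
        have : (2/3*z^2)^2 ≤ x^2 := pow_le_pow_left₀ (by positivity) h1 2
        nlinarith
      have h4 : z^4 ≤ x^2*(3-x) := by
        have h5 : 0 ≤ x^2 := sq_nonneg x
        nlinarith [mul_nonneg h5 (sub_nonneg.2 h2), sq_nonneg (z^2)]
      linarith
    linarith
  linarith

/-- real-real case with `z ≥ 0` -/
theorem NN_real_pos {z u h k : ℝ} (hz0 : 0 ≤ z) (hz1 : z ≤ 1) (hu0 : -1/2 ≤ u) (hu1 : u ≤ 1)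
    (hh : z^4/3 ≤ h) (hk : u^4/3 ≤ k) : 0 ≤ NN (z^2) (fz z) h (u^2) (fz u) k := by
  have hn := n1_nonneg hz0 hz1 hu0 hu1
  have key : NN (z^2) (fz z) h (u^2) (fz u) k =
      (z*u)^2 * n1 z u + ((1-z*u)^2*(1+2*(z*u))) * ((h - z^4/3)*(u^2*(1-2/3*u))/2
        + (k-u^4/3)*(z^2*(1-2/3*z))/2) := by
    unfold NN n1 fz; ring
  rw [key]
  have h1 : 0 ≤ 1 + 2*(z*u) := by
    rcases le_or_gt 0 u with hu | hu
    · positivity
    · nlinarith
  have h2 : 0 ≤ 1 - 2/3*u := by linarith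
  have h3 : 0 ≤ 1 - 2/3*z := by linarith
  have h4 : 0 ≤ h - z^4/3 := by linarith
  have h5 : 0 ≤ k - u^4/3 := by linarith
  positivity

theorem NN_real_neg {z u h k : ℝ} (hz0 : -1/2 ≤ z) (hz1 : z ≤ 0) (hu0 : -1/2 ≤ u) (hu1 : u ≤ 0)
    (hh : z^4*(1-z+3*z^2) ≤ h) (hk : u^4*(1-u+3*u^2) ≤ k) :
    0 ≤ NN (z^2) (fz z) h (u^2) (fz u) k := by
  have hn := n2_nonneg hz0 hz1 hu0 hu1
  have key : NN (z^2) (fz z) h (u^2) (fz u) k =
      (z*u)^2 * n2 z u + ((1-z*u)^2*(1+2*(z*u))) * ((h - z^4*(1-z+3*z^2))*(u^2*(1-2/3*u))/2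
        + (k-u^4*(1-u+3*u^2))*(z^2*(1-2/3*z))/2) := by
    unfold NN n2 fz; ring
  rw [key]
  have h1 : 0 ≤ 1 + 2*(z*u) := by nlinarith
  have h2 : 0 ≤ 1 - 2/3*u := by linarith
  have h3 : 0 ≤ 1 - 2/3*z := by linarith
  have h4 : 0 ≤ h - z^4*(1-z+3*z^2) := by linarith
  have h5 : 0 ≤ k - u^4*(1-u+3*u^2) := by linarith
  positivity

/-- all real-real cases -/
theorem NN_real {z u s t : ℝ} (hz0 : -1/2 ≤ z) (hz1 : z ≤ 1) (hu0 : -1/2 ≤ u) (hu1 : u ≤ 1)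
    (hs : s^3 = 1 - 3 * fz z) (ht : t^3 = 1 - 3 * fz u) :
    0 ≤ NN (z^2) (fz z) (1 - fz z - s) (u^2) (fz u) (1 - fz u - t) := by
  have weak : ∀ {z s : ℝ}, -1/2 ≤ z → z ≤ 1 → s^3 = 1 - 3 * fz z → z^4/3 ≤ 1 - fz z - s := by
    intro z s h0 h1 hs
    rcases le_or_gt 0 z with hz | hz
    · exact h_lower_pos hz h1 hs
    · have := h_lower_neg h0 hz.le hs
      have h4 : 0 ≤ z^4 := by positivity
      nlinarith [sq_nonneg z, mul_nonneg h4 (neg_nonneg.2 hz.le), mul_nonneg h4 (sq_nonneg z)]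
  rcases le_or_gt 0 z with hz | hz
  · exact NN_real_pos hz hz1 hu0 hu1 (weak hz0 hz1 hs) (weak hu0 hu1 ht)
  · rcases le_or_gt 0 u with hu | hu
    · rw [NN_symm]
      exact NN_real_pos hu hu1 hz0 hz1 (weak hu0 hu1 ht) (weak hz0 hz1 hs)
    · exact NN_real_neg hz0 hz.le hu0 hu.le (h_lower_neg hz0 hz.le hs) (h_lower_neg hu0 hu.le ht)

theorem concave_aux {A B C x x1 x2 : ℝ} (hA : A ≤ 0) (h1 : x1 ≤ x) (h2 : x ≤ x2)
    (f1 : 0 ≤ A*x1^2+B*x1+C) (f2 : 0 ≤ A*x2^2+B*x2+C) : 0 ≤ A*x^2+B*x+C := by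
  rcases eq_or_lt_of_le (h1.trans h2) with h | h
  · have : x = x1 := le_antisymm (by linarith) h1
    rw [this]; exact f1
  · have key : (A*x^2+B*x+C)*(x2-x1) =
        (A*x1^2+B*x1+C)*(x2-x) + (A*x2^2+B*x2+C)*(x-x1) + (-A)*((x-x1)*(x2-x)*(x2-x1)) := by ring
    have h3 : 0 ≤ (A*x^2+B*x+C)*(x2-x1) := by
      rw [key]
      have a1 : 0 ≤ x2 - x := by linarith
      have a2 : 0 ≤ x - x1 := by linarith
      have a3 : 0 ≤ x2 - x1 := by linarith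
      have a4 : 0 ≤ -A := by linarith
      positivity
    exact nonneg_of_mul_nonneg_left h3 (by linarith)

/-- leading coefficient of `NN` in `a` -/
noncomputable def A2 (b w : ℝ) : ℝ := (1-b)^2 - (1-3*w) - (3/2*b-9/2*w)*(-1+3/2*w)

theorem A2_real {u : ℝ} (hu0 : -1/2 ≤ u) (hu1 : u ≤ 1) : A2 (u^2) (fz u) ≤ 0 := by
  have key : A2 (u^2) (fz u) = -(u^2*(1-u)*(1+2*u)*(3/2*(1-u)^2+1/2)) := by
    unfold A2 fz; ring
  rw [key]
  have a1 : 0 ≤ 1 - u := by linarith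
  have a2 : 0 ≤ 1 + 2*u := by linarith
  have : 0 ≤ u^2*(1-u)*(1+2*u)*(3/2*(1-u)^2+1/2) := by positivity
  linarith

/-- the roots -/
structure Roots (a v : ℝ) where
  z1 : ℝ
  z2 : ℝ
  h10 : -1/2 ≤ z1
  h11 : z1 ≤ 0
  h20 : 0 ≤ z2
  h21 : z2 ≤ 1
  f1 : fz z1 = v
  f2 : fz z2 = v
  ha1 : z1^2 ≤ a
  ha2 : a ≤ z2^2

theorem exists_roots {a p : ℝ} (ha0 : 0 ≤ a) (ha1 : a ≤ 1) (hp : p^2 ≤ a^3)
    (ht : 0 ≤ 1 - 3*a + 2*p) : Nonempty (Roots a (a - 2/3*p)) := by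
  obtain ⟨r, hr0, hr⟩ : ∃ r : ℝ, 0 ≤ r ∧ r^2 = a := ⟨Real.sqrt a, Real.sqrt_nonneg a, Real.sq_sqrt ha0⟩
  have hr1 : r ≤ 1 := by nlinarith
  have hpr : p^2 ≤ (r^3)^2 := by
    calc p^2 ≤ a^3 := hp
        _ = (r^3)^2 := by rw [← hr]; ring
  obtain ⟨hp1, hp2⟩ := abs_le.1 (abs_le_of_sq_le_sq hpr (by positivity))
  have hcont : Continuous fz := by unfold fz; fun_prop
  set v := a - 2/3*p with hv
  have hv1 : v ≤ 1/3 := by rw [hv]; linarith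
  have hv0 : 0 ≤ v := by
    rw [hv, ← hr]
    nlinarith [mul_nonneg hr0 hr0, mul_nonneg (mul_nonneg hr0 hr0) (sub_nonneg.2 hr1)]
  have hfa : v ≤ fz (-r) := by unfold fz; rw [hv, ← hr]; nlinarith
  have hfb : fz r ≤ v := by unfold fz; rw [hv, ← hr]; nlinarith
  -- positive root in [r,1]
  obtain ⟨z2, ⟨hz2a, hz2b⟩, hz2⟩ : v ∈ fz '' Set.Icc r 1 := by
    apply intermediate_value_Icc hr1 hcont.continuousOn
    constructor
    · exact hfb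
    · have : fz 1 = 1/3 := by unfold fz; norm_num
      rw [this]; exact hv1
  -- negative root in [max(-r,-1/2), 0]
  obtain ⟨z1, ⟨hz1a, hz1b⟩, hz1⟩ : v ∈ fz '' Set.Icc (max (-r) (-1/2)) 0 := by
    apply intermediate_value_Icc' (max_le (by linarith) (by norm_num)) hcont.continuousOn
    constructor
    · have : fz 0 = 0 := by unfold fz; norm_num
      rw [this]; exact hv0
    · rcases le_total (-r) (-1/2) with h | h
      · rw [max_eq_right h]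
        have : fz (-1/2) = 1/3 := by unfold fz; norm_num
        rw [this]; exact hv1
      · rw [max_eq_left h]; exact hfa
  have hz1r : -r ≤ z1 := (le_max_left _ _).trans hz1a
  have hz1h : -1/2 ≤ z1 := (le_max_right _ _).trans hz1a
  exact ⟨{ z1 := z1, z2 := z2, h10 := hz1h, h11 := hz1b, h20 := hr0.trans hz2a, h21 := hz2b,
           f1 := hz1, f2 := hz2, ha1 := by nlinarith, ha2 := by nlinarith }⟩

theorem A2_le {b w : ℝ} (R : Roots b w) : A2 b w ≤ 0 := by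
  have h1 : A2 (R.z1^2) w ≤ 0 := by
    have := A2_real R.h10 (R.h11.trans zero_le_one)
    rwa [R.f1] at this
  have h2 : A2 (R.z2^2) w ≤ 0 := by
    have := A2_real ((by norm_num : (-1/2:ℝ) ≤ 0).trans R.h20) R.h21
    rwa [R.f2] at this
  have := concave_aux (A := -1) (B := 2 - (3/2)*(1 - 3/2*w)) (C := -(3*w + (-9/2*w)*(1-3/2*w)))
    (by norm_num) R.ha1 R.ha2
    (by unfold A2 at h1; nlinarith) (by unfold A2 at h2; nlinarith)
  unfold A2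
  nlinarith

/-- `NN` is concave in `a` -/
theorem NN_concave {a a1 a2 v h b w k : ℝ} (hA : A2 b w ≤ 0) (h1 : a1 ≤ a) (h2 : a ≤ a2)
    (f1 : 0 ≤ NN a1 v h b w k) (f2 : 0 ≤ NN a2 v h b w k) : 0 ≤ NN a v h b w k := by
  have form : ∀ x, NN x v h b w k = (A2 b w) * x^2 + (NN 1 v h b w k - NN 0 v h b w k - A2 b w) * x
      + NN 0 v h b w k := by
    intro x; unfold NN A2; ring
  rw [form] at f1 f2 ⊢
  exact concave_aux hA h1 h2 f1 f2

theorem NN_nonneg {a p s b r t : ℝ} (ha0 : 0 ≤ a) (ha1 : a ≤ 1) (hp : p^2 ≤ a^3)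
    (hs0 : 0 ≤ s) (hs : s^3 = 1 - 3*a+2*p) (hb0 : 0 ≤ b) (hb1 : b ≤ 1) (hr : r^2 ≤ b^3)
    (ht0 : 0 ≤ t) (ht : t^3 = 1 - 3*b+2*r) :
    0 ≤ NN a (a-2/3*p) (1-(a-2/3*p)-s) b (b-2/3*r) (1-(b-2/3*r)-t) := by
  obtain ⟨Ra⟩ := exists_roots ha0 ha1 hp (by rw [← hs]; positivity)
  obtain ⟨Rb⟩ := exists_roots hb0 hb1 hr (by rw [← ht]; positivity)
  set v := a - 2/3*p with hv
  set w := b - 2/3*r with hw
  have hs' : s^3 = 1 - 3*v := by rw [hs, hv]; ring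
  have ht' : t^3 = 1 - 3*w := by rw [ht, hw]; ring
  have rr : ∀ z u : ℝ, -1/2 ≤ z → z ≤ 1 → -1/2 ≤ u → u ≤ 1 → fz z = v → fz u = w →
      0 ≤ NN (z^2) v (1-v-s) (u^2) w (1-w-t) := by
    intro z u h1 h2 h3 h4 h5 h6
    have := NN_real (s := s) (t := t) h1 h2 h3 h4 (by rw [h5]; exact hs') (by rw [h6]; exact ht')
    rwa [h5, h6] at this
  have n1 := Rb.h10
  have n2 := Rb.h11
  have n3 := Rb.h20
  have n4 := Rb.h21
  have m1 := Ra.h10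
  have m2 := Ra.h11
  have m3 := Ra.h20
  have m4 := Ra.h21
  -- for fixed real z, general b
  have step : ∀ z : ℝ, -1/2 ≤ z → z ≤ 1 → fz z = v → 0 ≤ NN (z^2) v (1-v-s) b w (1-w-t) := by
    intro z h1 h2 h5
    rw [NN_symm]
    have hA : A2 (z^2) v ≤ 0 := by
      have := A2_real h1 h2
      rwa [h5] at this
    apply NN_concave hA Rb.ha1 Rb.ha2
    · rw [NN_symm]; exact rr z Rb.z1 h1 h2 (by linarith) (by linarith) h5 Rb.f1
    · rw [NN_symm]; exact rr z Rb.z2 h1 h2 (by linarith) (by linarith) h5 Rb.f2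
  apply NN_concave (A2_le Rb) Ra.ha1 Ra.ha2
  · exact step Ra.z1 (by linarith) (by linarith) Ra.f1
  · exact step Ra.z2 (by linarith) (by linarith) Ra.f2

end Vale.Agent.P154.Q3
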