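import Vale.Agent.Lib.P154.Q3BC

/-!
# Scalar inequalities (B) and (C) for `q = 3`, main statements
-/

namespace Vale.Agent.P154.Q3

open Dom

theorem keyC_neg {q1 q l : ℝ} (hl0 : 0 ≤ l) (hl1 : l ≤ 1) (hq10 : 0 ≤ q1) (hq11 : q1 ≤ 1)
    (hq0 : 0 ≤ q) (hqq : q ≤ q1) : 0 ≤ 3*q1^2 - q1^3 - 3*l*q^2 + l^3*q^3 := by
  have e : 3*q1^2 - q1^3 - 3*l*q^2 + l^3*q^3 =
      (1-l)*(q1^2*(3 - q1*(1+l+l^2))) + l*((q1-q)*(3*(q1+q) - l^2*(q1^2+q1*q+q^2))) := by ring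
  rw [e]
  have e1 : 0 ≤ 3 - q1*(1+l+l^2) := by
    have h1 : l^2 ≤ 1 := by nlinarith
    have h2 : q1*(1+l+l^2) ≤ 1*(1+l+l^2) := mul_le_mul_of_nonneg_right hq11 (by positivity)
    linarith
  have e2 : 0 ≤ 3*(q1+q) - l^2*(q1^2+q1*q+q^2) := by
    have hl2 : l^2 ≤ 1 := by nlinarith
    have hql1 : q ≤ 1 := hqq.trans hq11
    have h3 : l^2*(q1^2+q1*q+q^2) ≤ 1*(q1^2+q1*q+q^2) :=
      mul_le_mul_of_nonneg_right hl2 (by positivity)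
    have h4 := mul_nonneg hq10 (sub_nonneg.2 hq11)
    have h5 := mul_nonneg hq0 (sub_nonneg.2 hql1)
    have h6 := mul_nonneg hq0 (sub_nonneg.2 hq11)
    linarith
  have e3 : 0 ≤ 1 - l := by linarith
  have e4 : 0 ≤ q1 - q := by linarith
  positivity

theorem keyC_pos {a D l : ℝ} (hl0 : 0 ≤ l) (hl1 : l ≤ 1) (ha0 : 0 ≤ a) (ha1 : a ≤ 1)
    (hD0 : 0 ≤ D) (hC2 : 2*D^2 + 3*D*(1-a) ≤ a*(1-a)) (hDa : D ≤ a) :
    0 ≤ 3*(a-D)^2 - (a-D)^3 - 3*l*(a-l*D)^2 + l^3*(a-l*D)^3 := by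
  have hD3 : 3*D ≤ a := by
    rcases eq_or_lt_of_le ha1 with h1 | h1
    · rw [h1] at hC2
      have h2 : D^2 ≤ 0 := by linarith
      have h3 : D = 0 := by
        have : D^2 = 0 := le_antisymm h2 (sq_nonneg D)
        exact pow_eq_zero_iff (by norm_num) |>.1 this
      rw [h3, h1]; norm_num
    · have hy : 0 < 1 - a := by linarith
      have h5 : (3*D)*(1-a) ≤ a*(1-a) := by linarith [sq_nonneg D]
      exact le_of_mul_le_mul_right h5 hy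
  have e : 3*(a-D)^2 - (a-D)^3 - 3*l*(a-l*D)^2 + l^3*(a-l*D)^3 =
      (1-l)*(3*(a^2 - 2*a*D*(1+l) + D^2*(1+l+l^2) - (a-D)^2*(a-D*(1+l)))
        + (a-D*(1+l))*(3*(a-D)^2 - ((a-D)^2 + (a-D)*(l*(a-l*D)) + (l*(a-l*D))^2))) := by
    ring
  rw [e]
  have hl' : 0 ≤ 1 - l := by linarith
  have hlD : l*D ≤ D := by nlinarith
  have m1 : 0 ≤ a - D*(1+l) := by linarith
  have m4 : 0 ≤ a - D := by linarith
  have m2 : 0 ≤ l*(a-l*D) := mul_nonneg hl0 (by linarith)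
  have m3 : l*(a-l*D) ≤ a - D := by
    have := mul_nonneg hl' m1
    linarith
  have m5 : 0 ≤ 3*(a-D)^2 - ((a-D)^2 + (a-D)*(l*(a-l*D)) + (l*(a-l*D))^2) := by
    have t1 := mul_nonneg m4 (sub_nonneg.2 m3)
    have t2 := mul_nonneg m2 (sub_nonneg.2 m3)
    linarith
  have m6 : 0 ≤ a^2 - 2*a*D*(1+l) + D^2*(1+l+l^2) - (a-D)^2*(a-D*(1+l)) := by
    have e6 : a^2 - 2*a*D*(1+l) + D^2*(1+l+l^2) - (a-D)^2*(a-D*(1+l)) =
      (a-D)*(a*(1-a) - 3*D*(1-a) - 2*D^2) + (1-l)*(D*(2*a - D*(l+2) - (a-D)^2)) := by ring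
    rw [e6]
    have n1 : 0 ≤ a*(1-a) - 3*D*(1-a) - 2*D^2 := by linarith
    have n2 : 0 ≤ 2*a - D*(l+2) - (a-D)^2 := by
      have h1 : (a-D)^2 ≤ a := by nlinarith
      linarith
    have := mul_nonneg m4 n1
    have := mul_nonneg hl' (mul_nonneg hD0 n2)
    linarith
  have r1 := mul_nonneg m1 m5
  have r2 : 0 ≤ 3*(a^2 - 2*a*D*(1+l) + D^2*(1+l+l^2) - (a-D)^2*(a-D*(1+l)))
        + (a-D*(1+l))*(3*(a-D)^2 - ((a-D)^2 + (a-D)*(l*(a-l*D)) + (l*(a-l*D))^2)) := by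
    linarith
  exact mul_nonneg hl' r2

theorem keyC {a p s l : ℝ} (h : Dom a p s) (hl0 : 0 ≤ l) (hl1 : l ≤ 1) :
    0 ≤ 3*(1-s)^2 - (1-s)^3 - 3*l*(a-l*(s-1+a))^2 + l^3*(a-l*(s-1+a))^3 := by
  have hs0 := h.s0
  have hs1 := h.s1
  have hC1 := h.C1
  have ha0 := h.a0
  have ha1 := h.a1
  rcases le_total (s-1+a) 0 with hD0 | hD0
  · apply keyC_neg hl0 hl1 (by linarith) (by linarith)
    · have := mul_nonneg hl0 (neg_nonneg.2 hD0)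
      linarith
    · have := mul_nonneg (sub_nonneg.2 hl1) (neg_nonneg.2 hD0)
      linarith
  · have h1 : 1 - s = a - (s-1+a) := by ring
    rw [h1]
    apply keyC_pos hl0 hl1 ha0 ha1 hD0
    · nlinarith
    · linarith

/-- inequality (C): smoothing -/
theorem scalarC {a p s l t : ℝ} (h : Dom a p s) (hl0 : 0 ≤ l) (hl1 : l ≤ 1)
    (ht : t^3 = 1 - 3*(l^2*a) + 2*(l^3*p)) :
    l^3 * (2*s^3 + 3*s - 5 + 9*a) ≤ 2*t^3 + 3*t - 5 + 9*(l^2*a) := by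
  have hs := h.hs
  have key := keyC h hl0 hl1
  have hRt : 1 - l^2*a + l^3*(s-1+a) ≤ t := by
    by_contra hc
    rw [not_le] at hc
    have h3 : t^3 < (1 - l^2*a + l^3*(s-1+a))^3 := (Odd.strictMono_pow (by decide : Odd 3)) hc
    have e : t^3 - (1 - l^2*a + l^3*(s-1+a))^3 =
        l^3*(3*(1-s)^2 - (1-s)^3 - 3*l*(a-l*(s-1+a))^2 + l^3*(a-l*(s-1+a))^3) := by
      have hp : p = (s^3 - 1 + 3*a)/2 := by linarith
      rw [ht, hp]; ring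
    have := mul_nonneg (pow_nonneg hl0 3) key
    linarith
  have e1 : l^3 * (2*s^3 + 3*s - 5 + 9*a) = l^3*(4*p + 3*a) + 3*(l^3*(s-1)) := by rw [hs]; ring
  have e2 : 2*t^3 + 3*t - 5 + 9*(l^2*a) = 2*(1 - 3*(l^2*a) + 2*(l^3*p)) + 3*t - 5 + 9*(l^2*a) := by
    rw [ht]
  rw [e1, e2]
  linarith

theorem F1_pos {z u : ℝ} (h1 : 0 ≤ z) (h2 : z ≤ 1) (h3 : 0 ≤ u) (h4 : u ≤ 1) :
    0 ≤ (8*(1-z)*(1-u)-51/10)*(1-z^2*u^2)+9*(z^2+u^2-2*z^2*u^2) := by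
  rcases le_total z (1/2) with hz | hz <;> rcases le_total u (1/2) with hu | hu
  · exact F1_box0 h1 hz h3 hu
  · exact F1_box1 h1 hz hu h4
  · exact F1_box2 hz h2 h3 hu
  · exact F1_box3 hz h2 hu h4

theorem G2_pos {u b : ℝ} (h1 : 0 ≤ u) (h2 : u ≤ 4/5) (h3 : 0 ≤ b) (h4 : b ≤ 1) :
    0 ≤ (1-b)*(2-b)*(4*(1-u)*(1+u)^2-u*(2+u))*(1-u^2*b)+(1+u)^2*(9*(u^2+b-2*u^2*b)-51/10*(1-u^2*b)) := by
  rcases le_total u (2/5) with hz | hz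
  · exact G2_box0 h1 hz h3 h4
  · rcases le_total u (3/5) with hz' | hz'
    · exact G2_box1 hz hz' h3 h4
    · exact G2_box2 hz' h2 h3 h4

/-- upper bound for `s - y` -/
theorem D_upper {a p s u : ℝ} (h : Dom a p s) (hu0 : 0 ≤ u) (hu : u^2 = a)
    (hp : p ≤ u^3) : 3*(1+u)^2*(s - (1-a)) ≤ u^3*(2+u) := by
  have h1u : 0 < 3*(1+u)^2 := by positivity
  have hB : s ≤ (1-a) + u^3*(2+u)/(3*(1+u)^2) := by
    by_contra hc
    rw [not_le] at hc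
    set D0 := u^3*(2+u)/(3*(1+u)^2) with hD0
    have hD0' : 0 ≤ D0 := by rw [hD0]; positivity
    have h3 : ((1-a) + D0)^3 < s^3 := (Odd.strictMono_pow (by decide : Odd 3)) hc
    have h4 : s^3 ≤ (1-u)^2*(1+2*u) := by rw [h.hs, ← hu]; nlinarith
    have h5 : (1-u)^2*(1+2*u) ≤ ((1-a)+D0)^3 := by
      have e1 : D0*(3*(1+u)^2) = u^3*(2+u) := by rw [hD0]; field_simp
      have e2 : 3*(1-a)^2*D0 = (1-u)^2*(u^3*(2+u)) := by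
        rw [← e1, ← hu]; ring
      have e3 : ((1-a)+D0)^3 = (1-a)^3 + 3*(1-a)^2*D0 + (3*(1-a)*D0^2 + D0^3) := by ring
      have e4 : (1-a)^3 + (1-u)^2*(u^3*(2+u)) = (1-u)^2*(1+2*u) := by rw [← hu]; ring
      have e5 : 0 ≤ 3*(1-a)*D0^2 + D0^3 := by
        have : 0 ≤ 1 - a := by linarith [h.a1]
        positivity
      rw [e3, e2]; linarith
    linarith
  have h2 : s - (1-a) ≤ u^3*(2+u)/(3*(1+u)^2) := by linarith
  rw [le_div_iff₀ h1u] at h2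
  linarith

theorem Bpos {u : ℝ} (hu0 : 0 ≤ u) (hu4 : u ≤ 4/5) : 0 ≤ 4*(1-u)*(1+u)^2 - u*(2+u) := by
  have h2 : u^2 ≤ 4/5*u := by nlinarith
  have h3 : u^3 ≤ 4/5*u^2 := by nlinarith [mul_nonneg (sq_nonneg u) (sub_nonneg.2 hu4)]
  linarith

theorem opp_small {a b u x d X' M : ℝ} (hu0 : 0 ≤ u) (hu4 : u ≤ 4/5) (hu : u^2 = a)
    (ha0 : 0 ≤ a) (hb0 : 0 ≤ b) (hb1 : b ≤ 1) (hX2 : 4*a*(1-u) ≤ x)
    (hDu : 3*(1+u)^2*d ≤ u^3*(2+u)) (hXl : b*(1-b)*(2-b) ≤ X')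
    (hM : a + b - 2*a*b ≤ M*(1-a*b)) :
    0 ≤ (X'*(x - 3*d) + a*b*(9*M-5)) - 1/10*(a*b) := by
  have hG := G2_pos hu0 hu4 hb0 hb1
  have h1u : 0 < (1+u)^2 := by positivity
  have hBD : a*(4*(1-u)*(1+u)^2 - u*(2+u)) ≤ (x - 3*d)*(1+u)^2 := by
    have e : a*(4*(1-u)*(1+u)^2 - u*(2+u)) = (4*a*(1-u))*(1+u)^2 - u^3*(2+u) := by
      rw [← hu]; ring
    rw [e]
    have := mul_le_mul_of_nonneg_right hX2 h1u.le
    linarith
  have hBpos := Bpos hu0 hu4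
  have hb1' : 0 ≤ 1 - b := by linarith
  have hb2' : 0 ≤ 2 - b := by linarith
  have hXX : (a*(4*(1-u)*(1+u)^2 - u*(2+u)))*(b*(1-b)*(2-b)) ≤ ((x - 3*d)*(1+u)^2)*X' := by
    apply mul_le_mul hBD hXl (by positivity)
    exact le_trans (mul_nonneg ha0 hBpos) hBD
  have hab : a*b < 1 := by
    have : a ≤ 16/25 := by rw [← hu]; nlinarith
    nlinarith
  have h1ab : 0 < 1 - a*b := by linarith
  have hfin : 0 ≤ ((X'*(x - 3*d) + a*b*(9*M-5)) - 1/10*(a*b)) * ((1+u)^2*(1-a*b)) := by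
    have e1 : ((X'*(x - 3*d) + a*b*(9*M-5)) - 1/10*(a*b)) * ((1+u)^2*(1-a*b)) =
      (((x - 3*d)*(1+u)^2)*X')*(1-a*b) + a*b*((1+u)^2*(9*(M*(1-a*b)) - 51/10*(1-a*b))) := by
      ring
    rw [e1]
    have e2 : (a*(4*(1-u)*(1+u)^2 - u*(2+u)))*(b*(1-b)*(2-b))*(1-a*b) +
        a*b*((1+u)^2*(9*(a+b-2*a*b) - 51/10*(1-a*b))) =
        a*b*((1-b)*(2-b)*(4*(1-u)*(1+u)^2-u*(2+u))*(1-u^2*b)+(1+u)^2*(9*(u^2+b-2*u^2*b)-51/10*(1-u^2*b))) := by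
      rw [← hu]; ring
    have e3 : 0 ≤ a*b*((1-b)*(2-b)*(4*(1-u)*(1+u)^2-u*(2+u))*(1-u^2*b)+(1+u)^2*(9*(u^2+b-2*u^2*b)-51/10*(1-u^2*b))) :=
      mul_nonneg (mul_nonneg ha0 hb0) hG
    have e4 := mul_le_mul_of_nonneg_right hXX h1ab.le
    have e5 : a*b*((1+u)^2*(9*(a+b-2*a*b) - 51/10*(1-a*b))) ≤
        a*b*((1+u)^2*(9*(M*(1-a*b)) - 51/10*(1-a*b))) := by
      apply mul_le_mul_of_nonneg_left _ (mul_nonneg ha0 hb0)
      apply mul_le_mul_of_nonneg_left _ h1u.le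
      linarith
    linarith
  exact nonneg_of_mul_nonneg_left hfin (mul_pos h1u h1ab)

theorem opp_large {a b u x d X' M : ℝ} (hu0 : 0 ≤ u) (hu1 : u ≤ 1) (hu4 : 4/5 ≤ u) (hu : u^2 = a)
    (ha0 : 0 ≤ a) (hb0 : 0 ≤ b) (hX2 : 4*a*(1-u) ≤ x)
    (hDu : 3*(1+u)^2*d ≤ u^3*(2+u)) (hX'0 : 0 ≤ X') (hXb : X' ≤ 3*b) (hMa : a ≤ M) :
    0 ≤ (X'*(x - 3*d) + a*b*(9*M-5)) - 1/10*(a*b) := by
  have hab := mul_nonneg ha0 hb0
  have hD4 : 4*d ≤ a := by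
    have h1 : 3*(1+u)^2*(4*d) ≤ 3*(1+u)^2*a := by
      have e : 3*(1+u)^2*a - 4*(u^3*(2+u)) = u^2*((3+u)*(1-u)) := by rw [← hu]; ring
      have h2 : 0 ≤ u^2*((3+u)*(1-u)) := by
        have : 0 ≤ 1 - u := by linarith
        positivity
      linarith
    exact le_of_mul_le_mul_left h1 (by positivity)
  have hMu : 16/25 ≤ M := by
    have : 16/25 ≤ a := by rw [← hu]; nlinarith
    linarith
  rcases le_total 0 (x - 3*d) with hs | hs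
  · have h1 : 0 ≤ X'*(x - 3*d) := mul_nonneg hX'0 hs
    have h2 : a*b*(76/100) ≤ a*b*(9*M-5) := mul_le_mul_of_nonneg_left (by linarith) hab
    linarith
  · have h1 : (3*b)*(x-3*d) ≤ X'*(x - 3*d) := mul_le_mul_of_nonpos_right hXb hs
    have h2 : a*(4*(1-u) - 3/4) ≤ x-3*d := by linarith
    have h3 : (3*b)*(a*(4*(1-u) - 3/4)) ≤ (3*b)*(x-3*d) :=
      mul_le_mul_of_nonneg_left h2 (by linarith)
    have h4 : a*b*(9*u^2-5) ≤ a*b*(9*M-5) :=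
      mul_le_mul_of_nonneg_left (by rw [hu]; linarith) hab
    have h5 : (3*b)*(a*(4*(1-u) - 3/4)) + a*b*(9*u^2-5) = a*b*((3*u-2)^2+3/4) := by ring
    have h6 : a*b*(3/4) ≤ a*b*((3*u-2)^2+3/4) :=
      mul_le_mul_of_nonneg_left (by linarith [sq_nonneg (3*u-2)]) hab
    linarith

/-- the opposite-sign case of (B) -/
theorem scalarB_opp {a p s b r t M : ℝ} (h : Dom a p s) (h' : Dom b r t)
    (hMa : a ≤ M) (hM : a + b - 2*a*b ≤ M*(1-a*b))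
    (hD : 0 ≤ s - (1-a)) (hD' : t - (1-b) ≤ 0) :
    1/10*(a*b) ≤ 2*(2*(a-p))*(2*(b-r)) + 3*(s-(1-a))*(t-(1-b)) + a*b*(9*M-5) := by
  obtain ⟨u, hu0, hu1, hu, hpu, _⟩ := h.exists_sqrt
  have hDu := D_upper h hu0 hu hpu
  have ha0 := h.a0
  have hb0 := h'.a0
  have hb1 := h'.a1
  have hX'0 : 0 ≤ 2*(b-r) := by linarith [h'.p_le]
  have hXb : 2*(b-r) ≤ 3*b := by linarith [h'.neg_half_le_p]
  have hτ' : 2*(b-r) = (1-b) - t^3 := by rw [h'.hs]; ring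
  have hDX : -(t - (1-b)) ≤ 2*(b-r) := by
    rw [hτ']; linarith [h'.s3_le_s]
  have hXl : b*(1-b)*(2-b) ≤ 2*(b-r) := by
    have ht : t ≤ 1 - b := by linarith
    have : t^3 ≤ (1-b)^3 := pow_le_pow_left₀ h'.s0 ht 3
    rw [hτ']; linarith
  have hX2 : 4*a*(1-u) ≤ 4*(a-p) := by
    have : 4*a*(1-u) = 4*a - 4*u^3 := by rw [← hu]; ring
    linarith
  have step : (2*(b-r))*(4*(a-p) - 3*(s-(1-a))) ≤
      2*(2*(a-p))*(2*(b-r)) + 3*(s-(1-a))*(t-(1-b)) := by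
    have := mul_nonneg hD (by linarith : 0 ≤ 2*(b-r) + (t-(1-b)))
    linarith
  rcases le_total u (4/5) with hu4 | hu4
  · have := opp_small (x := 4*(a-p)) (d := s-(1-a)) (X' := 2*(b-r)) (M := M)
      hu0 hu4 hu ha0 hb0 hb1 hX2 hDu hXl hM
    linarith
  · have := opp_large (x := 4*(a-p)) (d := s-(1-a)) (X' := 2*(b-r)) (M := M)
      hu0 hu1 hu4 hu ha0 hb0 hX2 hDu hX'0 hXb hMa
    linarith

theorem scalarB_same {a p s b r t M : ℝ} (h : Dom a p s) (h' : Dom b r t)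
    (hM : a + b - 2*a*b ≤ M*(1-a*b)) (hM1 : a = 1 → b = 1 → M = 1)
    (hD : 0 ≤ (s - (1-a))*(t - (1-b))) :
    1/10*(a*b) ≤ 2*(2*(a-p))*(2*(b-r)) + 3*(s-(1-a))*(t-(1-b)) + a*b*(9*M-5) := by
  obtain ⟨u, hu0, hu1, hu, hpu, _⟩ := h.exists_sqrt
  obtain ⟨w, hw0, hw1, hw, hrw, _⟩ := h'.exists_sqrt
  have ha0 := h.a0
  have ha1 := h.a1
  have hb0 := h'.a0
  have hb1 := h'.a1
  have hX : 2*a*(1-u) ≤ 2*(a-p) := by rw [← hu]; nlinarith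
  have hX' : 2*b*(1-w) ≤ 2*(b-r) := by rw [← hw]; nlinarith
  have hXX : (2*a*(1-u))*(2*b*(1-w)) ≤ (2*(a-p))*(2*(b-r)) := by
    apply mul_le_mul hX hX'
    · have : 0 ≤ 1 - w := by linarith
      positivity
    · linarith [h.p_le]
  have hab1 : a*b ≤ 1 := by nlinarith
  rcases eq_or_lt_of_le hab1 with hab | hab
  · have ha : a = 1 := by nlinarith
    have hb : b = 1 := by nlinarith
    have hM' := hM1 ha hb
    subst hM'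
    have h1 : 0 ≤ (2*(a-p))*(2*(b-r)) := mul_nonneg (by linarith [h.p_le]) (by linarith [h'.p_le])
    have h2 := mul_nonneg ha0 hb0
    linarith
  · have h1ab : 0 < 1 - a*b := by linarith
    have hF := F1_pos hu0 hu1 hw0 hw1
    have hfin : 0 ≤ ((8*a*b*(1-u)*(1-w) + a*b*(9*M-5)) - 1/10*(a*b))*(1-a*b) := by
      have e1 : ((8*a*b*(1-u)*(1-w) + a*b*(9*M-5)) - 1/10*(a*b))*(1-a*b) =
        a*b*((8*(1-u)*(1-w) - 51/10)*(1-a*b) + 9*(M*(1-a*b))) := by ring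
      rw [e1]
      have e2 : 0 ≤ (8*(1-u)*(1-w) - 51/10)*(1-a*b) + 9*(M*(1-a*b)) := by
        have e3 : (8*(1-u)*(1-w)-51/10)*(1-u^2*w^2)+9*(u^2+w^2-2*u^2*w^2) =
          (8*(1-u)*(1-w)-51/10)*(1-a*b)+9*(a+b-2*a*b) := by rw [← hu, ← hw]
        rw [e3] at hF
        linarith
      exact mul_nonneg (mul_nonneg ha0 hb0) e2
    have := nonneg_of_mul_nonneg_left hfin h1ab
    linarith

/-- inequality (B), scalar form -/
theorem scalarB {a p s b r t M : ℝ} (h : Dom a p s) (h' : Dom b r t)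
    (hMa : a ≤ M) (hMb : b ≤ M) (hM : a + b - 2*a*b ≤ M*(1-a*b)) (hM1 : a = 1 → b = 1 → M = 1) :
    1/10*(a*b) ≤ 2*(2*(a-p))*(2*(b-r)) + 3*(s-(1-a))*(t-(1-b)) + a*b*(9*M-5) := by
  rcases le_total 0 (s-(1-a)) with hD | hD <;> rcases le_total 0 (t-(1-b)) with hD' | hD'
  · exact scalarB_same h h' hM hM1 (mul_nonneg hD hD')
  · exact scalarB_opp h h' hMa hM hD hD'
  · have := scalarB_opp h' h hMb (by linarith) hD' hD
    linarith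
  · exact scalarB_same h h' hM hM1 (mul_nonneg_of_nonpos_of_nonpos hD hD')

end Vale.Agent.P154.Q3
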