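import Vale.Agent.Lib.P154.Q3A2
import Vale.Agent.Lib.P154.Q3BC2

/-!
# From scalar inequalities to triples, `q = 3`, normalised (coordinates sum to `3`)
-/

namespace Vale.Agent.P154.Q3

open Dom

/-- cube root -/
noncomputable def cbrt (x : ℝ) : ℝ := x ^ ((1:ℝ)/3)

theorem cbrt_nonneg {x : ℝ} (hx : 0 ≤ x) : 0 ≤ cbrt x := Real.rpow_nonneg hx _

theorem cbrt_pow {x : ℝ} (hx : 0 ≤ x) : (cbrt x)^3 = x := by
  unfold cbrt
  rw [← Real.rpow_natCast, ← Real.rpow_mul hx]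
  norm_num

theorem cbrt_mul {x y : ℝ} (hx : 0 ≤ x) (hy : 0 ≤ y) : cbrt (x*y) = cbrt x * cbrt y :=
  Real.mul_rpow hx hy

theorem cbrt_cube {x : ℝ} (hx : 0 ≤ x) : cbrt (x^3) = x := by
  unfold cbrt
  rw [← Real.rpow_natCast, ← Real.rpow_mul hx]
  norm_num

/-- `a` of a triple with sum `3` -/
noncomputable def aT (x y z : ℝ) : ℝ := (x^2+y^2+z^2-3)/6
noncomputable def pT (x y z : ℝ) : ℝ := (x*y*z - 1 + 3*aT x y z)/2

theorem dom_of {x y z : ℝ} (hx : 0 ≤ x) (hy : 0 ≤ y) (hz : 0 ≤ z) (hs : x+y+z = 3) :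
    Dom (aT x y z) (pT x y z) (cbrt (x*y*z)) := by
  have hz' : z = 3 - x - y := by linarith
  refine ⟨?_, ?_, ?_, ?_, ?_⟩
  · unfold aT
    have : x^2+y^2+z^2-3 = (x-1)^2+(y-1)^2+(z-1)^2 := by rw [hz']; ring
    rw [this]; positivity
  · unfold aT
    have : x^2+y^2+z^2-3 = 6 - 2*(x*y+y*z+z*x) := by rw [hz']; ring
    rw [this]
    have : 0 ≤ x*y+y*z+z*x := by positivity
    linarith
  · have : (x-y)^2*(y-z)^2*(z-x)^2 = 108*((aT x y z)^3 - (pT x y z)^2) := by
      unfold pT aT; rw [hz']; ring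
    have h2 : 0 ≤ (x-y)^2*(y-z)^2*(z-x)^2 := by positivity
    linarith
  · exact cbrt_nonneg (by positivity)
  · rw [cbrt_pow (by positivity)]; unfold pT; ring

/-- chi of a triple, in terms of `Z`, `Y` -/
theorem inv_lower {Y Z k : ℝ} (hZ : 0 ≤ Z) (hY : 0 ≤ Y) (h0 : Z = 0 → Y = 0) :
    2*k*Y - k^2*Y*Z ≤ Y/Z := by
  rcases eq_or_lt_of_le hZ with h | h
  · have := h0 h.symm
    rw [this]; simp
  · rw [le_div_iff₀ h]
    have : Y - (2*k*Y - k^2*Y*Z)*Z = Y*(1-k*Z)^2 := by ring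
    have h2 : 0 ≤ Y*(1-k*Z)^2 := by positivity
    linarith

/-- conclusion of (A) from the bounds on `R` -/
theorem scalarA_concl {a p s b r t R : ℝ} (h : Dom a p s) (h' : Dom b r t)
    (hE0 : 0 ≤ 1 - 3*a*b + 2*p*r) (hR0 : 0 ≤ R) (hR1 : R ≤ 1)
    (hRt : ∀ x : ℝ, 2*x*((1-a)^2*(1-b)^2 + (1-b)*b*s^3 + (1-a)*a*t^3)
      - x^2*(1 - 3*a*b + 2*p*r)*((1-a)^2*(1-b)^2 + (1-b)*b*s^3 + (1-a)*a*t^3) ≤ R) :
    6 - 6*R ≤ 6*(a + b - (2*s^3+3*s-5+9*a)*((1-t^3)/18) - (2*t^3+3*t-5+9*b)*((1-s^3)/18)) := by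
  have ha0 := h.a0
  have ha1 := h.a1
  have hb0 := h'.a0
  have hb1 := h'.a1
  have hs0 := pow_nonneg h.s0 3
  have ht0 := pow_nonneg h'.s0 3
  have hN := NN_nonneg ha0 ha1 h.hp h.s0 h.hs hb0 hb1 h'.hp h'.s0 h'.hs
  set C0 := (1-a)^2*(1-b)^2 + (1-b)*b*s^3 + (1-a)*a*t^3 with hC0
  set E := 1 - 3*a*b + 2*p*r with hE
  set W := 1 - (a + b - (2*s^3+3*s-5+9*a)*((1-t^3)/18) - (2*t^3+3*t-5+9*b)*((1-s^3)/18)) with hW
  have hp : p = (s^3 - 1 + 3*a)/2 := by rw [h.hs]; ring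
  have hr : r = (t^3 - 1 + 3*b)/2 := by rw [h'.hs]; ring
  have hNN : NN a (a-2/3*p) (1-(a-2/3*p)-s) b (b-2/3*r) (1-(b-2/3*r)-t) = C0 - E*W := by
    rw [hC0, hE, hW, hp, hr]; unfold NN; ring
  rw [hNN] at hN
  suffices hWR : W ≤ R by linarith
  have h1a : 0 ≤ 1 - a := by linarith
  have h1b : 0 ≤ 1 - b := by linarith
  rcases le_or_gt W 0 with hW0 | hW0
  · linarith
  · rcases eq_or_lt_of_le hE0 with hE1 | hE1
    · exfalso
      have hC0' : (1-a)^2*(1-b)^2 ≤ C0 := by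
        have h1 := mul_nonneg (mul_nonneg h1b hb0) hs0
        have h2 := mul_nonneg (mul_nonneg h1a ha0) ht0
        rw [hC0]; linarith
      have hC0n : 0 ≤ C0 := le_trans (by positivity) hC0'
      rcases eq_or_lt_of_le hC0n with hc | hc
      · -- C0 = 0
        have h3 : ((1-a)*(1-b))^2 = 0 := by
          apply le_antisymm _ (sq_nonneg _)
          calc ((1-a)*(1-b))^2 = (1-a)^2*(1-b)^2 := by ring
            _ ≤ 0 := by rw [hc]; exact hC0'
        have h4 : (1-a)*(1-b) = 0 := by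
          exact pow_eq_zero_iff (by norm_num : (2:ℕ) ≠ 0) |>.1 h3
        -- general fact: if b = 1 then W ≤ 0
        have aux : ∀ {a p s b r t : ℝ}, Dom a p s → Dom b r t → b = 1 →
            1 - (a + b - (2*s^3+3*s-5+9*a)*((1-t^3)/18) - (2*t^3+3*t-5+9*b)*((1-s^3)/18)) ≤ 0 := by
          intro a p s b r t h h' hb
          subst hb
          have h5 := h'.hs
          have h6 := h'.s0
          have h7 := h'.hp
          have h8 := h'.p_le
          have h9 := pow_nonneg h6 3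
          have h10 : t^3 = 0 := by linarith
          have h11 : t = 0 := by exact pow_eq_zero_iff (by norm_num : (3:ℕ) ≠ 0) |>.1 h10
          have h12 := h.h_nonneg
          have h13 := h.neg_le_p
          have h14 : s^3 = 1 - 3*a+2*p := h.hs
          have h15 := h.a0
          rw [h10, h11, h14]
          linarith
        rcases mul_eq_zero.1 h4 with h5 | h5
        · have := aux h' h (by linarith)
          rw [hW] at hW0
          linarith
        · have := aux h h' (by linarith)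
          rw [hW] at hW0
          linarith
      · have := hRt (1/C0)
        rw [← hE1] at this
        have e : 2*(1/C0)*C0 - (1/C0)^2*0*C0 = 2 := by field_simp; ring
        rw [e] at this
        linarith
    · have h1 := hRt (1/E)
      have e : 2*(1/E)*C0 - (1/E)^2*E*C0 = C0/E := by field_simp; ring
      rw [e] at h1
      have h2 : W ≤ C0/E := by
        rw [le_div_iff₀ hE1]; linarith
      linarith

end Vale.Agent.P154.Q3
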