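import Mathlib

/-!
# Scalar inequalities (B) and (C) for `q = 3`
-/

namespace Vale.Agent.P154.Q3

theorem F1_box0 {z u : ℝ} (h1 : 0 ≤ z) (h2 : z ≤ (1/2)) (h3 : 0 ≤ u) (h4 : u ≤ (1/2)) :
    0 ≤ (8*(1-z)*(1-u)-51/10)*(1-z^2*u^2)+9*(z^2+u^2-2*z^2*u^2) := by
  have b1 : 0 ≤ z := by linarith
  have b2 : 0 ≤ ((1/2)-z) := by linarith
  have b3 : 0 ≤ u := by linarith
  have b4 : 0 ≤ ((1/2)-u) := by linarith
  have c0 : 0 ≤ (232/5)*z^0 + (-128)*z^1 + 144*z^2 := by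
    have e : (232/5)*z^0 + (-128)*z^1 + 144*z^2 = (3712/5)*(z^0*((1/2)-z)^4) + (9728/5)*(z^1*((1/2)-z)^3) + (9792/5)*(z^2*((1/2)-z)^2) + (5248/5)*(z^3*((1/2)-z)^1) + (1472/5)*(z^4*((1/2)-z)^0) := by ring
    rw [e]; positivity
  have c1 : 0 ≤ (608/5)*z^0 + (-448)*z^1 + 576*z^2 := by
    have e : (608/5)*z^0 + (-448)*z^1 + 576*z^2 = (9728/5)*(z^0*((1/2)-z)^4) + (20992/5)*(z^1*((1/2)-z)^3) + (16128/5)*(z^2*((1/2)-z)^2) + (8192/5)*(z^3*((1/2)-z)^1) + (3328/5)*(z^4*((1/2)-z)^0) := by ring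
    rw [e]; positivity
  have c2 : 0 ≤ (612/5)*z^0 + (-576)*z^1 + (3902/5)*z^2 + 32*z^3 := by
    have e : (612/5)*z^0 + (-576)*z^1 + (3902/5)*z^2 + 32*z^3 = (9792/5)*(z^0*((1/2)-z)^4) + (16128/5)*(z^1*((1/2)-z)^3) + 1048*(z^2*((1/2)-z)^2) + (1584/5)*(z^3*((1/2)-z)^1) + 536*(z^4*((1/2)-z)^0) := by ring
    rw [e]; positivity
  have c3 : 0 ≤ (328/5)*z^0 + (-320)*z^1 + (2124/5)*z^2 + 48*z^3 := by
    have e : (328/5)*z^0 + (-320)*z^1 + (2124/5)*z^2 + 48*z^3 = (5248/5)*(z^0*((1/2)-z)^4) + (8192/5)*(z^1*((1/2)-z)^3) + (1584/5)*(z^2*((1/2)-z)^2) + (64/5)*(z^3*((1/2)-z)^1) + (1424/5)*(z^4*((1/2)-z)^0) := by ring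
    rw [e]; positivity
  have c4 : 0 ≤ (92/5)*z^0 + (-64)*z^1 + (382/5)*z^2 + 16*z^3 := by
    have e : (92/5)*z^0 + (-64)*z^1 + (382/5)*z^2 + 16*z^3 = (1472/5)*(z^0*((1/2)-z)^4) + (3328/5)*(z^1*((1/2)-z)^3) + 536*(z^2*((1/2)-z)^2) + (1424/5)*(z^3*((1/2)-z)^1) + 120*(z^4*((1/2)-z)^0) := by ring
    rw [e]; positivity
  have key : (8*(1-z)*(1-u)-51/10)*(1-z^2*u^2)+9*(z^2+u^2-2*z^2*u^2) = ((232/5)*z^0 + (-128)*z^1 + 144*z^2) * (u^0*((1/2)-u)^4)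
      + ((608/5)*z^0 + (-448)*z^1 + 576*z^2) * (u^1*((1/2)-u)^3)
      + ((612/5)*z^0 + (-576)*z^1 + (3902/5)*z^2 + 32*z^3) * (u^2*((1/2)-u)^2)
      + ((328/5)*z^0 + (-320)*z^1 + (2124/5)*z^2 + 48*z^3) * (u^3*((1/2)-u)^1)
      + ((92/5)*z^0 + (-64)*z^1 + (382/5)*z^2 + 16*z^3) * (u^4*((1/2)-u)^0) := by
    ring
  rw [key]
  have d0 := mul_nonneg c0 (mul_nonneg (pow_nonneg b3 0) (pow_nonneg b4 4))
  have d1 := mul_nonneg c1 (mul_nonneg (pow_nonneg b3 1) (pow_nonneg b4 3))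
  have d2 := mul_nonneg c2 (mul_nonneg (pow_nonneg b3 2) (pow_nonneg b4 2))
  have d3 := mul_nonneg c3 (mul_nonneg (pow_nonneg b3 3) (pow_nonneg b4 1))
  have d4 := mul_nonneg c4 (mul_nonneg (pow_nonneg b3 4) (pow_nonneg b4 0))
  exact (add_nonneg (add_nonneg (add_nonneg (add_nonneg d0 d1) d2) d3) d4)

theorem F1_box1 {z u : ℝ} (h1 : 0 ≤ z) (h2 : z ≤ (1/2)) (h3 : (1/2) ≤ u) (h4 : u ≤ 1) :
    0 ≤ (8*(1-z)*(1-u)-51/10)*(1-z^2*u^2)+9*(z^2+u^2-2*z^2*u^2) := by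
  have b1 : 0 ≤ z := by linarith
  have b2 : 0 ≤ ((1/2)-z) := by linarith
  have b3 : 0 ≤ (u-(1/2)) := by linarith
  have b4 : 0 ≤ (1-u) := by linarith
  have c0 : 0 ≤ (92/5)*z^0 + (-64)*z^1 + (382/5)*z^2 + 16*z^3 := by
    have e : (92/5)*z^0 + (-64)*z^1 + (382/5)*z^2 + 16*z^3 = (1472/5)*(z^0*((1/2)-z)^4) + (3328/5)*(z^1*((1/2)-z)^3) + 536*(z^2*((1/2)-z)^2) + (1424/5)*(z^3*((1/2)-z)^1) + 120*(z^4*((1/2)-z)^0) := by ring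
    rw [e]; positivity
  have c1 : 0 ≤ (408/5)*z^0 + (-192)*z^1 + (932/5)*z^2 + 80*z^3 := by
    have e : (408/5)*z^0 + (-192)*z^1 + (932/5)*z^2 + 80*z^3 = (6528/5)*(z^0*((1/2)-z)^4) + (18432/5)*(z^1*((1/2)-z)^3) + (19856/5)*(z^2*((1/2)-z)^2) + (11328/5)*(z^3*((1/2)-z)^1) + (3376/5)*(z^4*((1/2)-z)^0) := by ring
    rw [e]; positivity
  have c2 : 0 ≤ (852/5)*z^0 + (-192)*z^1 + (326/5)*z^2 + 128*z^3 := by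
    have e : (852/5)*z^0 + (-192)*z^1 + (326/5)*z^2 + 128*z^3 = (13632/5)*(z^0*((1/2)-z)^4) + (46848/5)*(z^1*((1/2)-z)^3) + (60056/5)*(z^2*((1/2)-z)^2) + (35376/5)*(z^3*((1/2)-z)^1) + (8536/5)*(z^4*((1/2)-z)^0) := by ring
    rw [e]; positivity
  have c3 : 0 ≤ (848/5)*z^0 + (-64)*z^1 + (-536/5)*z^2 + 64*z^3 := by
    have e : (848/5)*z^0 + (-64)*z^1 + (-536/5)*z^2 + 64*z^3 = (13568/5)*(z^0*((1/2)-z)^4) + (51712/5)*(z^1*((1/2)-z)^3) + (71584/5)*(z^2*((1/2)-z)^2) + (42944/5)*(z^3*((1/2)-z)^1) + (9504/5)*(z^4*((1/2)-z)^0) := by ring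
    rw [e]; positivity
  have c4 : 0 ≤ (312/5)*z^0 + (-312/5)*z^2 := by
    have e : (312/5)*z^0 + (-312/5)*z^2 = (4992/5)*(z^0*((1/2)-z)^4) + (19968/5)*(z^1*((1/2)-z)^3) + (28704/5)*(z^2*((1/2)-z)^2) + (17472/5)*(z^3*((1/2)-z)^1) + (3744/5)*(z^4*((1/2)-z)^0) := by ring
    rw [e]; positivity
  have key : (8*(1-z)*(1-u)-51/10)*(1-z^2*u^2)+9*(z^2+u^2-2*z^2*u^2) = ((92/5)*z^0 + (-64)*z^1 + (382/5)*z^2 + 16*z^3) * ((u-(1/2))^0*(1-u)^4)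
      + ((408/5)*z^0 + (-192)*z^1 + (932/5)*z^2 + 80*z^3) * ((u-(1/2))^1*(1-u)^3)
      + ((852/5)*z^0 + (-192)*z^1 + (326/5)*z^2 + 128*z^3) * ((u-(1/2))^2*(1-u)^2)
      + ((848/5)*z^0 + (-64)*z^1 + (-536/5)*z^2 + 64*z^3) * ((u-(1/2))^3*(1-u)^1)
      + ((312/5)*z^0 + (-312/5)*z^2) * ((u-(1/2))^4*(1-u)^0) := by
    ring
  rw [key]
  have d0 := mul_nonneg c0 (mul_nonneg (pow_nonneg b3 0) (pow_nonneg b4 4))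
  have d1 := mul_nonneg c1 (mul_nonneg (pow_nonneg b3 1) (pow_nonneg b4 3))
  have d2 := mul_nonneg c2 (mul_nonneg (pow_nonneg b3 2) (pow_nonneg b4 2))
  have d3 := mul_nonneg c3 (mul_nonneg (pow_nonneg b3 3) (pow_nonneg b4 1))
  have d4 := mul_nonneg c4 (mul_nonneg (pow_nonneg b3 4) (pow_nonneg b4 0))
  exact (add_nonneg (add_nonneg (add_nonneg (add_nonneg d0 d1) d2) d3) d4)

theorem F1_box2 {z u : ℝ} (h1 : (1/2) ≤ z) (h2 : z ≤ 1) (h3 : 0 ≤ u) (h4 : u ≤ (1/2)) :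
    0 ≤ (8*(1-z)*(1-u)-51/10)*(1-z^2*u^2)+9*(z^2+u^2-2*z^2*u^2) := by
  have b1 : 0 ≤ (z-(1/2)) := by linarith
  have b2 : 0 ≤ (1-z) := by linarith
  have b3 : 0 ≤ u := by linarith
  have b4 : 0 ≤ ((1/2)-u) := by linarith
  have c0 : 0 ≤ (232/5)*z^0 + (-128)*z^1 + 144*z^2 := by
    have e : (232/5)*z^0 + (-128)*z^1 + 144*z^2 = (1472/5)*((z-(1/2))^0*(1-z)^4) + (6528/5)*((z-(1/2))^1*(1-z)^3) + (13632/5)*((z-(1/2))^2*(1-z)^2) + (13568/5)*((z-(1/2))^3*(1-z)^1) + (4992/5)*((z-(1/2))^4*(1-z)^0) := by ring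
    rw [e]; positivity
  have c1 : 0 ≤ (608/5)*z^0 + (-448)*z^1 + 576*z^2 := by
    have e : (608/5)*z^0 + (-448)*z^1 + 576*z^2 = (3328/5)*((z-(1/2))^0*(1-z)^4) + (18432/5)*((z-(1/2))^1*(1-z)^3) + (46848/5)*((z-(1/2))^2*(1-z)^2) + (51712/5)*((z-(1/2))^3*(1-z)^1) + (19968/5)*((z-(1/2))^4*(1-z)^0) := by ring
    rw [e]; positivity
  have c2 : 0 ≤ (612/5)*z^0 + (-576)*z^1 + (3902/5)*z^2 + 32*z^3 := by
    have e : (612/5)*z^0 + (-576)*z^1 + (3902/5)*z^2 + 32*z^3 = 536*((z-(1/2))^0*(1-z)^4) + (19856/5)*((z-(1/2))^1*(1-z)^3) + (60056/5)*((z-(1/2))^2*(1-z)^2) + (71584/5)*((z-(1/2))^3*(1-z)^1) + (28704/5)*((z-(1/2))^4*(1-z)^0) := by ring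
    rw [e]; positivity
  have c3 : 0 ≤ (328/5)*z^0 + (-320)*z^1 + (2124/5)*z^2 + 48*z^3 := by
    have e : (328/5)*z^0 + (-320)*z^1 + (2124/5)*z^2 + 48*z^3 = (1424/5)*((z-(1/2))^0*(1-z)^4) + (11328/5)*((z-(1/2))^1*(1-z)^3) + (35376/5)*((z-(1/2))^2*(1-z)^2) + (42944/5)*((z-(1/2))^3*(1-z)^1) + (17472/5)*((z-(1/2))^4*(1-z)^0) := by ring
    rw [e]; positivity
  have c4 : 0 ≤ (92/5)*z^0 + (-64)*z^1 + (382/5)*z^2 + 16*z^3 := by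
    have e : (92/5)*z^0 + (-64)*z^1 + (382/5)*z^2 + 16*z^3 = 120*((z-(1/2))^0*(1-z)^4) + (3376/5)*((z-(1/2))^1*(1-z)^3) + (8536/5)*((z-(1/2))^2*(1-z)^2) + (9504/5)*((z-(1/2))^3*(1-z)^1) + (3744/5)*((z-(1/2))^4*(1-z)^0) := by ring
    rw [e]; positivity
  have key : (8*(1-z)*(1-u)-51/10)*(1-z^2*u^2)+9*(z^2+u^2-2*z^2*u^2) = ((232/5)*z^0 + (-128)*z^1 + 144*z^2) * (u^0*((1/2)-u)^4)
      + ((608/5)*z^0 + (-448)*z^1 + 576*z^2) * (u^1*((1/2)-u)^3)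
      + ((612/5)*z^0 + (-576)*z^1 + (3902/5)*z^2 + 32*z^3) * (u^2*((1/2)-u)^2)
      + ((328/5)*z^0 + (-320)*z^1 + (2124/5)*z^2 + 48*z^3) * (u^3*((1/2)-u)^1)
      + ((92/5)*z^0 + (-64)*z^1 + (382/5)*z^2 + 16*z^3) * (u^4*((1/2)-u)^0) := by
    ring
  rw [key]
  have d0 := mul_nonneg c0 (mul_nonneg (pow_nonneg b3 0) (pow_nonneg b4 4))
  have d1 := mul_nonneg c1 (mul_nonneg (pow_nonneg b3 1) (pow_nonneg b4 3))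
  have d2 := mul_nonneg c2 (mul_nonneg (pow_nonneg b3 2) (pow_nonneg b4 2))
  have d3 := mul_nonneg c3 (mul_nonneg (pow_nonneg b3 3) (pow_nonneg b4 1))
  have d4 := mul_nonneg c4 (mul_nonneg (pow_nonneg b3 4) (pow_nonneg b4 0))
  exact (add_nonneg (add_nonneg (add_nonneg (add_nonneg d0 d1) d2) d3) d4)

theorem F1_box3 {z u : ℝ} (h1 : (1/2) ≤ z) (h2 : z ≤ 1) (h3 : (1/2) ≤ u) (h4 : u ≤ 1) :
    0 ≤ (8*(1-z)*(1-u)-51/10)*(1-z^2*u^2)+9*(z^2+u^2-2*z^2*u^2) := by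
  have b1 : 0 ≤ (z-(1/2)) := by linarith
  have b2 : 0 ≤ (1-z) := by linarith
  have b3 : 0 ≤ (u-(1/2)) := by linarith
  have b4 : 0 ≤ (1-u) := by linarith
  have c0 : 0 ≤ (92/5)*z^0 + (-64)*z^1 + (382/5)*z^2 + 16*z^3 := by
    have e : (92/5)*z^0 + (-64)*z^1 + (382/5)*z^2 + 16*z^3 = 120*((z-(1/2))^0*(1-z)^4) + (3376/5)*((z-(1/2))^1*(1-z)^3) + (8536/5)*((z-(1/2))^2*(1-z)^2) + (9504/5)*((z-(1/2))^3*(1-z)^1) + (3744/5)*((z-(1/2))^4*(1-z)^0) := by ring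
    rw [e]; positivity
  have c1 : 0 ≤ (408/5)*z^0 + (-192)*z^1 + (932/5)*z^2 + 80*z^3 := by
    have e : (408/5)*z^0 + (-192)*z^1 + (932/5)*z^2 + 80*z^3 = (3376/5)*((z-(1/2))^0*(1-z)^4) + 3136*((z-(1/2))^1*(1-z)^3) + (32912/5)*((z-(1/2))^2*(1-z)^2) + (33088/5)*((z-(1/2))^3*(1-z)^1) + 2496*((z-(1/2))^4*(1-z)^0) := by ring
    rw [e]; positivity
  have c2 : 0 ≤ (852/5)*z^0 + (-192)*z^1 + (326/5)*z^2 + 128*z^3 := by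
    have e : (852/5)*z^0 + (-192)*z^1 + (326/5)*z^2 + 128*z^3 = (8536/5)*((z-(1/2))^0*(1-z)^4) + (32912/5)*((z-(1/2))^1*(1-z)^3) + (52664/5)*((z-(1/2))^2*(1-z)^2) + (42016/5)*((z-(1/2))^3*(1-z)^1) + (13728/5)*((z-(1/2))^4*(1-z)^0) := by ring
    rw [e]; positivity
  have c3 : 0 ≤ (848/5)*z^0 + (-64)*z^1 + (-536/5)*z^2 + 64*z^3 := by
    have e : (848/5)*z^0 + (-64)*z^1 + (-536/5)*z^2 + 64*z^3 = (9504/5)*((z-(1/2))^0*(1-z)^4) + (33088/5)*((z-(1/2))^1*(1-z)^3) + (42016/5)*((z-(1/2))^2*(1-z)^2) + (23424/5)*((z-(1/2))^3*(1-z)^1) + (4992/5)*((z-(1/2))^4*(1-z)^0) := by ring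
    rw [e]; positivity
  have c4 : 0 ≤ (312/5)*z^0 + (-312/5)*z^2 := by
    have e : (312/5)*z^0 + (-312/5)*z^2 = (3744/5)*((z-(1/2))^0*(1-z)^4) + 2496*((z-(1/2))^1*(1-z)^3) + (13728/5)*((z-(1/2))^2*(1-z)^2) + (4992/5)*((z-(1/2))^3*(1-z)^1) := by ring
    rw [e]; positivity
  have key : (8*(1-z)*(1-u)-51/10)*(1-z^2*u^2)+9*(z^2+u^2-2*z^2*u^2) = ((92/5)*z^0 + (-64)*z^1 + (382/5)*z^2 + 16*z^3) * ((u-(1/2))^0*(1-u)^4)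
      + ((408/5)*z^0 + (-192)*z^1 + (932/5)*z^2 + 80*z^3) * ((u-(1/2))^1*(1-u)^3)
      + ((852/5)*z^0 + (-192)*z^1 + (326/5)*z^2 + 128*z^3) * ((u-(1/2))^2*(1-u)^2)
      + ((848/5)*z^0 + (-64)*z^1 + (-536/5)*z^2 + 64*z^3) * ((u-(1/2))^3*(1-u)^1)
      + ((312/5)*z^0 + (-312/5)*z^2) * ((u-(1/2))^4*(1-u)^0) := by
    ring
  rw [key]
  have d0 := mul_nonneg c0 (mul_nonneg (pow_nonneg b3 0) (pow_nonneg b4 4))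
  have d1 := mul_nonneg c1 (mul_nonneg (pow_nonneg b3 1) (pow_nonneg b4 3))
  have d2 := mul_nonneg c2 (mul_nonneg (pow_nonneg b3 2) (pow_nonneg b4 2))
  have d3 := mul_nonneg c3 (mul_nonneg (pow_nonneg b3 3) (pow_nonneg b4 1))
  have d4 := mul_nonneg c4 (mul_nonneg (pow_nonneg b3 4) (pow_nonneg b4 0))
  exact (add_nonneg (add_nonneg (add_nonneg (add_nonneg d0 d1) d2) d3) d4)

theorem G2_box0 {u b : ℝ} (h1 : 0 ≤ u) (h2 : u ≤ (2/5)) (h3 : 0 ≤ b) (h4 : b ≤ 1) :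
    0 ≤ (1-b)*(2-b)*(4*(1-u)*(1+u)^2-u*(2+u))*(1-u^2*b)+(1+u)^2*(9*(u^2+b-2*u^2*b)-51/10*(1-u^2*b)) := by
  have b1 : 0 ≤ u := by linarith
  have b2 : 0 ≤ ((2/5)-u) := by linarith
  have b3 : 0 ≤ b := by linarith
  have b4 : 0 ≤ (1-b) := by linarith
  have c0 : 0 ≤ (29/10)*u^0 + (-31/5)*u^1 + (-61/10)*u^2 + 10*u^3 + 9*u^4 := by
    have e : (29/10)*u^0 + (-31/5)*u^1 + (-61/10)*u^2 + 10*u^3 + 9*u^4 = (18125/64)*(u^0*((2/5)-u)^5) + (75125/64)*(u^1*((2/5)-u)^4) + (56575/32)*(u^2*((2/5)-u)^3) + (36975/32)*(u^3*((2/5)-u)^2) + (19765/64)*(u^4*((2/5)-u)^1) + (1965/64)*(u^5*((2/5)-u)^0) := by ring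
    rw [e]; positivity
  have c1 : 0 ≤ (57/10)*u^0 + (-33/5)*u^1 + (-76/5)*u^2 + (61/5)*u^3 + (241/10)*u^4 + 8*u^5 := by
    have e : (57/10)*u^0 + (-33/5)*u^1 + (-76/5)*u^2 + (61/5)*u^3 + (241/10)*u^4 + 8*u^5 = (35625/64)*(u^0*((2/5)-u)^5) + (161625/64)*(u^1*((2/5)-u)^4) + (137525/32)*(u^2*((2/5)-u)^3) + (108265/32)*(u^3*((2/5)-u)^2) + (80141/64)*(u^4*((2/5)-u)^1) + (13173/64)*(u^5*((2/5)-u)^0) := by ring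
    rw [e]; positivity
  have c2 : 0 ≤ (67/10)*u^0 + (37/5)*u^1 + (-51/10)*u^2 + (-18/5)*u^3 + (31/5)*u^4 + 4*u^5 := by
    have e : (67/10)*u^0 + (37/5)*u^1 + (-51/10)*u^2 + (-18/5)*u^3 + (31/5)*u^4 + 4*u^5 = (41875/64)*(u^0*((2/5)-u)^5) + (227875/64)*(u^1*((2/5)-u)^4) + (243825/32)*(u^2*((2/5)-u)^3) + (256505/32)*(u^3*((2/5)-u)^2) + (266187/64)*(u^4*((2/5)-u)^1) + (55083/64)*(u^5*((2/5)-u)^0) := by ring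
    rw [e]; positivity
  have c3 : 0 ≤ (39/10)*u^0 + (39/5)*u^1 + (-39/5)*u^3 + (-39/10)*u^4 := by
    have e : (39/10)*u^0 + (39/5)*u^1 + (-39/5)*u^3 + (-39/10)*u^4 = (24375/64)*(u^0*((2/5)-u)^5) + (141375/64)*(u^1*((2/5)-u)^4) + (160875/32)*(u^2*((2/5)-u)^3) + (178815/32)*(u^3*((2/5)-u)^2) + (193011/64)*(u^4*((2/5)-u)^1) + (40131/64)*(u^5*((2/5)-u)^0) := by ring
    rw [e]; positivity
  have key : (1-b)*(2-b)*(4*(1-u)*(1+u)^2-u*(2+u))*(1-u^2*b)+(1+u)^2*(9*(u^2+b-2*u^2*b)-51/10*(1-u^2*b)) = ((29/10)*u^0 + (-31/5)*u^1 + (-61/10)*u^2 + 10*u^3 + 9*u^4) * (b^0*(1-b)^3)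
      + ((57/10)*u^0 + (-33/5)*u^1 + (-76/5)*u^2 + (61/5)*u^3 + (241/10)*u^4 + 8*u^5) * (b^1*(1-b)^2)
      + ((67/10)*u^0 + (37/5)*u^1 + (-51/10)*u^2 + (-18/5)*u^3 + (31/5)*u^4 + 4*u^5) * (b^2*(1-b)^1)
      + ((39/10)*u^0 + (39/5)*u^1 + (-39/5)*u^3 + (-39/10)*u^4) * (b^3*(1-b)^0) := by
    ring
  rw [key]
  have d0 := mul_nonneg c0 (mul_nonneg (pow_nonneg b3 0) (pow_nonneg b4 3))
  have d1 := mul_nonneg c1 (mul_nonneg (pow_nonneg b3 1) (pow_nonneg b4 2))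
  have d2 := mul_nonneg c2 (mul_nonneg (pow_nonneg b3 2) (pow_nonneg b4 1))
  have d3 := mul_nonneg c3 (mul_nonneg (pow_nonneg b3 3) (pow_nonneg b4 0))
  exact (add_nonneg (add_nonneg (add_nonneg d0 d1) d2) d3)

theorem G2_box1 {u b : ℝ} (h1 : (2/5) ≤ u) (h2 : u ≤ (3/5)) (h3 : 0 ≤ b) (h4 : b ≤ 1) :
    0 ≤ (1-b)*(2-b)*(4*(1-u)*(1+u)^2-u*(2+u))*(1-u^2*b)+(1+u)^2*(9*(u^2+b-2*u^2*b)-51/10*(1-u^2*b)) := by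
  have b1 : 0 ≤ (u-(2/5)) := by linarith
  have b2 : 0 ≤ ((3/5)-u) := by linarith
  have b3 : 0 ≤ b := by linarith
  have b4 : 0 ≤ (1-b) := by linarith
  have c0 : 0 ≤ (29/10)*u^0 + (-31/5)*u^1 + (-61/10)*u^2 + 10*u^3 + 9*u^4 := by
    have e : (29/10)*u^0 + (-31/5)*u^1 + (-61/10)*u^2 + 10*u^3 + 9*u^4 = (1965/2)*((u-(2/5))^0*((3/5)-u)^5) + (4855/2)*((u-(2/5))^1*((3/5)-u)^4) + (3405/2)*((u-(2/5))^2*((3/5)-u)^3) + (1955/2)*((u-(2/5))^3*((3/5)-u)^2) + 1690*((u-(2/5))^4*((3/5)-u)^1) + 970*((u-(2/5))^5*((3/5)-u)^0) := by ring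
    rw [e]; positivity
  have c1 : 0 ≤ (57/10)*u^0 + (-33/5)*u^1 + (-76/5)*u^2 + (61/5)*u^3 + (241/10)*u^4 + 8*u^5 := by
    have e : (57/10)*u^0 + (-33/5)*u^1 + (-76/5)*u^2 + (61/5)*u^3 + (241/10)*u^4 + 8*u^5 = (13173/2)*((u-(2/5))^0*((3/5)-u)^5) + (58727/2)*((u-(2/5))^1*((3/5)-u)^4) + 55051*((u-(2/5))^2*((3/5)-u)^3) + 56426*((u-(2/5))^3*((3/5)-u)^2) + 32421*((u-(2/5))^4*((3/5)-u)^1) + 8277*((u-(2/5))^5*((3/5)-u)^0) := by ring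
    rw [e]; positivity
  have c2 : 0 ≤ (67/10)*u^0 + (37/5)*u^1 + (-51/10)*u^2 + (-18/5)*u^3 + (31/5)*u^4 + 4*u^5 := by
    have e : (67/10)*u^0 + (37/5)*u^1 + (-51/10)*u^2 + (-18/5)*u^3 + (31/5)*u^4 + 4*u^5 = (55083/2)*((u-(2/5))^0*((3/5)-u)^5) + (280029/2)*((u-(2/5))^1*((3/5)-u)^4) + (569059/2)*((u-(2/5))^2*((3/5)-u)^3) + (578469/2)*((u-(2/5))^3*((3/5)-u)^2) + 147302*((u-(2/5))^4*((3/5)-u)^1) + 30128*((u-(2/5))^5*((3/5)-u)^0) := by ring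
    rw [e]; positivity
  have c3 : 0 ≤ (39/10)*u^0 + (39/5)*u^1 + (-39/5)*u^3 + (-39/10)*u^4 := by
    have e : (39/10)*u^0 + (39/5)*u^1 + (-39/5)*u^3 + (-39/10)*u^4 = (40131/2)*((u-(2/5))^0*((3/5)-u)^5) + (204477/2)*((u-(2/5))^1*((3/5)-u)^4) + 206661*((u-(2/5))^2*((3/5)-u)^3) + 206856*((u-(2/5))^3*((3/5)-u)^2) + 102336*((u-(2/5))^4*((3/5)-u)^1) + 19968*((u-(2/5))^5*((3/5)-u)^0) := by ring
    rw [e]; positivity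
  have key : (1-b)*(2-b)*(4*(1-u)*(1+u)^2-u*(2+u))*(1-u^2*b)+(1+u)^2*(9*(u^2+b-2*u^2*b)-51/10*(1-u^2*b)) = ((29/10)*u^0 + (-31/5)*u^1 + (-61/10)*u^2 + 10*u^3 + 9*u^4) * (b^0*(1-b)^3)
      + ((57/10)*u^0 + (-33/5)*u^1 + (-76/5)*u^2 + (61/5)*u^3 + (241/10)*u^4 + 8*u^5) * (b^1*(1-b)^2)
      + ((67/10)*u^0 + (37/5)*u^1 + (-51/10)*u^2 + (-18/5)*u^3 + (31/5)*u^4 + 4*u^5) * (b^2*(1-b)^1)
      + ((39/10)*u^0 + (39/5)*u^1 + (-39/5)*u^3 + (-39/10)*u^4) * (b^3*(1-b)^0) := by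
    ring
  rw [key]
  have d0 := mul_nonneg c0 (mul_nonneg (pow_nonneg b3 0) (pow_nonneg b4 3))
  have d1 := mul_nonneg c1 (mul_nonneg (pow_nonneg b3 1) (pow_nonneg b4 2))
  have d2 := mul_nonneg c2 (mul_nonneg (pow_nonneg b3 2) (pow_nonneg b4 1))
  have d3 := mul_nonneg c3 (mul_nonneg (pow_nonneg b3 3) (pow_nonneg b4 0))
  exact (add_nonneg (add_nonneg (add_nonneg d0 d1) d2) d3)

theorem G2_box2 {u b : ℝ} (h1 : (3/5) ≤ u) (h2 : u ≤ (4/5)) (h3 : 0 ≤ b) (h4 : b ≤ 1) :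
    0 ≤ (1-b)*(2-b)*(4*(1-u)*(1+u)^2-u*(2+u))*(1-u^2*b)+(1+u)^2*(9*(u^2+b-2*u^2*b)-51/10*(1-u^2*b)) := by
  have b1 : 0 ≤ (u-(3/5)) := by linarith
  have b2 : 0 ≤ ((4/5)-u) := by linarith
  have b3 : 0 ≤ b := by linarith
  have b4 : 0 ≤ (1-b) := by linarith
  have c0 : 0 ≤ (29/10)*u^0 + (-31/5)*u^1 + (-61/10)*u^2 + 10*u^3 + 9*u^4 := by
    have e : (29/10)*u^0 + (-31/5)*u^1 + (-61/10)*u^2 + 10*u^3 + 9*u^4 = 970*((u-(3/5))^0*((4/5)-u)^5) + 8010*((u-(3/5))^1*((4/5)-u)^4) + (52515/2)*((u-(3/5))^2*((4/5)-u)^3) + (82405/2)*((u-(3/5))^3*((4/5)-u)^2) + (61735/2)*((u-(3/5))^4*((4/5)-u)^1) + (17765/2)*((u-(3/5))^5*((4/5)-u)^0) := by ring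
    rw [e]; positivity
  have c1 : 0 ≤ (57/10)*u^0 + (-33/5)*u^1 + (-76/5)*u^2 + (61/5)*u^3 + (241/10)*u^4 + 8*u^5 := by
    have e : (57/10)*u^0 + (-33/5)*u^1 + (-76/5)*u^2 + (61/5)*u^3 + (241/10)*u^4 + 8*u^5 = 8277*((u-(3/5))^0*((4/5)-u)^5) + 50349*((u-(3/5))^1*((4/5)-u)^4) + 128138*((u-(3/5))^2*((4/5)-u)^3) + 167561*((u-(3/5))^3*((4/5)-u)^2) + (221919/2)*((u-(3/5))^4*((4/5)-u)^1) + (58945/2)*((u-(3/5))^5*((4/5)-u)^0) := by ring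
    rw [e]; positivity
  have c2 : 0 ≤ (67/10)*u^0 + (37/5)*u^1 + (-51/10)*u^2 + (-18/5)*u^3 + (31/5)*u^4 + 4*u^5 := by
    have e : (67/10)*u^0 + (37/5)*u^1 + (-51/10)*u^2 + (-18/5)*u^3 + (31/5)*u^4 + 4*u^5 = 30128*((u-(3/5))^0*((4/5)-u)^5) + 153978*((u-(3/5))^1*((4/5)-u)^4) + (631877/2)*((u-(3/5))^2*((4/5)-u)^3) + (651739/2)*((u-(3/5))^3*((4/5)-u)^2) + (338573/2)*((u-(3/5))^4*((4/5)-u)^1) + (71019/2)*((u-(3/5))^5*((4/5)-u)^0) := by ring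
    rw [e]; positivity
  have c3 : 0 ≤ (39/10)*u^0 + (39/5)*u^1 + (-39/5)*u^3 + (-39/10)*u^4 := by
    have e : (39/10)*u^0 + (39/5)*u^1 + (-39/5)*u^3 + (-39/10)*u^4 = 19968*((u-(3/5))^0*((4/5)-u)^5) + 97344*((u-(3/5))^1*((4/5)-u)^4) + 186888*((u-(3/5))^2*((4/5)-u)^3) + 175851*((u-(3/5))^3*((4/5)-u)^2) + (161109/2)*((u-(3/5))^4*((4/5)-u)^1) + (28431/2)*((u-(3/5))^5*((4/5)-u)^0) := by ring
    rw [e]; positivity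
  have key : (1-b)*(2-b)*(4*(1-u)*(1+u)^2-u*(2+u))*(1-u^2*b)+(1+u)^2*(9*(u^2+b-2*u^2*b)-51/10*(1-u^2*b)) = ((29/10)*u^0 + (-31/5)*u^1 + (-61/10)*u^2 + 10*u^3 + 9*u^4) * (b^0*(1-b)^3)
      + ((57/10)*u^0 + (-33/5)*u^1 + (-76/5)*u^2 + (61/5)*u^3 + (241/10)*u^4 + 8*u^5) * (b^1*(1-b)^2)
      + ((67/10)*u^0 + (37/5)*u^1 + (-51/10)*u^2 + (-18/5)*u^3 + (31/5)*u^4 + 4*u^5) * (b^2*(1-b)^1)
      + ((39/10)*u^0 + (39/5)*u^1 + (-39/5)*u^3 + (-39/10)*u^4) * (b^3*(1-b)^0) := by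
    ring
  rw [key]
  have d0 := mul_nonneg c0 (mul_nonneg (pow_nonneg b3 0) (pow_nonneg b4 3))
  have d1 := mul_nonneg c1 (mul_nonneg (pow_nonneg b3 1) (pow_nonneg b4 2))
  have d2 := mul_nonneg c2 (mul_nonneg (pow_nonneg b3 2) (pow_nonneg b4 1))
  have d3 := mul_nonneg c3 (mul_nonneg (pow_nonneg b3 3) (pow_nonneg b4 0))
  exact (add_nonneg (add_nonneg (add_nonneg d0 d1) d2) d3)


/-- domain of the scalar parameters: `a` = normalised chi-square, `p = Re z^3`, `s = tau^(1/3)` -/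
structure Dom (a p s : ℝ) : Prop where
  a0 : 0 ≤ a
  a1 : a ≤ 1
  hp : p^2 ≤ a^3
  s0 : 0 ≤ s
  hs : s^3 = 1 - 3*a + 2*p

namespace Dom
variable {a p s : ℝ}

theorem exists_sqrt (h : Dom a p s) : ∃ u : ℝ, 0 ≤ u ∧ u ≤ 1 ∧ u^2 = a ∧ p ≤ u^3 ∧ -u^3 ≤ p := by
  obtain ⟨u, hu0, hu⟩ : ∃ r : ℝ, 0 ≤ r ∧ r^2 = a := ⟨Real.sqrt a, Real.sqrt_nonneg a, Real.sq_sqrt h.a0⟩
  have hu1 : u ≤ 1 := by nlinarith [h.a1]
  have hpr : p^2 ≤ (u^3)^2 := by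
    calc p^2 ≤ a^3 := h.hp
        _ = (u^3)^2 := by rw [← hu]; ring
  obtain ⟨hp1, hp2⟩ := abs_le.1 (abs_le_of_sq_le_sq hpr (by positivity))
  exact ⟨u, hu0, hu1, hu, hp2, hp1⟩

theorem p_le (h : Dom a p s) : p ≤ a := by
  obtain ⟨u, h0, h1, h2, h3, h4⟩ := h.exists_sqrt
  nlinarith [mul_nonneg (mul_nonneg h0 h0) (sub_nonneg.2 h1)]

theorem neg_le_p (h : Dom a p s) : -a ≤ p := by
  obtain ⟨u, h0, h1, h2, h3, h4⟩ := h.exists_sqrt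
  nlinarith [mul_nonneg (mul_nonneg h0 h0) (sub_nonneg.2 h1)]

theorem neg_half_le_p (h : Dom a p s) : -a ≤ 2*p := by
  obtain ⟨u, h0, h1, h2, h3, h4⟩ := h.exists_sqrt
  rcases le_total u (1/2) with hu | hu
  · nlinarith [mul_nonneg (mul_nonneg h0 h0) (sub_nonneg.2 hu)]
  · have h5 : 0 ≤ s^3 := pow_nonneg h.s0 3
    rw [h.hs] at h5
    nlinarith

theorem s1 (h : Dom a p s) : s ≤ 1 := by
  by_contra hc
  rw [not_le] at hc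
  have h3 : 1 < s^3 := by
    have := (Odd.strictMono_pow (R := ℝ) (by decide : Odd 3)) hc
    simpa using this
  rw [h.hs] at h3
  have := h.p_le
  linarith [h.a0]

theorem s3_le_s (h : Dom a p s) : s^3 ≤ s := by
  have h0 := h.s0
  have h1 := h.s1
  nlinarith [mul_nonneg h0 (mul_nonneg (sub_nonneg.2 h1) (by linarith : 0 ≤ 1 + s))]

/-- AM-GM -/
theorem h_nonneg (h : Dom a p s) : 0 ≤ 1 - (a - 2/3*p) - s := by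
  have h0 := h.s0
  have e : 1 - (a - 2/3*p) = (2 + s^3)/3 := by rw [h.hs]; ring
  rw [e]
  nlinarith [mul_nonneg (sq_nonneg (s-1)) (by linarith : 0 ≤ s + 2)]

theorem C1 (h : Dom a p s) : a*(1+s) ≤ (1-s)*(1+2*s) := by
  obtain ⟨u, h0, h1, h2, h3, h4⟩ := h.exists_sqrt
  have hs0 := h.s0
  have hs1 := h.s1
  by_contra hc
  rw [not_le] at hc
  set A := (1-s)*(1+2*s)/(1+s) with hA
  have h1s : 0 < 1 + s := by linarith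
  have hA0 : 0 ≤ A := by
    rw [hA]; apply div_nonneg _ h1s.le
    exact mul_nonneg (by linarith) (by linarith)
  have hAe : A*(1+s) = (1-s)*(1+2*s) := by rw [hA]; field_simp
  have hAa : A < a := by
    have : A*(1+s) < a*(1+s) := by rw [hAe]; exact hc
    exact lt_of_mul_lt_mul_right this h1s.le
  obtain ⟨r, hr0, hr⟩ : ∃ r : ℝ, 0 ≤ r ∧ r^2 = A := ⟨Real.sqrt A, Real.sqrt_nonneg A, Real.sq_sqrt hA0⟩
  have hru : r < u := by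
    apply lt_of_pow_lt_pow_left₀ 2 h0
    rw [hr, h2]; exact hAa
  -- s^3 ≤ 1 - 3u^2 + 2u^3 < 1 - 3 r^2 + 2 r^3
  have g1 : s^3 ≤ 1 - 3*u^2+2*u^3 := by rw [h.hs, h2]; linarith
  have g2 : 1 - 3*u^2+2*u^3 < 1 - 3*r^2+2*r^3 := by
    have hur : 0 < u - r := by linarith
    have : 0 < (u-r)*(3*(u+r) - 2*(u^2+u*r+r^2)) := by
      apply mul_pos hur
      have hu0 : 0 < u := by linarith
      have hr1 : r < 1 := by linarith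
      nlinarith [mul_nonneg h0 (sub_nonneg.2 h1), mul_nonneg hr0 (sub_nonneg.2 hr1.le), mul_nonneg h0 (sub_nonneg.2 hr1.le)]
    nlinarith
  -- 2 r^3 ≤ s^3 - 1 + 3 A
  have g3 : 2*r^3 ≤ s^3 - 1 + 3*r^2 := by
    have k1 : (s^3 - 1 + 3*A)*(1+s) = (1-s)*(2+4*s-2*s^2-s^3) := by
      have : (s^3 - 1 + 3*A)*(1+s) = (s^3-1)*(1+s) + 3*(A*(1+s)) := by ring
      rw [this, hAe]; ring
    have k2 : 0 ≤ (1-s)*(2+4*s-2*s^2-s^3) := by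
      apply mul_nonneg (by linarith)
      nlinarith [mul_nonneg hs0 (sub_nonneg.2 hs1), mul_nonneg hs0 (mul_nonneg hs0 (sub_nonneg.2 hs1))]
    have k3 : 0 ≤ s^3 - 1 + 3*A := by
      rw [← k1] at k2
      exact nonneg_of_mul_nonneg_left k2 h1s
    have k4 : (2*r^3)^2 ≤ (s^3-1+3*A)^2 := by
      have e1 : (2*r^3)^2 = 4*A^3 := by rw [← hr]; ring
      rw [e1]
      have e2 : 4*A^3*(1+s)^3 ≤ (s^3-1+3*A)^2*(1+s)^3 := by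
        have e3 : 4*A^3*(1+s)^3 = 4*(A*(1+s))^3 := by ring
        have e4 : (s^3-1+3*A)^2*(1+s)^3 = ((s^3-1+3*A)*(1+s))^2*(1+s) := by ring
        rw [e3, e4, hAe, k1]
        have e5 : ((1-s)*(2+4*s-2*s^2-s^3))^2*(1+s) - 4*((1-s)*(1+2*s))^3 =
            (1-s)^2*(4*s^3+8*s^4+5*s^6+s^7) := by ring
        have e6 : 0 ≤ (1-s)^2*(4*s^3+8*s^4+5*s^6+s^7) := by positivity
        linarith
      exact le_of_mul_le_mul_right e2 (by positivity)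
    rw [hr]
    exact (pow_le_pow_iff_left₀ (by positivity) k3 (by norm_num : (2:ℕ) ≠ 0)).1 k4
  linarith

end Dom

end Vale.Agent.P154.Q3
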