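import Vale.Agent.Lib.P154.Q3Alg

/-!
# Triple-level inequalities for `q = 3`
-/

namespace Vale.Agent.P154.Q3

open Dom

noncomputable def Zf (x y z : ℝ) : ℝ := (x+y+z)/3
noncomputable def Yf (x y z : ℝ) : ℝ := (x*y+y*z+z*x)/3

/-- sum over the six relabellings -/
noncomputable def sum6 (G : ℝ → ℝ → ℝ → ℝ) (x0 x1 x2 v0 v1 v2 : ℝ) : ℝ :=
  G (x0*v0) (x1*v1) (x2*v2) + G (x0*v1) (x1*v2) (x2*v0) + G (x0*v2) (x1*v0) (x2*v1)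
  + G (x0*v0) (x1*v2) (x2*v1) + G (x0*v1) (x1*v0) (x2*v2) + G (x0*v2) (x1*v1) (x2*v0)

theorem S_even (x0 x1 x2 v0 v1 v2 : ℝ) :
    Yf (x0*v0) (x1*v1) (x2*v2) * (Zf (x0*v1) (x1*v2) (x2*v0) * Zf (x0*v2) (x1*v0) (x2*v1))
    + Yf (x0*v1) (x1*v2) (x2*v0) * (Zf (x0*v0) (x1*v1) (x2*v2) * Zf (x0*v2) (x1*v0) (x2*v1))
    + Yf (x0*v2) (x1*v0) (x2*v1) * (Zf (x0*v0) (x1*v1) (x2*v2) * Zf (x0*v1) (x1*v2) (x2*v0)) =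
    3*((Yf x0 x1 x2)^2*(Yf v0 v1 v2)^2
      + Yf v0 v1 v2 * ((Zf v0 v1 v2)^2 - Yf v0 v1 v2) * (x0*x1*x2 * Zf x0 x1 x2)
      + Yf x0 x1 x2 * ((Zf x0 x1 x2)^2 - Yf x0 x1 x2) * (v0*v1*v2 * Zf v0 v1 v2)) := by
  unfold Yf Zf; ring

theorem S_odd (x0 x1 x2 v0 v1 v2 : ℝ) :
    Yf (x0*v0) (x1*v2) (x2*v1) * (Zf (x0*v1) (x1*v0) (x2*v2) * Zf (x0*v2) (x1*v1) (x2*v0))
    + Yf (x0*v1) (x1*v0) (x2*v2) * (Zf (x0*v0) (x1*v2) (x2*v1) * Zf (x0*v2) (x1*v1) (x2*v0))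
    + Yf (x0*v2) (x1*v1) (x2*v0) * (Zf (x0*v0) (x1*v2) (x2*v1) * Zf (x0*v1) (x1*v0) (x2*v2)) =
    3*((Yf x0 x1 x2)^2*(Yf v0 v1 v2)^2
      + Yf v0 v1 v2 * ((Zf v0 v1 v2)^2 - Yf v0 v1 v2) * (x0*x1*x2 * Zf x0 x1 x2)
      + Yf x0 x1 x2 * ((Zf x0 x1 x2)^2 - Yf x0 x1 x2) * (v0*v1*v2 * Zf v0 v1 v2)) := by
  unfold Yf Zf; ring

theorem D_sum (x0 x1 x2 v0 v1 v2 : ℝ) :
    Zf (x0*v0) (x1*v1) (x2*v2) * Zf (x0*v1) (x1*v2) (x2*v0) * Zf (x0*v2) (x1*v0) (x2*v1)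
    + Zf (x0*v0) (x1*v2) (x2*v1) * Zf (x0*v1) (x1*v0) (x2*v2) * Zf (x0*v2) (x1*v1) (x2*v0) =
    2*((Zf x0 x1 x2)^3*(Zf v0 v1 v2)^3
      - 3*(((Zf x0 x1 x2)^2 - Yf x0 x1 x2)*Zf x0 x1 x2)*(((Zf v0 v1 v2)^2 - Yf v0 v1 v2)*Zf v0 v1 v2)
      + 2*((x0*x1*x2 - (Zf x0 x1 x2)^3 + 3*(((Zf x0 x1 x2)^2 - Yf x0 x1 x2)*Zf x0 x1 x2))/2)*
        ((v0*v1*v2 - (Zf v0 v1 v2)^3 + 3*(((Zf v0 v1 v2)^2 - Yf v0 v1 v2)*Zf v0 v1 v2))/2)) := by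
  unfold Yf Zf; ring

theorem Zf_nonneg {x y z : ℝ} (hx : 0 ≤ x) (hy : 0 ≤ y) (hz : 0 ≤ z) : 0 ≤ Zf x y z := by
  unfold Zf; positivity

theorem Yf_nonneg {x y z : ℝ} (hx : 0 ≤ x) (hy : 0 ≤ y) (hz : 0 ≤ z) : 0 ≤ Yf x y z := by
  unfold Yf; positivity

theorem all_zero {x y z : ℝ} (hx : 0 ≤ x) (hy : 0 ≤ y) (hz : 0 ≤ z) (h : Zf x y z = 0) :
    x = 0 ∧ y = 0 ∧ z = 0 := by
  unfold Zf at h
  refine ⟨?_, ?_, ?_⟩ <;> linarith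

theorem Yf_zero {x y z : ℝ} (hx : 0 ≤ x) (hy : 0 ≤ y) (hz : 0 ≤ z) (h : Zf x y z = 0) :
    Yf x y z = 0 := by
  obtain ⟨h1, h2, h3⟩ := all_zero hx hy hz h
  unfold Yf; rw [h1, h2, h3]; ring

theorem class_lower {Z1 Z2 Z3 Y1 Y2 Y3 k : ℝ} (h1 : 0 ≤ Z1) (h2 : 0 ≤ Z2) (h3 : 0 ≤ Z3)
    (y1 : 0 ≤ Y1) (y2 : 0 ≤ Y2) (y3 : 0 ≤ Y3) (z1 : Z1 = 0 → Y1 = 0) (z2 : Z2 = 0 → Y2 = 0)
    (z3 : Z3 = 0 → Y3 = 0) :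
    2*k*(Y1*(Z2*Z3) + Y2*(Z1*Z3) + Y3*(Z1*Z2))
      - k^2*(Z1*Z2*Z3)*(Y1*(Z2*Z3) + Y2*(Z1*Z3) + Y3*(Z1*Z2)) ≤ Y1/Z1 + Y2/Z2 + Y3/Z3 := by
  have a1 := inv_lower (k := k*(Z2*Z3)) h1 y1 z1
  have a2 := inv_lower (k := k*(Z1*Z3)) h2 y2 z2
  have a3 := inv_lower (k := k*(Z1*Z2)) h3 y3 z3
  linarith

/-- the six-fold sum of `Y/Z` -/
noncomputable def R6 (x0 x1 x2 v0 v1 v2 : ℝ) : ℝ :=
  sum6 (fun x y z => Yf x y z / Zf x y z) x0 x1 x2 v0 v1 v2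

theorem R6_nonneg {x0 x1 x2 v0 v1 v2 : ℝ} (hx0 : 0 ≤ x0) (hx1 : 0 ≤ x1) (hx2 : 0 ≤ x2)
    (hv0 : 0 ≤ v0) (hv1 : 0 ≤ v1) (hv2 : 0 ≤ v2) : 0 ≤ R6 x0 x1 x2 v0 v1 v2 := by
  unfold R6 sum6 Yf Zf; positivity

theorem ratio_le {x y z : ℝ} (hx : 0 ≤ x) (hy : 0 ≤ y) (hz : 0 ≤ z) :
    Yf x y z / Zf x y z ≤ Zf x y z := by
  have h0 := Zf_nonneg hx hy hz
  rcases eq_or_lt_of_le h0 with h | h
  · rw [← h]; simp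
  · rw [div_le_iff₀ h]
    unfold Yf Zf
    nlinarith [sq_nonneg (x-y), sq_nonneg (y-z), sq_nonneg (z-x)]

theorem sumZ {x0 x1 x2 v0 v1 v2 : ℝ} (hx : x0+x1+x2 = 3) (hv : v0+v1+v2 = 3) :
    sum6 Zf x0 x1 x2 v0 v1 v2 = 6 := by
  unfold sum6 Zf
  have : x2 = 3 - x0 - x1 := by linarith
  have h2 : v2 = 3 - v0 - v1 := by linarith
  rw [this, h2]; ring

theorem R6_le {x0 x1 x2 v0 v1 v2 : ℝ} (hx0 : 0 ≤ x0) (hx1 : 0 ≤ x1) (hx2 : 0 ≤ x2)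
    (hv0 : 0 ≤ v0) (hv1 : 0 ≤ v1) (hv2 : 0 ≤ v2)
    (hx : x0+x1+x2 = 3) (hv : v0+v1+v2 = 3) : R6 x0 x1 x2 v0 v1 v2 ≤ 6 := by
  rw [← sumZ hx hv]
  unfold R6 sum6
  have t : ∀ i j k l m n : ℝ, 0 ≤ i → 0 ≤ j → 0 ≤ k → 0 ≤ l → 0 ≤ m → 0 ≤ n →
    Yf (i*j) (k*l) (m*n) / Zf (i*j) (k*l) (m*n) ≤ Zf (i*j) (k*l) (m*n) := by
    intro i j k l m n h1 h2 h3 h4 h5 h6
    exact ratio_le (mul_nonneg h1 h2) (mul_nonneg h3 h4) (mul_nonneg h5 h6)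
  have e1 := t x0 v0 x1 v1 x2 v2 hx0 hv0 hx1 hv1 hx2 hv2
  have e2 := t x0 v1 x1 v2 x2 v0 hx0 hv1 hx1 hv2 hx2 hv0
  have e3 := t x0 v2 x1 v0 x2 v1 hx0 hv2 hx1 hv0 hx2 hv1
  have e4 := t x0 v0 x1 v2 x2 v1 hx0 hv0 hx1 hv2 hx2 hv1
  have e5 := t x0 v1 x1 v0 x2 v2 hx0 hv1 hx1 hv0 hx2 hv2
  have e6 := t x0 v2 x1 v1 x2 v0 hx0 hv2 hx1 hv1 hx2 hv0
  linarith

theorem R6_lower {x0 x1 x2 v0 v1 v2 : ℝ} (hx0 : 0 ≤ x0) (hx1 : 0 ≤ x1) (hx2 : 0 ≤ x2)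
    (hv0 : 0 ≤ v0) (hv1 : 0 ≤ v1) (hv2 : 0 ≤ v2)
    (hx : x0+x1+x2 = 3) (hv : v0+v1+v2 = 3) (k : ℝ) :
    let a := aT x0 x1 x2
    let b := aT v0 v1 v2
    let C0 := (1-a)^2*(1-b)^2 + (1-b)*b*(x0*x1*x2) + (1-a)*a*(v0*v1*v2)
    let E := 1 - 3*a*b + 2*(pT x0 x1 x2)*(pT v0 v1 v2)
    6*(2*k*C0 - k^2*E*C0) ≤ R6 x0 x1 x2 v0 v1 v2 := by
  intro a b C0 E
  have hYx : Yf x0 x1 x2 = 1 - a := by
    simp only [a]; unfold Yf aT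
    have : x2 = 3 - x0 - x1 := by linarith
    rw [this]; ring
  have hYv : Yf v0 v1 v2 = 1 - b := by
    simp only [b]; unfold Yf aT
    have : v2 = 3 - v0 - v1 := by linarith
    rw [this]; ring
  have hZx : Zf x0 x1 x2 = 1 := by unfold Zf; rw [hx]; norm_num
  have hZv : Zf v0 v1 v2 = 1 := by unfold Zf; rw [hv]; norm_num
  have hSe := S_even x0 x1 x2 v0 v1 v2
  have hSo := S_odd x0 x1 x2 v0 v1 v2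
  have hD := D_sum x0 x1 x2 v0 v1 v2
  rw [hYx, hYv, hZx, hZv] at hSe hSo hD
  have hC : (1-a)^2*(1-b)^2 + (1-b)*(1^2-(1-b))*(x0*x1*x2*1) + (1-a)*(1^2-(1-a))*(v0*v1*v2*1) = C0 := by
    simp only [C0]; ring
  rw [hC] at hSe hSo
  have hE : (1:ℝ)^3*1^3 - 3*((1^2-(1-a))*1)*((1^2-(1-b))*1) +
      2*((x0*x1*x2 - 1^3 + 3*((1^2-(1-a))*1))/2)*((v0*v1*v2 - 1^3 + 3*((1^2-(1-b))*1))/2) = E := by
    simp only [E]; unfold pT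
    simp only [a, b]; ring
  rw [hE] at hD
  have nn : ∀ i j : ℝ, 0 ≤ i → 0 ≤ j → 0 ≤ i*j := fun i j h1 h2 => mul_nonneg h1 h2
  have c1 := class_lower (k := k)
    (Zf_nonneg (nn x0 v0 hx0 hv0) (nn x1 v1 hx1 hv1) (nn x2 v2 hx2 hv2))
    (Zf_nonneg (nn x0 v1 hx0 hv1) (nn x1 v2 hx1 hv2) (nn x2 v0 hx2 hv0))
    (Zf_nonneg (nn x0 v2 hx0 hv2) (nn x1 v0 hx1 hv0) (nn x2 v1 hx2 hv1))
    (Yf_nonneg (nn x0 v0 hx0 hv0) (nn x1 v1 hx1 hv1) (nn x2 v2 hx2 hv2))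
    (Yf_nonneg (nn x0 v1 hx0 hv1) (nn x1 v2 hx1 hv2) (nn x2 v0 hx2 hv0))
    (Yf_nonneg (nn x0 v2 hx0 hv2) (nn x1 v0 hx1 hv0) (nn x2 v1 hx2 hv1))
    (Yf_zero (nn x0 v0 hx0 hv0) (nn x1 v1 hx1 hv1) (nn x2 v2 hx2 hv2))
    (Yf_zero (nn x0 v1 hx0 hv1) (nn x1 v2 hx1 hv2) (nn x2 v0 hx2 hv0))
    (Yf_zero (nn x0 v2 hx0 hv2) (nn x1 v0 hx1 hv0) (nn x2 v1 hx2 hv1))
  have c2 := class_lower (k := k)
    (Zf_nonneg (nn x0 v0 hx0 hv0) (nn x1 v2 hx1 hv2) (nn x2 v1 hx2 hv1))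
    (Zf_nonneg (nn x0 v1 hx0 hv1) (nn x1 v0 hx1 hv0) (nn x2 v2 hx2 hv2))
    (Zf_nonneg (nn x0 v2 hx0 hv2) (nn x1 v1 hx1 hv1) (nn x2 v0 hx2 hv0))
    (Yf_nonneg (nn x0 v0 hx0 hv0) (nn x1 v2 hx1 hv2) (nn x2 v1 hx2 hv1))
    (Yf_nonneg (nn x0 v1 hx0 hv1) (nn x1 v0 hx1 hv0) (nn x2 v2 hx2 hv2))
    (Yf_nonneg (nn x0 v2 hx0 hv2) (nn x1 v1 hx1 hv1) (nn x2 v0 hx2 hv0))
    (Yf_zero (nn x0 v0 hx0 hv0) (nn x1 v2 hx1 hv2) (nn x2 v1 hx2 hv1))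
    (Yf_zero (nn x0 v1 hx0 hv1) (nn x1 v0 hx1 hv0) (nn x2 v2 hx2 hv2))
    (Yf_zero (nn x0 v2 hx0 hv2) (nn x1 v1 hx1 hv1) (nn x2 v0 hx2 hv0))
  rw [hSe] at c1
  rw [hSo] at c2
  unfold R6 sum6
  have e : 6*(2*k*C0 - k^2*E*C0) = 2*k*(3*C0) + 2*k*(3*C0) - k^2*(2*E)*(3*C0) := by ring
  rw [e, ← hD]
  linarith

/-- projection bound -/
theorem chi_proj {x y z e0 e1 e2 : ℝ} (hx : 0 ≤ x) (hy : 0 ≤ y) (hz : 0 ≤ z) :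
    (1/6)*((2*x*e0 - Zf x y z*e0^2) + (2*y*e1 - Zf x y z*e1^2) + (2*z*e2 - Zf x y z*e2^2)
      - 3*Zf x y z) ≤ Zf x y z - Yf x y z / Zf x y z := by
  have h0 := Zf_nonneg hx hy hz
  rcases eq_or_lt_of_le h0 with h | h
  · obtain ⟨h1, h2, h3⟩ := all_zero hx hy hz h.symm
    rw [← h, h1, h2, h3]; simp
  · have key : Yf x y z / Zf x y z ≤ Zf x y z - (1/6)*((2*x*e0 - Zf x y z*e0^2) + (2*y*e1 - Zf x y z*e1^2) + (2*z*e2 - Zf x y z*e2^2)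
      - 3*Zf x y z) := by
      rw [div_le_iff₀ h]
      have e : (Zf x y z - (1/6)*((2*x*e0 - Zf x y z*e0^2) + (2*y*e1 - Zf x y z*e1^2) + (2*z*e2 - Zf x y z*e2^2)
      - 3*Zf x y z)) * Zf x y z - Yf x y z = (1/6)*((x - Zf x y z*e0)^2 + (y - Zf x y z*e1)^2 + (z-Zf x y z*e2)^2) := by
        unfold Yf Zf; ring
      have h2 : 0 ≤ (1/6)*((x - Zf x y z*e0)^2 + (y - Zf x y z*e1)^2 + (z-Zf x y z*e2)^2) := by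
        positivity
      linarith
    linarith

/-- one term of the projection bound -/
noncomputable def prT (al be x0 x1 x2 u0 u1 u2 : ℝ) : ℝ :=
  (1/6)*((2*(x0*u0)*(1+al*(x0-1)+be*(u0-1)) - Zf (x0*u0) (x1*u1) (x2*u2)*(1+al*(x0-1)+be*(u0-1))^2)
   + (2*(x1*u1)*(1+al*(x1-1)+be*(u1-1)) - Zf (x0*u0) (x1*u1) (x2*u2)*(1+al*(x1-1)+be*(u1-1))^2)
   + (2*(x2*u2)*(1+al*(x2-1)+be*(u2-1)) - Zf (x0*u0) (x1*u1) (x2*u2)*(1+al*(x2-1)+be*(u2-1))^2)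
      - 3*Zf (x0*u0) (x1*u1) (x2*u2))

theorem prT_sum {x0 x1 x2 v0 v1 v2 : ℝ} (al be : ℝ)
    (hx : x0+x1+x2 = 3) (hv : v0+v1+v2 = 3) :
    prT al be x0 x1 x2 v0 v1 v2 + prT al be x0 x1 x2 v1 v2 v0 + prT al be x0 x1 x2 v2 v0 v1
    + prT al be x0 x1 x2 v0 v2 v1 + prT al be x0 x1 x2 v1 v0 v2 + prT al be x0 x1 x2 v2 v1 v0 =
    6*(2*(al*aT x0 x1 x2+be*aT v0 v1 v2) - (al^2*aT x0 x1 x2 + 2*al*be*(aT x0 x1 x2*aT v0 v1 v2)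
      + be^2*aT v0 v1 v2)) := by
  have h1 : x2 = 3 - x0 - x1 := by linarith
  have h2 : v2 = 3 - v0 - v1 := by linarith
  subst h1 h2
  unfold prT Zf aT
  ring

theorem prT_le {al be x0 x1 x2 u0 u1 u2 : ℝ} (hx0 : 0 ≤ x0) (hx1 : 0 ≤ x1) (hx2 : 0 ≤ x2)
    (hv0 : 0 ≤ u0) (hv1 : 0 ≤ u1) (hv2 : 0 ≤ u2) :
    prT al be x0 x1 x2 u0 u1 u2 ≤ Zf (x0*u0) (x1*u1) (x2*u2)
      - Yf (x0*u0) (x1*u1) (x2*u2) / Zf (x0*u0) (x1*u1) (x2*u2) :=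
  chi_proj (mul_nonneg hx0 hv0) (mul_nonneg hx1 hv1) (mul_nonneg hx2 hv2)

theorem T_lower {x0 x1 x2 v0 v1 v2 : ℝ} (hx0 : 0 ≤ x0) (hx1 : 0 ≤ x1) (hx2 : 0 ≤ x2)
    (hv0 : 0 ≤ v0) (hv1 : 0 ≤ v1) (hv2 : 0 ≤ v2)
    (hx : x0+x1+x2 = 3) (hv : v0+v1+v2 = 3) (al be : ℝ) :
    6*(2*(al*aT x0 x1 x2+be*aT v0 v1 v2) - (al^2*aT x0 x1 x2 + 2*al*be*(aT x0 x1 x2*aT v0 v1 v2)
      + be^2*aT v0 v1 v2)) ≤ 6 - R6 x0 x1 x2 v0 v1 v2 := by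
  rw [← prT_sum al be hx hv, ← sumZ hx hv]
  unfold R6 sum6
  have e1 := prT_le (al := al) (be := be) hx0 hx1 hx2 hv0 hv1 hv2
  have e2 := prT_le (al := al) (be := be) hx0 hx1 hx2 hv1 hv2 hv0
  have e3 := prT_le (al := al) (be := be) hx0 hx1 hx2 hv2 hv0 hv1
  have e4 := prT_le (al := al) (be := be) hx0 hx1 hx2 hv0 hv2 hv1
  have e5 := prT_le (al := al) (be := be) hx0 hx1 hx2 hv1 hv0 hv2
  have e6 := prT_le (al := al) (be := be) hx0 hx1 hx2 hv2 hv1 hv0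
  linarith

/-- the class functional, normalised by `M = x0+x1+x2 = 3` -/
noncomputable def PhiN (x y z : ℝ) : ℝ := 2*(x*y*z) + 3*cbrt (x*y*z) - 5 + 9*aT x y z

theorem prodA_norm {x0 x1 x2 v0 v1 v2 : ℝ} (hx0 : 0 ≤ x0) (hx1 : 0 ≤ x1) (hx2 : 0 ≤ x2)
    (hv0 : 0 ≤ v0) (hv1 : 0 ≤ v1) (hv2 : 0 ≤ v2)
    (hx : x0+x1+x2 = 3) (hv : v0+v1+v2 = 3) :
    6 - R6 x0 x1 x2 v0 v1 v2 ≤ 6*(aT x0 x1 x2 + aT v0 v1 v2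
      - PhiN x0 x1 x2 * ((1 - v0*v1*v2)/18) - PhiN v0 v1 v2 * ((1 - x0*x1*x2)/18)) := by
  have h := dom_of hx0 hx1 hx2 hx
  have h' := dom_of hv0 hv1 hv2 hv
  have hs3 : cbrt (x0*x1*x2)^3 = x0*x1*x2 := cbrt_pow (by positivity)
  have ht3 : cbrt (v0*v1*v2)^3 = v0*v1*v2 := cbrt_pow (by positivity)
  have hE0 : 0 ≤ 1 - 3*aT x0 x1 x2*aT v0 v1 v2 + 2*pT x0 x1 x2*pT v0 v1 v2 := by
    have hD := D_sum x0 x1 x2 v0 v1 v2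
    have hYx : Yf x0 x1 x2 = 1 - aT x0 x1 x2 := by
      unfold Yf aT
      have : x2 = 3 - x0 - x1 := by linarith
      rw [this]; ring
    have hYv : Yf v0 v1 v2 = 1 - aT v0 v1 v2 := by
      unfold Yf aT
      have : v2 = 3 - v0 - v1 := by linarith
      rw [this]; ring
    have hZx : Zf x0 x1 x2 = 1 := by unfold Zf; rw [hx]; norm_num
    have hZv : Zf v0 v1 v2 = 1 := by unfold Zf; rw [hv]; norm_num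
    rw [hYx, hYv, hZx, hZv] at hD
    have hnn : 0 ≤ Zf (x0*v0) (x1*v1) (x2*v2) * Zf (x0*v1) (x1*v2) (x2*v0) * Zf (x0*v2) (x1*v0) (x2*v1)
      + Zf (x0*v0) (x1*v2) (x2*v1) * Zf (x0*v1) (x1*v0) (x2*v2) * Zf (x0*v2) (x1*v1) (x2*v0) := by
      unfold Zf; positivity
    rw [hD] at hnn
    unfold pT
    linarith
  have main := scalarA_concl (R := R6 x0 x1 x2 v0 v1 v2 / 6) h h' hE0
    (div_nonneg (R6_nonneg hx0 hx1 hx2 hv0 hv1 hv2) (by norm_num))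
    (by rw [div_le_iff₀ (by norm_num : (0:ℝ) < 6)]; linarith [R6_le hx0 hx1 hx2 hv0 hv1 hv2 hx hv])
    (by
      intro k
      rw [hs3, ht3, le_div_iff₀ (by norm_num : (0:ℝ) < 6)]
      have := R6_lower hx0 hx1 hx2 hv0 hv1 hv2 hx hv k
      simp only at this
      linarith)
  rw [hs3, ht3] at main
  unfold PhiN
  linarith

theorem inv_sq_lower {Z c : ℝ} (hZ : 0 ≤ Z) (hc : 0 ≤ c) (h0 : Z = 0 → c = 0) :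
    c*(3 - 2*Z) ≤ c/Z^2 := by
  rcases eq_or_lt_of_le hZ with h | h
  · rw [h0 h.symm]; simp
  · rw [le_div_iff₀ (by positivity)]
    have e : c - c*(3-2*Z)*Z^2 = c*((1-Z)^2*(1+2*Z)) := by ring
    have : 0 ≤ c*((1-Z)^2*(1+2*Z)) := by positivity
    linarith

/-- sum of the class functional over the six relabellings -/
theorem prodB_norm {x0 x1 x2 v0 v1 v2 : ℝ} (hx0 : 0 ≤ x0) (hx1 : 0 ≤ x1) (hx2 : 0 ≤ x2)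
    (hv0 : 0 ≤ v0) (hv1 : 0 ≤ v1) (hv2 : 0 ≤ v2)
    (hx : x0+x1+x2 = 3) (hv : v0+v1+v2 = 3) :
    6*(PhiN x0 x1 x2*(1-aT v0 v1 v2) + PhiN v0 v1 v2*(1-aT x0 x1 x2)
      + 1/10*(aT x0 x1 x2*aT v0 v1 v2)) ≤
    12*((x0*x1*x2)*(v0*v1*v2)) + 18*(cbrt (x0*x1*x2)*cbrt (v0*v1*v2)) + 24
      - 9*R6 x0 x1 x2 v0 v1 v2 := by
  have h := dom_of hx0 hx1 hx2 hx
  have h' := dom_of hv0 hv1 hv2 hv
  have ha0 := h.a0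
  have ha1 := h.a1
  have hb0 := h'.a0
  have hb1 := h'.a1
  have hs3 : cbrt (x0*x1*x2)^3 = x0*x1*x2 := cbrt_pow (by positivity)
  have ht3 : cbrt (v0*v1*v2)^3 = v0*v1*v2 := cbrt_pow (by positivity)
  have hT := fun al be => T_lower hx0 hx1 hx2 hv0 hv1 hv2 hx hv al be
  have hRn := R6_nonneg hx0 hx1 hx2 hv0 hv1 hv2
  unfold PhiN
  set a := aT x0 x1 x2 with ha
  set b := aT v0 v1 v2 with hb
  set s := cbrt (x0*x1*x2) with hs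
  set t := cbrt (v0*v1*v2) with ht
  set M := 1 - R6 x0 x1 x2 v0 v1 v2/6 with hM
  have hMl : ∀ al be : ℝ, 2*(al*a+be*b) - (al^2*a + 2*al*be*(a*b) + be^2*b) ≤ M := by
    intro al be
    have := hT al be
    rw [hM]; linarith
  have hMa : a ≤ M := by have := hMl 1 0; linarith
  have hMb : b ≤ M := by have := hMl 0 1; linarith
  have hab1 : a*b ≤ 1 := by nlinarith
  have hM1 : a + b - 2*a*b ≤ M*(1-a*b) := by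
    rcases eq_or_lt_of_le hab1 with hab | hab
    · have h1 : a = 1 := by nlinarith
      have h2 : b = 1 := by nlinarith
      rw [h1, h2]; norm_num
    · have h1ab : 0 < 1 - a*b := by linarith
      obtain ⟨k, hk⟩ : ∃ k, k*(1-a*b) = 1 := ⟨(1-a*b)⁻¹, inv_mul_cancel₀ h1ab.ne'⟩
      have h3 := hMl ((1-b)*k) ((1-a)*k)
      have e : (2*((1-b)*k*a+(1-a)*k*b) - (((1-b)*k)^2*a + 2*((1-b)*k)*((1-a)*k)*(a*b) + ((1-a)*k)^2*b)) * (1-a*b)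
          = 2*(a+b-2*a*b)*(k*(1-a*b)) - (a+b-2*a*b)*(k*(1-a*b))^2 := by
        ring
      have h4 := mul_le_mul_of_nonneg_right h3 h1ab.le
      rw [e, hk] at h4
      linarith
  have hMM : a = 1 → b = 1 → M = 1 := by
    intro h1 h2
    apply le_antisymm
    · rw [hM]; linarith
    · rw [← h1]; exact hMa
  have main := scalarB h h' hMa hMb hM1 hMM
  have hs' := h.hs
  have ht' := h'.hs
  have hp : 2*(a - pT x0 x1 x2) = 1 - a - s^3 := by rw [hs']; ring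
  have hp' : 2*(b - pT v0 v1 v2) = 1 - b - t^3 := by rw [ht']; ring
  rw [hp, hp'] at main
  rw [← hs3, ← ht3]
  have hR : R6 x0 x1 x2 v0 v1 v2 = 6*(1-M) := by rw [hM]; ring
  rw [hR]
  linarith

end Vale.Agent.P154.Q3
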