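import Vale.Agent.Lib.P154.Cert
import Vale.Agent.Lib.P154.Q3Tri

/-!
# The certificate for `q = 3`, `0 ≤ lam ≤ 1`
-/

open scoped BigOperators

namespace Vale.Agent.P154.Q3

theorem sum_perm3 (G : Fin 3 → Fin 3 → Fin 3 → ℝ) :
    ∑ s : Equiv.Perm (Fin 3), G (s 0) (s 1) (s 2) =
      G 0 1 2 + G 1 2 0 + G 2 0 1 + G 0 2 1 + G 1 0 2 + G 2 1 0 := by
  have h : (Finset.univ : Finset (Equiv.Perm (Fin 3))) =
      {1, finRotate 3, (finRotate 3)^2, Equiv.swap 1 2, Equiv.swap 0 1, Equiv.swap 0 2} := by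
    decide
  rw [h, Finset.sum_insert (by decide), Finset.sum_insert (by decide),
    Finset.sum_insert (by decide), Finset.sum_insert (by decide), Finset.sum_insert (by decide),
    Finset.sum_singleton]
  have e : ∀ (s : Equiv.Perm (Fin 3)) (i j k : Fin 3), s 0 = i → s 1 = j → s 2 = k →
      G (s 0) (s 1) (s 2) = G i j k := by
    intro s i j k h0 h1 h2; rw [h0, h1, h2]
  rw [e 1 0 1 2 (by decide) (by decide) (by decide),
    e (finRotate 3) 1 2 0 (by decide) (by decide) (by decide),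
    e ((finRotate 3)^2) 2 0 1 (by decide) (by decide) (by decide),
    e (Equiv.swap 1 2) 0 2 1 (by decide) (by decide) (by decide),
    e (Equiv.swap 0 1) 1 0 2 (by decide) (by decide) (by decide),
    e (Equiv.swap 0 2) 2 1 0 (by decide) (by decide) (by decide)]
  ring

/-- the class functional -/
noncomputable def PhiT (x y z : ℝ) : ℝ :=
  18*(x*y*z)/(x+y+z)^2 + 3*cbrt (x*y*z) + 4/3*(x+y+z) - 9*(x*y+y*z+z*x)/(x+y+z)

noncomputable def Phi3 (w : Fin 3 → ℝ) : ℝ := PhiT (w 0) (w 1) (w 2)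

noncomputable def gT (x y z : ℝ) : ℝ := ((x+y+z)/3 - 9*(x*y*z)/(x+y+z)^2)/18

noncomputable def g3 (w : Fin 3 → ℝ) : ℝ := gT (w 0) (w 1) (w 2)

noncomputable def chiT (x y z : ℝ) : ℝ := (3*(x^2+y^2+z^2)/(x+y+z) - (x+y+z))/(3*(3-1))

theorem chi_eq (w : Fin 3 → ℝ) : chi w = chiT (w 0) (w 1) (w 2) := by
  unfold chi chiT
  simp only [Fin.sum_univ_three]
  norm_num

theorem mass_eq (w : Fin 3 → ℝ) : mass w = (w 0 + w 1 + w 2)/3 := by
  unfold mass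
  simp only [Fin.sum_univ_three]
  norm_num

theorem chiT_scale {c x y z : ℝ} (hc : 0 < c) : chiT (c*x) (c*y) (c*z) = c*chiT x y z := by
  unfold chiT
  rw [show c*x+c*y+c*z = c*(x+y+z) by ring,
    show 3*((c*x)^2+(c*y)^2+(c*z)^2) = c*(c*(3*(x^2+y^2+z^2))) by ring,
    mul_div_mul_left _ _ hc.ne', mul_div_assoc]
  ring

theorem gT_scale {c x y z : ℝ} (hc : 0 < c) : gT (c*x) (c*y) (c*z) = c*gT x y z := by
  unfold gT
  have : 9*((c*x)*(c*y)*(c*z))/(c*x+c*y+c*z)^2 = c*(9*(x*y*z)/(x+y+z)^2) := by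
    rw [show c*x+c*y+c*z = c*(x+y+z) by ring, show (c*(x+y+z))^2 = c^2*(x+y+z)^2 by ring,
      show 9*((c*x)*(c*y)*(c*z)) = c^2*(c*(9*(x*y*z))) by ring,
      mul_div_mul_left _ _ (pow_ne_zero 2 hc.ne'), mul_div_assoc]
  rw [this]; ring

theorem PhiT_scale {c x y z : ℝ} (hc : 0 < c) (hx : 0 ≤ x) (hy : 0 ≤ y) (hz : 0 ≤ z) :
    PhiT (c*x) (c*y) (c*z) = c*PhiT x y z := by
  unfold PhiT
  have h1 : 18*((c*x)*(c*y)*(c*z))/(c*x+c*y+c*z)^2 = c*(18*(x*y*z)/(x+y+z)^2) := by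
    rw [show c*x+c*y+c*z = c*(x+y+z) by ring, show (c*(x+y+z))^2 = c^2*(x+y+z)^2 by ring,
      show 18*((c*x)*(c*y)*(c*z)) = c^2*(c*(18*(x*y*z))) by ring,
      mul_div_mul_left _ _ (pow_ne_zero 2 hc.ne'), mul_div_assoc]
  have h2 : cbrt ((c*x)*(c*y)*(c*z)) = c*cbrt (x*y*z) := by
    rw [show (c*x)*(c*y)*(c*z) = c^3*(x*y*z) by ring, cbrt_mul (by positivity) (by positivity),
      cbrt_cube hc.le]
  have h3 : 9*((c*x)*(c*y)+(c*y)*(c*z)+(c*z)*(c*x))/(c*x+c*y+c*z) = c*(9*(x*y+y*z+z*x)/(x+y+z)) := by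
    rw [show c*x+c*y+c*z = c*(x+y+z) by ring,
      show 9*((c*x)*(c*y)+(c*y)*(c*z)+(c*z)*(c*x)) = c*(c*(9*(x*y+y*z+z*x))) by ring,
      mul_div_mul_left _ _ hc.ne', mul_div_assoc]
  rw [h1, h2, h3]; ring

theorem chiT_norm {x y z : ℝ} (h : x+y+z = 3) : chiT x y z = aT x y z := by
  unfold chiT aT; rw [h]; ring

theorem gT_norm {x y z : ℝ} (h : x+y+z = 3) : gT x y z = (1 - x*y*z)/18 := by
  unfold gT; rw [h]; ring

theorem PhiT_norm {x y z : ℝ} (h : x+y+z = 3) : PhiT x y z = PhiN x y z := by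
  unfold PhiT PhiN
  have e : aT x y z = 1 - (x*y+y*z+z*x)/3 := by
    unfold aT
    have : z = 3 - x - y := by linarith
    rw [this]; ring
  rw [h, e]; ring

theorem chiT_zy (x y z : ℝ) : chiT x y z = Zf x y z - Yf x y z/Zf x y z := by
  unfold chiT Zf Yf
  rcases eq_or_ne (x+y+z) 0 with h | h
  · rw [h]; simp
  · field_simp
    ring

theorem PhiT_zy (x y z : ℝ) : PhiT x y z =
    2*(x*y*z/(Zf x y z)^2) + 3*cbrt (x*y*z) + 4*Zf x y z - 9*(Yf x y z/Zf x y z) := by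
  unfold PhiT Zf Yf
  rcases eq_or_ne (x+y+z) 0 with h | h
  · rw [h]; simp
  · field_simp
    ring

theorem sum_chiT_norm {x0 x1 x2 v0 v1 v2 : ℝ} 
    (hx : x0+x1+x2 = 3) (hv : v0+v1+v2 = 3) :
    sum6 chiT x0 x1 x2 v0 v1 v2 = 6 - R6 x0 x1 x2 v0 v1 v2 := by
  rw [← sumZ hx hv]
  unfold R6 sum6
  simp only [chiT_zy]
  ring

theorem sum_PhiT_norm {x0 x1 x2 v0 v1 v2 : ℝ} (hx0 : 0 ≤ x0) (hx1 : 0 ≤ x1) (hx2 : 0 ≤ x2)
    (hv0 : 0 ≤ v0) (hv1 : 0 ≤ v1) (hv2 : 0 ≤ v2)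
    (hx : x0+x1+x2 = 3) (hv : v0+v1+v2 = 3) :
    12*((x0*x1*x2)*(v0*v1*v2)) + 18*(cbrt (x0*x1*x2)*cbrt (v0*v1*v2)) + 24
      - 9*R6 x0 x1 x2 v0 v1 v2 ≤ sum6 PhiT x0 x1 x2 v0 v1 v2 := by
  have hsz := sumZ hx hv
  set tt := (x0*x1*x2)*(v0*v1*v2) with htt
  have htt0 : 0 ≤ tt := by rw [htt]; positivity
  have key : ∀ a b c : ℝ, 0 ≤ a → 0 ≤ b → 0 ≤ c → a*b*c = tt →
      2*(tt*(3 - 2*Zf a b c)) + 3*(cbrt (x0*x1*x2)*cbrt (v0*v1*v2)) + 4*Zf a b c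
        - 9*(Yf a b c/Zf a b c) ≤ PhiT a b c := by
    intro a b c ha hb hc h
    rw [PhiT_zy, h]
    have h1 : cbrt tt = cbrt (x0*x1*x2)*cbrt (v0*v1*v2) := by
      rw [htt, cbrt_mul (by positivity) (by positivity)]
    have h2 := inv_sq_lower (c := tt) (Zf_nonneg ha hb hc) htt0 (by
      intro hz
      obtain ⟨e1, e2, e3⟩ := all_zero ha hb hc hz
      rw [← h, e1]; ring)
    rw [h1]; linarith
  have k1 := key (x0*v0) (x1*v1) (x2*v2) (by positivity) (by positivity) (by positivity) (by rw [htt]; ring)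
  have k2 := key (x0*v1) (x1*v2) (x2*v0) (by positivity) (by positivity) (by positivity) (by rw [htt]; ring)
  have k3 := key (x0*v2) (x1*v0) (x2*v1) (by positivity) (by positivity) (by positivity) (by rw [htt]; ring)
  have k4 := key (x0*v0) (x1*v2) (x2*v1) (by positivity) (by positivity) (by positivity) (by rw [htt]; ring)
  have k5 := key (x0*v1) (x1*v0) (x2*v2) (by positivity) (by positivity) (by positivity) (by rw [htt]; ring)
  have k6 := key (x0*v2) (x1*v1) (x2*v0) (by positivity) (by positivity) (by positivity) (by rw [htt]; ring)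
  unfold R6 sum6
  unfold sum6 at hsz
  set T1 := Yf (x0*v0) (x1*v1) (x2*v2)/Zf (x0*v0) (x1*v1) (x2*v2)
  set T2 := Yf (x0*v1) (x1*v2) (x2*v0)/Zf (x0*v1) (x1*v2) (x2*v0)
  set T3 := Yf (x0*v2) (x1*v0) (x2*v1)/Zf (x0*v2) (x1*v0) (x2*v1)
  set T4 := Yf (x0*v0) (x1*v2) (x2*v1)/Zf (x0*v0) (x1*v2) (x2*v1)
  set T5 := Yf (x0*v1) (x1*v0) (x2*v2)/Zf (x0*v1) (x1*v0) (x2*v2)
  set T6 := Yf (x0*v2) (x1*v1) (x2*v0)/Zf (x0*v2) (x1*v1) (x2*v0)
  set Z1 := Zf (x0*v0) (x1*v1) (x2*v2)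
  set Z2 := Zf (x0*v1) (x1*v2) (x2*v0)
  set Z3 := Zf (x0*v2) (x1*v0) (x2*v1)
  set Z4 := Zf (x0*v0) (x1*v2) (x2*v1)
  set Z5 := Zf (x0*v1) (x1*v0) (x2*v2)
  set Z6 := Zf (x0*v2) (x1*v1) (x2*v0)
  have e : 2*(tt*(3 - 2*Z1)) + 2*(tt*(3 - 2*Z2)) + 2*(tt*(3 - 2*Z3)) + 2*(tt*(3 - 2*Z4))
    + 2*(tt*(3 - 2*Z5)) + 2*(tt*(3 - 2*Z6)) = 12*tt := by
    have : 2*(tt*(3 - 2*Z1)) + 2*(tt*(3 - 2*Z2)) + 2*(tt*(3 - 2*Z3)) + 2*(tt*(3 - 2*Z4))
      + 2*(tt*(3 - 2*Z5)) + 2*(tt*(3 - 2*Z6)) = tt*(36 - 4*(Z1+Z2+Z3+Z4+Z5+Z6)) := by ring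
    rw [this, hsz]; ring
  linarith

/-- decomposition of a nonzero nonnegative triple -/
theorem decomp {x y z : ℝ} (hx : 0 ≤ x) (hy : 0 ≤ y) (hz : 0 ≤ z) (h : x + y + z ≠ 0) :
    ∃ c a b d : ℝ, 0 < c ∧ 0 ≤ a ∧ 0 ≤ b ∧ 0 ≤ d ∧ a + b + d = 3 ∧ x = c*a ∧ y = c*b ∧ z = c*d := by
  have hpos : 0 < x + y + z := lt_of_le_of_ne (by positivity) (Ne.symm h)
  refine ⟨(x+y+z)/3, 3*x/(x+y+z), 3*y/(x+y+z), 3*z/(x+y+z), by positivity, by positivity,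
    by positivity, by positivity, ?_, ?_, ?_, ?_⟩
  · field_simp
  · field_simp
  · field_simp
  · field_simp

theorem sum6_scale {G : ℝ → ℝ → ℝ → ℝ} 
    (hG : ∀ c x y z : ℝ, 0 < c → 0 ≤ x → 0 ≤ y → 0 ≤ z → G (c*x) (c*y) (c*z) = c*G x y z)
    {c d x0 x1 x2 v0 v1 v2 : ℝ} (hc : 0 < c) (hd : 0 < d) (hx0 : 0 ≤ x0) (hx1 : 0 ≤ x1) (hx2 : 0 ≤ x2)
    (hv0 : 0 ≤ v0) (hv1 : 0 ≤ v1) (hv2 : 0 ≤ v2) :
    sum6 G (c*x0) (c*x1) (c*x2) (d*v0) (d*v1) (d*v2) = (c*d)*sum6 G x0 x1 x2 v0 v1 v2 := by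
  have e : ∀ x v : ℝ, (c*x)*(d*v) = (c*d)*(x*v) := by intro x v; ring
  have hcd : 0 < c*d := by positivity
  unfold sum6
  simp only [e]
  rw [hG (c*d) (x0*v0) (x1*v1) (x2*v2) hcd (by positivity) (by positivity) (by positivity),
    hG (c*d) (x0*v1) (x1*v2) (x2*v0) hcd (by positivity) (by positivity) (by positivity),
    hG (c*d) (x0*v2) (x1*v0) (x2*v1) hcd (by positivity) (by positivity) (by positivity),
    hG (c*d) (x0*v0) (x1*v2) (x2*v1) hcd (by positivity) (by positivity) (by positivity),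
    hG (c*d) (x0*v1) (x1*v0) (x2*v2) hcd (by positivity) (by positivity) (by positivity),
    hG (c*d) (x0*v2) (x1*v1) (x2*v0) hcd (by positivity) (by positivity) (by positivity)]
  ring

theorem prodA_T {x0 x1 x2 v0 v1 v2 : ℝ} (hx0 : 0 ≤ x0) (hx1 : 0 ≤ x1) (hx2 : 0 ≤ x2)
    (hv0 : 0 ≤ v0) (hv1 : 0 ≤ v1) (hv2 : 0 ≤ v2) :
    sum6 chiT x0 x1 x2 v0 v1 v2 ≤ 6*(chiT x0 x1 x2*((v0+v1+v2)/3) + (x0+x1+x2)/3*chiT v0 v1 v2
      - PhiT x0 x1 x2*gT v0 v1 v2 - PhiT v0 v1 v2*gT x0 x1 x2) := by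
  have z0 : chiT 0 0 0 = 0 := by unfold chiT; simp
  have z1 : PhiT 0 0 0 = 0 := by unfold PhiT cbrt; simp
  have z2 : gT 0 0 0 = 0 := by unfold gT; simp
  rcases eq_or_ne (x0+x1+x2) 0 with hx | hx
  · have e0 : x0 = 0 := by linarith
    have e1 : x1 = 0 := by linarith
    have e2 : x2 = 0 := by linarith
    subst e0 e1 e2
    unfold sum6
    simp [z0, z1, z2]
  rcases eq_or_ne (v0+v1+v2) 0 with hv | hv
  · have e0 : v0 = 0 := by linarith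
    have e1 : v1 = 0 := by linarith
    have e2 : v2 = 0 := by linarith
    subst e0 e1 e2
    unfold sum6
    simp [z0, z1, z2]
  obtain ⟨c, a0, a1, a2, hc, h0, h1, h2, hs, rfl, rfl, rfl⟩ := decomp hx0 hx1 hx2 hx
  obtain ⟨d, b0, b1, b2, hd, k0, k1, k2, ks, rfl, rfl, rfl⟩ := decomp hv0 hv1 hv2 hv
  rw [sum6_scale (fun c x y z hc _ _ _ => chiT_scale hc) hc hd h0 h1 h2 k0 k1 k2,
    chiT_scale hc, chiT_scale hd, gT_scale hc, gT_scale hd, PhiT_scale hc h0 h1 h2,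
    PhiT_scale hd k0 k1 k2, show c*a0+c*a1+c*a2 = c*(a0+a1+a2) by ring,
    show d*b0+d*b1+d*b2 = d*(b0+b1+b2) by ring, hs, ks, sum_chiT_norm hs ks,
    chiT_norm hs, chiT_norm ks, gT_norm hs, gT_norm ks, PhiT_norm hs, PhiT_norm ks]
  have hcd : 0 < c*d := by positivity
  have main := mul_le_mul_of_nonneg_left (prodA_norm h0 h1 h2 k0 k1 k2 hs ks) hcd.le
  linarith

theorem prodB_T {x0 x1 x2 v0 v1 v2 : ℝ} (hx0 : 0 ≤ x0) (hx1 : 0 ≤ x1) (hx2 : 0 ≤ x2)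
    (hv0 : 0 ≤ v0) (hv1 : 0 ≤ v1) (hv2 : 0 ≤ v2) :
    6*(PhiT x0 x1 x2*((v0+v1+v2)/3 - chiT v0 v1 v2) + PhiT v0 v1 v2*((x0+x1+x2)/3 - chiT x0 x1 x2)
      + 1/10*chiT x0 x1 x2*chiT v0 v1 v2) ≤ sum6 PhiT x0 x1 x2 v0 v1 v2 := by
  have z0 : chiT 0 0 0 = 0 := by unfold chiT; simp
  have z1 : PhiT 0 0 0 = 0 := by unfold PhiT cbrt; simp
  have z2 : gT 0 0 0 = 0 := by unfold gT; simp
  rcases eq_or_ne (x0+x1+x2) 0 with hx | hx
  · have e0 : x0 = 0 := by linarith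
    have e1 : x1 = 0 := by linarith
    have e2 : x2 = 0 := by linarith
    subst e0 e1 e2
    unfold sum6
    simp [z0, z1]
  rcases eq_or_ne (v0+v1+v2) 0 with hv | hv
  · have e0 : v0 = 0 := by linarith
    have e1 : v1 = 0 := by linarith
    have e2 : v2 = 0 := by linarith
    subst e0 e1 e2
    unfold sum6
    simp [z0, z1]
  obtain ⟨c, a0, a1, a2, hc, h0, h1, h2, hs, rfl, rfl, rfl⟩ := decomp hx0 hx1 hx2 hx
  obtain ⟨d, b0, b1, b2, hd, k0, k1, k2, ks, rfl, rfl, rfl⟩ := decomp hv0 hv1 hv2 hv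
  rw [sum6_scale (fun c x y z hc hx hy hz => PhiT_scale hc hx hy hz) hc hd h0 h1 h2 k0 k1 k2,
    chiT_scale hc, chiT_scale hd, PhiT_scale hc h0 h1 h2,
    PhiT_scale hd k0 k1 k2, show c*a0+c*a1+c*a2 = c*(a0+a1+a2) by ring,
    show d*b0+d*b1+d*b2 = d*(b0+b1+b2) by ring, hs, ks,
    chiT_norm hs, chiT_norm ks, PhiT_norm hs, PhiT_norm ks]
  have hcd : 0 < c*d := by positivity
  have m1 := prodB_norm h0 h1 h2 k0 k1 k2 hs ks
  have m2 := sum_PhiT_norm h0 h1 h2 k0 k1 k2 hs ks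
  have main := mul_le_mul_of_nonneg_left (m1.trans m2) hcd.le
  linarith

theorem smoothC_T {lam x y z : ℝ} (hl0 : 0 ≤ lam) (hl1 : lam ≤ 1) (hx : 0 ≤ x) (hy : 0 ≤ y)
    (hz : 0 ≤ z) : lam^3 * PhiT x y z ≤
      PhiT (lam*x + (1-lam)/3*(x+y+z)) (lam*y + (1-lam)/3*(x+y+z)) (lam*z + (1-lam)/3*(x+y+z)) := by
  rcases eq_or_ne (x+y+z) 0 with hs0 | hs0
  · have e0 : x = 0 := by linarith
    have e1 : y = 0 := by linarith
    have e2 : z = 0 := by linarith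
    subst e0 e1 e2
    simp [PhiT, cbrt]
  obtain ⟨c, a0, a1, a2, hc, h0, h1, h2, hs, rfl, rfl, rfl⟩ := decomp hx hy hz hs0
  have e : ∀ t, lam*(c*t) + (1-lam)/3*(c*a0+c*a1+c*a2) = c*(lam*t + (1-lam)) := by
    intro t
    rw [show c*a0+c*a1+c*a2 = c*(a0+a1+a2) by ring, hs]; ring
  have hl' : 0 ≤ 1 - lam := by linarith
  rw [e, e, e, PhiT_scale hc h0 h1 h2, PhiT_scale hc (by positivity) (by positivity) (by positivity)]
  have hs' : (lam*a0+(1-lam)) + (lam*a1+(1-lam)) + (lam*a2+(1-lam)) = 3 := by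
    have : (lam*a0+(1-lam)) + (lam*a1+(1-lam)) + (lam*a2+(1-lam)) = lam*(a0+a1+a2) + 3*(1-lam) := by
      ring
    rw [this, hs]; ring
  rw [PhiT_norm hs, PhiT_norm hs']
  have hd := dom_of h0 h1 h2 hs
  have h3 : cbrt (a0*a1*a2)^3 = a0*a1*a2 := cbrt_pow (by positivity)
  have h4 : cbrt ((lam*a0+(1-lam))*(lam*a1+(1-lam))*(lam*a2+(1-lam)))^3
      = (lam*a0+(1-lam))*(lam*a1+(1-lam))*(lam*a2+(1-lam)) := cbrt_pow (by positivity)
  have ha : aT (lam*a0+(1-lam)) (lam*a1+(1-lam)) (lam*a2+(1-lam)) = lam^2*aT a0 a1 a2 := by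
    unfold aT
    have : a2 = 3 - a0 - a1 := by linarith
    rw [this]; ring
  have hp : (lam*a0+(1-lam))*(lam*a1+(1-lam))*(lam*a2+(1-lam)) =
      1 - 3*(lam^2*aT a0 a1 a2) + 2*(lam^3*pT a0 a1 a2) := by
    unfold pT aT
    have : a2 = 3 - a0 - a1 := by linarith
    rw [this]; ring
  have main := scalarC (t := cbrt ((lam*a0+(1-lam))*(lam*a1+(1-lam))*(lam*a2+(1-lam)))) hd hl0 hl1
    (by rw [h4, hp])
  rw [h3, h4] at main
  unfold PhiN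
  rw [ha]
  have := mul_le_mul_of_nonneg_left main hc.le
  linarith

theorem g_lower_T {x y z : ℝ} (hx : 0 ≤ x) (hy : 0 ≤ y) (hz : 0 ≤ z) :
    1/18*chiT x y z ≤ gT x y z := by
  rcases eq_or_ne (x+y+z) 0 with hs0 | hs0
  · have e0 : x = 0 := by linarith
    have e1 : y = 0 := by linarith
    have e2 : z = 0 := by linarith
    subst e0 e1 e2
    simp [chiT, gT]
  obtain ⟨c, a0, a1, a2, hc, h0, h1, h2, hs, rfl, rfl, rfl⟩ := decomp hx hy hz hs0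
  rw [chiT_scale hc, gT_scale hc, chiT_norm hs, gT_norm hs]
  have hd := dom_of h0 h1 h2 hs
  have h3 : cbrt (a0*a1*a2)^3 = a0*a1*a2 := cbrt_pow (by positivity)
  have h4 := hd.hs
  rw [h3] at h4
  have h5 := hd.p_le
  have h6 : 1/18*aT a0 a1 a2 ≤ (1 - a0*a1*a2)/18 := by rw [h4]; linarith
  have := mul_le_mul_of_nonneg_left h6 hc.le
  linarith

/-- the certificate for `q = 3` -/
noncomputable def cert3 {lam : ℝ} (h0 : 0 ≤ lam) (h1 : lam ≤ 1) : Certificate 3 lam where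
  Phi := Phi3
  g := g3
  eps := 1/10
  gam := 1/18
  eps_pos := by norm_num
  gam_pos := by norm_num
  g_lower := by
    intro w hw
    rw [chi_eq]
    exact g_lower_T (hw 0) (hw 1) (hw 2)
  Phi_single := by
    intro i
    fin_cases i <;> simp [Phi3, PhiT, cbrt] <;> norm_num
  Phi_one := by
    have : PhiT 1 1 1 = 0 := by
      unfold PhiT cbrt; norm_num
    simp [Phi3, this]
  prodA := by
    intro w w' hw hw'
    have h := prodA_T (hw 0) (hw 1) (hw 2) (hw' 0) (hw' 1) (hw' 2)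
    rw [chi_eq, chi_eq, mass_eq, mass_eq]
    have e : ∑ s : Equiv.Perm (Fin 3), chi (fun i => w i * w' (s i)) =
        sum6 chiT (w 0) (w 1) (w 2) (w' 0) (w' 1) (w' 2) := by
      simp only [chi_eq]
      exact sum_perm3 (fun i j k => chiT (w 0 * w' i) (w 1 * w' j) (w 2 * w' k))
    rw [e]
    simpa [Phi3, g3, Nat.factorial] using h
  prodB := by
    intro w w' hw hw'
    have h := prodB_T (hw 0) (hw 1) (hw 2) (hw' 0) (hw' 1) (hw' 2)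
    rw [chi_eq, chi_eq, mass_eq, mass_eq]
    have e : ∑ s : Equiv.Perm (Fin 3), Phi3 (fun i => w i * w' (s i)) =
        sum6 PhiT (w 0) (w 1) (w 2) (w' 0) (w' 1) (w' 2) := by
      simp only [Phi3]
      exact sum_perm3 (fun i j k => PhiT (w 0 * w' i) (w 1 * w' j) (w 2 * w' k))
    rw [e]
    simpa [Phi3, Nat.factorial] using h
  smoothC := by
    intro w hw
    have h := smoothC_T h0 h1 (hw 0) (hw 1) (hw 2)
    simp only [Phi3, smooth, Fin.sum_univ_three]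
    norm_num
    convert h using 2

end Vale.Agent.P154.Q3
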