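import Vale.Agent.Lib.P154.RvDefs
import Vale.Agent.Lib.P154.PmfBridge

/-!
# The law of the data in the random variable model
-/

open MeasureTheory
open scoped BigOperators ENNReal

namespace Vale.Agent.P154.Rv

open Vale.Agent.P154.Pmf

/-- transition probabilities -/
noncomputable def tr (q : ℕ) (lam : ℝ) (i j : Fin q) : ℝ :=
  lam * (if i = j then 1 else 0) + (1 - lam) / q

/-- likelihood of the data given the spin -/
noncomputable def lk (q : ℕ) (lam : ℝ) (p : ℕ → ℝ) : (n : ℕ) → Fin q → Obs q n → ℝ
  | 0 => fun i (x : Fin q) => if x = i then 1 else 0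
  | n + 1 => fun i o => p o.1 * ∏ c : Fin o.1, ∑ j, tr q lam i j * lk q lam p n j (o.2 c)

instance countable_data (q : ℕ) : (n : ℕ) → Countable (Obs q n)
  | 0 => inferInstanceAs (Countable (Fin q))
  | n + 1 =>
    haveI := countable_data q n
    inferInstanceAs (Countable (Σ k : ℕ, Fin k → Obs q n))

theorem nonempty_data (q : ℕ) [NeZero q] : (n : ℕ) → Nonempty (Obs q n)
  | 0 => inferInstanceAs (Nonempty (Fin q))
  | _ + 1 => ⟨⟨0, Fin.elim0⟩⟩

variable {Ω : Type*} [MeasurableSpace Ω] {μ : Measure Ω} {q : ℕ} {lam : ℝ} {p : ℕ → ℝ}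
  {k : List ℕ → Ω → ℕ} {s : List ℕ → Ω → Fin q}

omit [MeasurableSpace Ω] in
theorem view_succ_iff (n : ℕ) (v : List ℕ) (ω : Ω) (o : Obs q (n + 1)) :
    view k s (n + 1) v ω = o ↔
      k v ω = o.1 ∧ ∀ c : Fin o.1, view k s n (c.val :: v) ω = o.2 c := by
  obtain ⟨κ, f⟩ := o
  constructor
  · intro h
    have h1 : k v ω = κ := congrArg Sigma.fst h
    subst h1
    exact ⟨rfl, fun c => congrFun (eq_of_heq (Sigma.mk.inj h).2) c⟩
  · rintro ⟨h1, h⟩
    have h1' : k v ω = κ := h1
    subst h1'
    exact congrArg (Sigma.mk _) (funext h)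

theorem measurableSet_view (h : IsBroadcast μ q lam p k s) (n : ℕ) (v : List ℕ)
    (o : Obs q n) : MeasurableSet {ω | view k s n v ω = o} := by
  induction n generalizing v with
  | zero => exact h.meas_s v (measurableSet_singleton (α := Fin q) o)
  | succ n ih =>
    have e : {ω | view k s (n + 1) v ω = o} =
        {ω | k v ω = o.1} ∩ ⋂ c : Fin o.1, {ω | view k s n (c.val :: v) ω = o.2 c} := by
      ext ω
      simp only [Set.mem_inter_iff, Set.mem_iInter]
      exact view_succ_iff n v ω o
    rw [e]
    exact (h.meas_k v (measurableSet_singleton _)).inter (MeasurableSet.iInter fun c => ih _ _)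

theorem real_eq_sum_fiber [IsFiniteMeasure μ] {ι : Type*} [Fintype ι] (S : Set Ω) (T : Ω → ι)
    (hT : ∀ i, MeasurableSet (T ⁻¹' {i})) :
    μ.real S = ∑ i, μ.real (S ∩ T ⁻¹' {i}) := by
  have h1 := sum_measure_preimage_singleton (μ := μ.restrict S) (Finset.univ : Finset ι)
    (f := T) (fun i _ => hT i)
  rw [Finset.coe_univ, Set.preimage_univ, Measure.restrict_apply_univ] at h1
  unfold Measure.real
  rw [← h1, ENNReal.toReal_sum (fun i _ => measure_ne_top _ _)]
  refine Finset.sum_congr rfl fun i _ => ?_
  rw [Measure.restrict_apply (hT i), Set.inter_comm]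

theorem law_view [IsProbabilityMeasure μ] [NeZero q] (h : IsBroadcast μ q lam p k s) (n : ℕ) :
    ∀ (A E F : Finset (List ℕ)), E ⊆ F → A ⊆ F → Disjoint E A → [] ∈ F →
      (∀ c v, c :: v ∈ F → v ∈ F) → (∀ v ∈ A, ∀ c, c :: v ∉ F) →
      ∀ (κ : List ℕ → ℕ) (σ : List ℕ → Fin q) (o : List ℕ → Obs q n),
        μ.real {ω | (∀ v ∈ E, k v ω = κ v) ∧ (∀ v ∈ F, s v ω = σ v) ∧
          ∀ v ∈ A, view k s n v ω = o v} =
        (∏ v ∈ E, p (κ v)) * ((1 / (q : ℝ)) * ∏ v ∈ F.erase [], tr q lam (σ v.tail) (σ v)) *
          ∏ v ∈ A, lk q lam p n (σ v) (o v) := by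
  classical
  induction n with
  | zero =>
    intro A E F hEF hAF hEA h0 hcl hleaf κ σ o
    by_cases hall : ∀ v ∈ A, (o v : Fin q) = σ v
    · have e : {ω | (∀ v ∈ E, k v ω = κ v) ∧ (∀ v ∈ F, s v ω = σ v) ∧
          ∀ v ∈ A, view k s 0 v ω = o v} =
          {ω | (∀ v ∈ E, k v ω = κ v) ∧ ∀ v ∈ F, s v ω = σ v} := by
        ext ω
        constructor
        · rintro ⟨h1, h2, -⟩
          exact ⟨h1, h2⟩
        · rintro ⟨h1, h2⟩
          refine ⟨h1, h2, fun v hv => ?_⟩
          change s v ω = o v
          rw [hall v hv]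
          exact h2 v (hAF hv)
      rw [e, h.law E F h0 hcl κ σ]
      have e2 : ∏ v ∈ A, lk q lam p 0 (σ v) (o v) = 1 := by
        refine Finset.prod_eq_one fun v hv => ?_
        exact if_pos (hall v hv)
      rw [e2, mul_one]
      rfl
    · push Not at hall
      obtain ⟨v, hv, hne⟩ := hall
      have e : {ω | (∀ v ∈ E, k v ω = κ v) ∧ (∀ v ∈ F, s v ω = σ v) ∧
          ∀ v ∈ A, view k s 0 v ω = o v} = ∅ := by
        rw [Set.eq_empty_iff_forall_notMem]
        rintro ω ⟨-, h2, h3⟩
        apply hne
        rw [← h2 v (hAF hv)]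
        exact (h3 v hv).symm
      have e2 : ∏ v ∈ A, lk q lam p 0 (σ v) (o v) = 0 := by
        refine Finset.prod_eq_zero hv ?_
        exact if_neg hne
      rw [e, e2, mul_zero, measureReal_empty]
  | succ n ih =>
    intro A E F hEF hAF hEA h0 hcl hleaf κ σ o
    have := nonempty_data q n
    set B : Finset (List ℕ) :=
      A.biUnion fun v => (Finset.range (o v).1).image fun c => c :: v with hB
    have memB : ∀ w, w ∈ B ↔ ∃ v ∈ A, ∃ c < (o v).1, c :: v = w := by
      intro w
      simp only [hB, Finset.mem_biUnion, Finset.mem_image, Finset.mem_range]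
    have hBF : ∀ w ∈ B, w ∉ F := by
      intro w hw
      obtain ⟨v, hv, c, hc, rfl⟩ := (memB w).1 hw
      exact hleaf v hv c
    have hnilB : ([] : List ℕ) ∉ B := fun hn => hBF _ hn h0
    let o' : List ℕ → Obs q n := fun w => match w with
      | [] => Classical.arbitrary _
      | c :: v => if hc : c < (o v).1 then (o v).2 ⟨c, hc⟩ else Classical.arbitrary _
    have ho' : ∀ v (c : Fin (o v).1), o' (c.val :: v) = (o v).2 c := by
      intro v c
      change (if hc : c.val < (o v).1 then (o v).2 ⟨c.val, hc⟩ else Classical.arbitrary _) = _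
      rw [dif_pos c.2]
    let κ' : List ℕ → ℕ := fun v => if v ∈ A then (o v).1 else κ v
    let σ' : ({w // w ∈ B} → Fin q) → List ℕ → Fin q := fun τ v =>
      if hv : v ∈ B then τ ⟨v, hv⟩ else σ v
    let T : Ω → ({w // w ∈ B} → Fin q) := fun ω w => s w ω
    have hT : ∀ τ, MeasurableSet (T ⁻¹' {τ}) := by
      intro τ
      have e : T ⁻¹' {τ} = ⋂ w : {w // w ∈ B}, {ω | s w ω = τ w} := by
        ext ω
        simp only [Set.mem_preimage, Set.mem_singleton_iff, Set.mem_iInter]
        exact ⟨fun h w => congrFun h w, fun h => funext h⟩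
      rw [e]
      exact MeasurableSet.iInter fun w => h.meas_s _ (measurableSet_singleton _)
    rw [real_eq_sum_fiber _ T hT]
    have key : ∀ τ, μ.real ({ω | (∀ v ∈ E, k v ω = κ v) ∧ (∀ v ∈ F, s v ω = σ v) ∧
          ∀ v ∈ A, view k s (n + 1) v ω = o v} ∩ T ⁻¹' {τ}) =
        ((∏ v ∈ E, p (κ v)) * (∏ v ∈ A, p (o v).1)) *
          ((1 / (q : ℝ)) * ∏ v ∈ F.erase [], tr q lam (σ v.tail) (σ v)) *
          ∏ w : {w // w ∈ B}, (tr q lam (σ w.1.tail) (τ w) * lk q lam p n (τ w) (o' w.1)) := by
      intro τ
      have e : ({ω | (∀ v ∈ E, k v ω = κ v) ∧ (∀ v ∈ F, s v ω = σ v) ∧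
          ∀ v ∈ A, view k s (n + 1) v ω = o v} ∩ T ⁻¹' {τ}) =
          {ω | (∀ v ∈ E ∪ A, k v ω = κ' v) ∧ (∀ v ∈ F ∪ B, s v ω = σ' τ v) ∧
            ∀ w ∈ B, view k s n w ω = o' w} := by
        ext ω
        constructor
        · rintro ⟨⟨h1, h2, h3⟩, h4⟩
          have h4' : ∀ w : {w // w ∈ B}, s w.1 ω = τ w := fun w => congrFun h4 w
          refine ⟨?_, ?_, ?_⟩
          · intro v hv
            change k v ω = if v ∈ A then (o v).1 else κ v
            by_cases hvA : v ∈ A
            · rw [if_pos hvA]
              exact ((view_succ_iff n v ω (o v)).1 (h3 v hvA)).1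
            · rw [if_neg hvA]
              rcases Finset.mem_union.1 hv with h5 | h5
              · exact h1 v h5
              · exact absurd h5 hvA
          · intro v hv
            change s v ω = if hv : v ∈ B then τ ⟨v, hv⟩ else σ v
            by_cases hvB : v ∈ B
            · rw [dif_pos hvB]
              exact h4' ⟨v, hvB⟩
            · rw [dif_neg hvB]
              rcases Finset.mem_union.1 hv with h5 | h5
              · exact h2 v h5
              · exact absurd h5 hvB
          · intro w hw
            obtain ⟨v, hv, c, hc, rfl⟩ := (memB w).1 hw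
            have h5 := ((view_succ_iff n v ω (o v)).1 (h3 v hv)).2 ⟨c, hc⟩
            rw [ho' v ⟨c, hc⟩]
            exact h5
        · rintro ⟨h1, h2, h3⟩
          refine ⟨⟨?_, ?_, ?_⟩, ?_⟩
          · intro v hv
            have h5 := h1 v (Finset.mem_union_left _ hv)
            have hvA : v ∉ A := fun hA => Finset.disjoint_left.1 hEA hv hA
            change k v ω = if v ∈ A then (o v).1 else κ v at h5
            rwa [if_neg hvA] at h5
          · intro v hv
            have h5 := h2 v (Finset.mem_union_left _ hv)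
            have hvB : v ∉ B := fun hb => hBF v hb hv
            change s v ω = if hv : v ∈ B then τ ⟨v, hv⟩ else σ v at h5
            rwa [dif_neg hvB] at h5
          · intro v hv
            rw [view_succ_iff]
            constructor
            · have h5 := h1 v (Finset.mem_union_right _ hv)
              change k v ω = if v ∈ A then (o v).1 else κ v at h5
              rwa [if_pos hv] at h5
            · intro c
              rw [← ho' v c]
              exact h3 _ ((memB _).2 ⟨v, hv, c.1, c.2, rfl⟩)
          · change T ω = τ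
            funext w
            have h5 := h2 w.1 (Finset.mem_union_right _ w.2)
            change s w.1 ω = if hv : w.1 ∈ B then τ ⟨w.1, hv⟩ else σ w.1 at h5
            rw [dif_pos w.2] at h5
            exact h5
      rw [e]
      have hih := ih B (E ∪ A) (F ∪ B)
        (Finset.union_subset (hEF.trans Finset.subset_union_left)
          (hAF.trans Finset.subset_union_left))
        Finset.subset_union_right
        (by
          rw [Finset.disjoint_left]
          intro v hv hvB
          rcases Finset.mem_union.1 hv with h5 | h5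
          · exact hBF v hvB (hEF h5)
          · exact hBF v hvB (hAF h5))
        (Finset.mem_union_left _ h0)
        (by
          intro c v hcv
          rcases Finset.mem_union.1 hcv with h5 | h5
          · exact Finset.mem_union_left _ (hcl c v h5)
          · obtain ⟨v', hv', c', hc', he⟩ := (memB _).1 h5
            obtain ⟨-, rfl⟩ := List.cons.inj he
            exact Finset.mem_union_left _ (hAF hv'))
        (by
          intro v hv c hcv
          rcases Finset.mem_union.1 hcv with h5 | h5
          · exact hBF v hv (hcl c v h5)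
          · obtain ⟨v', hv', c', hc', he⟩ := (memB _).1 h5
            obtain ⟨-, rfl⟩ := List.cons.inj he
            exact hBF _ hv (hAF hv'))
        κ' (σ' τ) o'
      rw [hih]
      have p1 : ∏ v ∈ E ∪ A, p (κ' v) = (∏ v ∈ E, p (κ v)) * ∏ v ∈ A, p (o v).1 := by
        rw [Finset.prod_union hEA]
        congr 1
        · refine Finset.prod_congr rfl fun v hv => ?_
          have hvA : v ∉ A := fun hA => Finset.disjoint_left.1 hEA hv hA
          change p (if v ∈ A then (o v).1 else κ v) = _
          rw [if_neg hvA]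
        · refine Finset.prod_congr rfl fun v hv => ?_
          change p (if v ∈ A then (o v).1 else κ v) = _
          rw [if_pos hv]
      have sF : ∀ v ∈ F, σ' τ v = σ v := by
        intro v hv
        change (if hv : v ∈ B then τ ⟨v, hv⟩ else σ v) = σ v
        rw [dif_neg fun hb => hBF v hb hv]
      have sB : ∀ w : {w // w ∈ B}, σ' τ w.1 = τ w := by
        intro w
        change (if hv : w.1 ∈ B then τ ⟨w.1, hv⟩ else σ w.1) = τ w
        rw [dif_pos w.2]
      have tB : ∀ w ∈ B, w.tail ∈ F := by
        intro w hw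
        obtain ⟨v, hv, c, hc, rfl⟩ := (memB w).1 hw
        exact hAF hv
      have p2 : ∏ v ∈ (F ∪ B).erase [], tr q lam (σ' τ v.tail) (σ' τ v) =
          (∏ v ∈ F.erase [], tr q lam (σ v.tail) (σ v)) *
            ∏ w ∈ B, tr q lam (σ w.tail) (σ' τ w) := by
        have e3 : (F ∪ B).erase [] = F.erase [] ∪ B := by
          rw [Finset.erase_union_distrib, Finset.erase_eq_of_notMem hnilB]
        rw [e3, Finset.prod_union]
        · congr 1
          · refine Finset.prod_congr rfl fun v hv => ?_
            rw [Finset.mem_erase] at hv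
            rw [sF v hv.2]
            obtain ⟨c, v', rfl⟩ : ∃ c v', v = c :: v' := List.exists_cons_of_ne_nil hv.1
            rw [List.tail_cons, sF v' (hcl c v' hv.2)]
          · refine Finset.prod_congr rfl fun w hw => ?_
            rw [sF _ (tB w hw)]
        · rw [Finset.disjoint_left]
          intro v hv hvB
          exact hBF v hvB (Finset.mem_of_mem_erase hv)
      rw [p1, p2]
      have p3 : (∏ w : {w // w ∈ B}, (tr q lam (σ w.1.tail) (τ w) *
          lk q lam p n (τ w) (o' w.1))) =
          (∏ w ∈ B, tr q lam (σ w.tail) (σ' τ w)) * ∏ w ∈ B, lk q lam p n (σ' τ w) (o' w) := by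
        rw [← Finset.prod_mul_distrib, ← Finset.prod_coe_sort B]
        refine Finset.prod_congr rfl fun w _ => ?_
        rw [sB]
      rw [p3]
      ring
    simp only [key]
    rw [← Finset.mul_sum]
    have e4 : ∑ τ : {w // w ∈ B} → Fin q, ∏ w : {w // w ∈ B},
        (tr q lam (σ w.1.tail) (τ w) * lk q lam p n (τ w) (o' w.1)) =
        ∏ v ∈ A, ∏ c : Fin (o v).1, ∑ j, tr q lam (σ v) j * lk q lam p n j ((o v).2 c) := by
      have e5 := Finset.prod_univ_sum (fun _ : {w // w ∈ B} => (Finset.univ : Finset (Fin q)))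
        (fun w j => tr q lam (σ w.1.tail) j * lk q lam p n j (o' w.1))
      rw [Fintype.piFinset_univ] at e5
      rw [← e5]
      rw [Finset.prod_coe_sort B (fun w => ∑ j, tr q lam (σ w.tail) j * lk q lam p n j (o' w))]
      rw [hB, Finset.prod_biUnion]
      · refine Finset.prod_congr rfl fun v hv => ?_
        rw [Finset.prod_image (fun c _ c' _ he => (List.cons.inj he).1), Finset.prod_range]
        refine Finset.prod_congr rfl fun c _ => ?_
        rw [ho' v c]
        rfl
      · intro v _ v' _ hne
        rw [Function.onFun, Finset.disjoint_left]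
        intro w hw hw'
        obtain ⟨c, -, rfl⟩ := Finset.mem_image.1 hw
        obtain ⟨c', -, he⟩ := Finset.mem_image.1 hw'
        exact hne (List.cons.inj he).2.symm
    rw [e4]
    have e6 : ∏ v ∈ A, lk q lam p (n + 1) (σ v) (o v) =
        (∏ v ∈ A, p (o v).1) *
          ∏ v ∈ A, ∏ c : Fin (o v).1, ∑ j, tr q lam (σ v) j * lk q lam p n j ((o v).2 c) := by
      rw [← Finset.prod_mul_distrib]
      rfl
    rw [e6]
    ring

theorem real_view_inter [IsProbabilityMeasure μ] [NeZero q] (h : IsBroadcast μ q lam p k s)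
    (n : ℕ) (i : Fin q) (o : Obs q n) :
    μ.real ({ω | view k s n [] ω = o} ∩ {ω | s [] ω = i}) =
      1 / (q : ℝ) * lk q lam p n i o := by
  have h1 := law_view h n {[]} ∅ {[]} (Finset.empty_subset _) (Finset.Subset.refl _)
    (Finset.disjoint_empty_left _) (Finset.mem_singleton_self _)
    (by
      intro c v hcv
      exact absurd (Finset.mem_singleton.1 hcv) (List.cons_ne_nil c v))
    (by
      intro v _ c hcv
      exact absurd (Finset.mem_singleton.1 hcv) (List.cons_ne_nil c v))
    (fun _ => 0) (fun _ => i) (fun _ => o)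
  rw [Finset.prod_empty, one_mul, Finset.prod_singleton, Finset.erase_singleton,
    Finset.prod_empty, mul_one] at h1
  rw [← h1]
  congr 1
  ext ω
  simp only [Set.mem_inter_iff, Finset.notMem_empty, Finset.mem_singleton]
  constructor
  · rintro ⟨h2, h3⟩
    refine ⟨fun v hv => hv.elim, ?_, ?_⟩
    · rintro v rfl
      exact h3
    · rintro v rfl
      exact h2
  · rintro ⟨-, h3, h4⟩
    exact ⟨h4 [] rfl, h3 [] rfl⟩

theorem real_view [IsProbabilityMeasure μ] [NeZero q] (h : IsBroadcast μ q lam p k s)
    (n : ℕ) (o : Obs q n) :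
    μ.real {ω | view k s n [] ω = o} = obsProb (lk q lam p n) o := by
  rw [real_eq_sum_fiber _ (s []) (fun i => h.meas_s [] (measurableSet_singleton i))]
  exact Finset.sum_congr rfl fun i _ => real_view_inter h n i o

theorem cond_real_eq {S : Set Ω} (hS : MeasurableSet S) (μ : Measure Ω) (A : Set Ω) :
    (ProbabilityTheory.cond μ S).real A = (μ.real S)⁻¹ * μ.real (S ∩ A) := by
  unfold Measure.real
  rw [ProbabilityTheory.cond_apply hS, ENNReal.toReal_mul, ENNReal.toReal_inv]

theorem a_eq_tsum [IsProbabilityMeasure μ] [NeZero q] (h : IsBroadcast μ q lam p k s) (n : ℕ) :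
    a μ k s n = ∑' o : Obs q n, gg (lk q lam p n) o := by
  let i1 : MeasurableSpace (Obs q n) := ⊤
  have hX : Measurable (view k s n []) :=
    measurable_to_countable' fun o => measurableSet_view h n [] o
  let G : Obs q n → ℝ := fun o => (1 / 2) * ∑ i : Fin q,
    |(ProbabilityTheory.cond μ {ω' | view k s n [] ω' = o}).real {ω' | s [] ω' = i} -
      1 / (q : ℝ)|
  have hG : ∀ o, G o = 1 / 2 * ∑ i, |posterior (lk q lam p n) o i - 1 / (q : ℝ)| := by
    intro o
    change 1 / 2 * ∑ i : Fin q, _ = _
    congr 1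
    refine Finset.sum_congr rfl fun i _ => ?_
    rw [cond_real_eq (measurableSet_view h n [] o), real_view_inter h,
      real_view h]
    unfold posterior
    rw [inv_mul_eq_div]
  have hb : ∀ o, ‖G o‖ ≤ 1 / 2 * ∑ _i : Fin q, (1 + 1 / (q : ℝ)) := by
    intro o
    rw [Real.norm_of_nonneg (mul_nonneg (by norm_num) (Finset.sum_nonneg fun i _ => abs_nonneg _))]
    refine mul_le_mul_of_nonneg_left (Finset.sum_le_sum fun i _ => ?_) (by norm_num)
    refine (abs_sub _ _).trans ?_
    refine add_le_add ?_ (le_of_eq (abs_of_nonneg (by positivity)))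
    rw [abs_of_nonneg measureReal_nonneg,
      cond_real_eq (measurableSet_view h n [] o), inv_mul_eq_div]
    refine div_le_one_of_le₀ ?_ measureReal_nonneg
    exact measureReal_mono Set.inter_subset_left
  have e1 : a μ k s n = ∫ o, G o ∂(μ.map (view k s n [])) := by
    rw [integral_map hX.aemeasurable (measurable_of_countable G).aestronglyMeasurable]
    rfl
  have : IsProbabilityMeasure (μ.map (view k s n [])) :=
    Measure.isProbabilityMeasure_map hX.aemeasurable
  have hint : Integrable G (μ.map (view k s n [])) :=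
    Integrable.of_bound (measurable_of_countable G).aestronglyMeasurable _
      (Filter.Eventually.of_forall hb)
  rw [e1, integral_countable hint]
  refine tsum_congr fun o => ?_
  rw [smul_eq_mul, hG]
  unfold gg
  congr 1
  rw [← real_view h]
  unfold Measure.real
  rw [Measure.map_apply hX (measurableSet_singleton o)]
  rfl

theorem lk_eq {N : PMF ℕ} {K : Fin q → PMF (Fin q)} (hN : ∀ m, (N m).toReal = p m)
    (hK : ∀ i j, (K i j).toReal = lam * (if i = j then 1 else 0) + (1 - lam) / q)
    (n : ℕ) (i : Fin q) (o : Obs q n) : lk q lam p n i o = lik N K n i o := by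
  induction n generalizing i with
  | zero =>
    revert o
    change ∀ o : Fin q, (if o = i then (1 : ℝ) else 0) = (PMF.pure i o).toReal
    intro o
    rw [PMF.pure_apply]
    by_cases h : o = i
    · rw [if_pos h, if_pos h, ENNReal.toReal_one]
    · rw [if_neg h, if_neg h, ENNReal.toReal_zero]
  | succ n ih =>
    obtain ⟨m, f⟩ := o
    rw [lik_succ, hN]
    change p m * ∏ c : Fin m, ∑ j, tr q lam i j * lk q lam p n j (f c) = _
    congr 1
    refine Finset.prod_congr rfl fun c _ => Finset.sum_congr rfl fun j _ => ?_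
    rw [ih, hK]
    rfl

theorem a_eq [IsProbabilityMeasure μ] [NeZero q] (h : IsBroadcast μ q lam p k s)
    {N : PMF ℕ} {K : Fin q → PMF (Fin q)} (hN : ∀ m, (N m).toReal = p m)
    (hK : ∀ i j, (K i j).toReal = lam * (if i = j then 1 else 0) + (1 - lam) / q) (n : ℕ) :
    a μ k s n = Pmf.a N K n := by
  rw [a_eq_tsum h]
  unfold Pmf.a
  refine tsum_congr fun o => ?_
  rw [seen_mul_dev]
  have : lk q lam p n = lik N K n := by
    funext i o
    exact lk_eq hN hK n i o
  rw [this]

end Vale.Agent.P154.Rv
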