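import Mathlib
import Vale.Agent.Lib.P154.PmfDefs

/-!
# Broadcasting on trees by random variables on a probability space

The possible vertices are the words over the naturals: `[]` is the root and `c :: v` is the `c`-th
child of `v` (so `v.tail` is the parent of `v`).  `k v` is the number of children of `v` and `s v`
the spin of `v`.
-/

open MeasureTheory

namespace Vale.Agent.P154.Rv

/-- The random variables `k v` (number of children of `v`) and `s v` (spin of `v`) are those of the
broadcast process with offspring law `p` and `q`-state Potts channel with eigenvalue `lam`: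
the numbers of children are independent with law `p` and independent of the spins; the root spin is
uniform; along every edge the child `v` receives its spin from its parent `v.tail` through the
channel `P_lam (j | i) = lam * 1_{i=j} + (1-lam)/q`, independently for different edges.  In one
formula: for all finite sets of vertices `E` and `F`, where `F` is a subtree containing the root,
`Pr (k v = κ v for v in E, s v = σ v for v in F)` is the product of the `p (κ v)`, of `1/q` and of
the `P_lam (σ v | σ v.tail)` for `v` in `F` different from the root. -/
structure IsBroadcast {Ω : Type*} [MeasurableSpace Ω] (μ : Measure Ω) (q : ℕ) (lam : ℝ)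
    (p : ℕ → ℝ) (k : List ℕ → Ω → ℕ) (s : List ℕ → Ω → Fin q) : Prop where
  meas_k : ∀ v, Measurable (k v)
  meas_s : ∀ v, Measurable (s v)
  law : ∀ (E F : Finset (List ℕ)), [] ∈ F → (∀ c v, c :: v ∈ F → v ∈ F) →
    ∀ (κ : List ℕ → ℕ) (σ : List ℕ → Fin q),
      μ.real {ω | (∀ v ∈ E, k v ω = κ v) ∧ ∀ v ∈ F, s v ω = σ v} =
        (∏ v ∈ E, p (κ v)) * ((1 / (q : ℝ)) *
          ∏ v ∈ F.erase [], (lam * (if σ v.tail = σ v then 1 else 0) + (1 - lam) / q))

/-- The data of level `n` seen by the observer below the vertex `v`: the tree below `v` up to
distance `n` from `v`, and the spins of its vertices at distance exactly `n` from `v` (no other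
spins).  The type `Pmf.Obs q n` of such data is recursive as well: a spin for `n = 0`, a number of
children and data of level `n` for every child for `n + 1`. -/
def view {Ω : Type*} {q : ℕ} (k : List ℕ → Ω → ℕ) (s : List ℕ → Ω → Fin q) :
    (n : ℕ) → List ℕ → Ω → Pmf.Obs q n
  | 0 => fun v ω => s v ω
  | n + 1 => fun v ω => ⟨k v ω, fun c => view k s n (c.val :: v) ω⟩

/-- `a_n`: the expectation of half the sum over the spins `i` of
`|Pr (root spin = i | data of level n) - 1/q|`, where the conditional probability is taken given
the event that the data of level `n` are the observed ones. -/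
noncomputable def a {Ω : Type*} [MeasurableSpace Ω] (μ : Measure Ω) {q : ℕ}
    (k : List ℕ → Ω → ℕ) (s : List ℕ → Ω → Fin q) (n : ℕ) : ℝ :=
  ∫ ω, (1 / 2) * ∑ i : Fin q,
    |(ProbabilityTheory.cond μ {ω' | view k s n [] ω' = view k s n [] ω}).real
      {ω' | s [] ω' = i} - 1 / (q : ℝ)| ∂μ

end Vale.Agent.P154.Rv
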