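import Vale.Agent.Lib.P154.RvDefs

/-!
# Existence of the random variable model
-/

open MeasureTheory
open scoped BigOperators ENNReal

namespace Vale.Agent.P154.Rv

/-- one source of randomness per vertex: number of children, a uniform spin (used for the root
only), and the random map applied to the spin of the parent -/
abbrev Src (q : ℕ) : Type := ℕ × (Fin q × (Fin q → Fin q))

/-- the number of children -/
def kk (q : ℕ) (v : List ℕ) (ω : List ℕ → Src q) : ℕ := (ω v).1

/-- the spin -/
def ss (q : ℕ) : List ℕ → (List ℕ → Src q) → Fin q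
  | [] => fun ω => (ω []).2.1
  | c :: v => fun ω => (ω (c :: v)).2.2 (ss q v ω)

theorem measurable_ss (q : ℕ) (v : List ℕ) : Measurable (ss q v) := by
  induction v with
  | nil => exact (measurable_pi_apply _).snd.fst
  | cons c v ih =>
    refine measurable_to_countable' fun j => ?_
    have e : ss q (c :: v) ⁻¹' {j} =
        ⋃ i : Fin q, (ss q v ⁻¹' {i}) ∩ {ω | (ω (c :: v)).2.2 i = j} := by
      ext ω
      simp only [Set.mem_preimage, Set.mem_singleton_iff, Set.mem_iUnion, Set.mem_inter_iff]
      constructor
      · intro h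
        exact ⟨ss q v ω, rfl, h⟩
      · rintro ⟨i, rfl, h⟩
        exact h
    rw [e]
    refine MeasurableSet.iUnion fun i => (ih (measurableSet_singleton i)).inter ?_
    have hm : Measurable fun ω : List ℕ → Src q => (ω (c :: v)).2.2 i :=
      (measurable_pi_apply i).comp (measurable_pi_apply (c :: v)).snd.snd
    exact hm (measurableSet_singleton j)

variable {q : ℕ}

/-- the law of one source of randomness -/
noncomputable def srcLaw [NeZero q] (N : PMF ℕ) (K : Fin q → PMF (Fin q)) : Measure (Src q) :=
  N.toMeasure.prod ((PMF.uniformOfFintype (Fin q)).toMeasure.prod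
    (Measure.pi fun i => (K i).toMeasure))

instance [NeZero q] (N : PMF ℕ) (K : Fin q → PMF (Fin q)) :
    IsProbabilityMeasure (srcLaw N K) := by
  unfold srcLaw
  infer_instance

theorem pi_eval_eq (K : Fin q → PMF (Fin q)) (i j : Fin q) :
    (Measure.pi fun i => (K i).toMeasure) {φ : Fin q → Fin q | φ i = j} = K i j := by
  classical
  have e : {φ : Fin q → Fin q | φ i = j} =
      Set.pi Set.univ (fun i' => if i' = i then {j} else Set.univ) := by
    ext φ
    simp only [Set.mem_setOf_eq, Set.mem_univ_pi]
    constructor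
    · intro h i'
      by_cases hi : i' = i
      · subst hi
        rw [if_pos rfl]
        exact h
      · rw [if_neg hi]
        trivial
    · intro h
      have := h i
      rwa [if_pos rfl] at this
  rw [e, Measure.pi_pi, Finset.prod_eq_single i]
  · rw [if_pos rfl, PMF.toMeasure_apply_singleton _ _ (measurableSet_singleton j)]
  · intro i' _ hi
    rw [if_neg hi]
    exact measure_univ
  · intro h
    exact absurd (Finset.mem_univ i) h

theorem law_ss [NeZero q] {lam : ℝ} {p : ℕ → ℝ} {N : PMF ℕ} {K : Fin q → PMF (Fin q)}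
    (hN : ∀ m, (N m).toReal = p m)
    (hK : ∀ i j, (K i j).toReal = lam * (if i = j then 1 else 0) + (1 - lam) / q)
    (E F : Finset (List ℕ)) (h0 : [] ∈ F) (hcl : ∀ c v, c :: v ∈ F → v ∈ F)
    (κ : List ℕ → ℕ) (σ : List ℕ → Fin q) :
    (Measure.infinitePi fun _ : List ℕ => srcLaw N K).real
      {ω | (∀ v ∈ E, kk q v ω = κ v) ∧ ∀ v ∈ F, ss q v ω = σ v} =
      (∏ v ∈ E, p (κ v)) * ((1 / (q : ℝ)) *
        ∏ v ∈ F.erase [], (lam * (if σ v.tail = σ v then 1 else 0) + (1 - lam) / q)) := by
  classical
  let t1 : List ℕ → Set ℕ := fun v => if v ∈ E then {κ v} else Set.univ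
  let t2 : List ℕ → Set (Fin q) := fun v => if v = [] then {σ v} else Set.univ
  let t3 : List ℕ → Set (Fin q → Fin q) := fun v =>
    if v ∈ F.erase [] then {φ | φ (σ v.tail) = σ v} else Set.univ
  have e : {ω : List ℕ → Src q | (∀ v ∈ E, kk q v ω = κ v) ∧ ∀ v ∈ F, ss q v ω = σ v} =
      Set.pi (↑(E ∪ F)) (fun v => t1 v ×ˢ (t2 v ×ˢ t3 v)) := by
    ext ω
    simp only [Set.mem_setOf_eq, Set.mem_pi]
    constructor
    · rintro ⟨h1, h2⟩ v hv
      refine ⟨?_, ?_, ?_⟩
      · change (ω v).1 ∈ (if v ∈ E then {κ v} else Set.univ : Set ℕ)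
        by_cases hE : v ∈ E
        · rw [if_pos hE]; exact h1 v hE
        · rw [if_neg hE]; trivial
      · change (ω v).2.1 ∈ (if v = [] then {σ v} else Set.univ : Set (Fin q))
        by_cases hn : v = []
        · subst hn
          rw [if_pos rfl]; exact h2 [] h0
        · rw [if_neg hn]; trivial
      · change (ω v).2.2 ∈ (if v ∈ F.erase [] then {φ | φ (σ v.tail) = σ v} else Set.univ :
          Set (Fin q → Fin q))
        by_cases hF : v ∈ F.erase []
        · rw [if_pos hF]
          rw [Finset.mem_erase] at hF
          obtain ⟨c, v', rfl⟩ : ∃ c v', v = c :: v' := List.exists_cons_of_ne_nil hF.1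
          have h3 := h2 _ hF.2
          change (ω (c :: v')).2.2 (ss q v' ω) = σ (c :: v') at h3
          rw [h2 v' (hcl c v' hF.2)] at h3
          exact h3
        · rw [if_neg hF]; trivial
    · intro h
      have h1 : ∀ v ∈ F, ss q v ω = σ v := by
        intro v
        induction v with
        | nil =>
          intro hv
          have h3 := (h [] (Finset.mem_union_right _ hv)).2.1
          change (ω []).2.1 ∈ (if ([] : List ℕ) = [] then {σ []} else Set.univ : Set (Fin q)) at h3
          rw [if_pos rfl] at h3
          exact h3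
        | cons c v ih =>
          intro hv
          have h3 := (h (c :: v) (Finset.mem_union_right _ hv)).2.2
          change (ω (c :: v)).2.2 ∈ (if c :: v ∈ F.erase [] then
            {φ | φ (σ (c :: v).tail) = σ (c :: v)} else Set.univ : Set (Fin q → Fin q)) at h3
          rw [if_pos (Finset.mem_erase.2 ⟨List.cons_ne_nil c v, hv⟩)] at h3
          change (ω (c :: v)).2.2 (ss q v ω) = σ (c :: v)
          rw [ih (hcl c v hv)]
          exact h3
      refine ⟨fun v hv => ?_, h1⟩
      have h3 := (h v (Finset.mem_union_left _ hv)).1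
      change (ω v).1 ∈ (if v ∈ E then {κ v} else Set.univ : Set ℕ) at h3
      rw [if_pos hv] at h3
      exact h3
  have m1 : ∀ v, MeasurableSet (t1 v) := fun v => MeasurableSet.of_discrete
  have m2 : ∀ v, MeasurableSet (t2 v) := fun v => MeasurableSet.of_discrete
  have m3 : ∀ v, MeasurableSet (t3 v) := by
    intro v
    change MeasurableSet (if v ∈ F.erase [] then {φ | φ (σ v.tail) = σ v} else Set.univ :
      Set (Fin q → Fin q))
    split_ifs
    · have hm : Measurable fun φ : Fin q → Fin q => φ (σ v.tail) := measurable_pi_apply _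
      exact hm (measurableSet_singleton (σ v))
    · exact MeasurableSet.univ
  unfold Measure.real
  rw [e, Measure.infinitePi_pi _ (fun v _ => (m1 v).prod ((m2 v).prod (m3 v))),
    ENNReal.toReal_prod]
  have key : ∀ v ∈ E ∪ F, (srcLaw N K (t1 v ×ˢ (t2 v ×ˢ t3 v))).toReal =
      (if v ∈ E then p (κ v) else 1) * ((if v = [] then 1 / (q : ℝ) else 1) *
        (if v ∈ F.erase [] then
          (lam * (if σ v.tail = σ v then 1 else 0) + (1 - lam) / q) else 1)) := by
    intro v _
    unfold srcLaw
    rw [Measure.prod_prod, Measure.prod_prod, ENNReal.toReal_mul, ENNReal.toReal_mul]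
    congr 1
    · change (N.toMeasure (if v ∈ E then {κ v} else Set.univ)).toReal = _
      split_ifs
      · rw [PMF.toMeasure_apply_singleton _ _ (measurableSet_singleton _), hN]
      · rw [measure_univ, ENNReal.toReal_one]
    · congr 1
      · change ((PMF.uniformOfFintype (Fin q)).toMeasure
          (if v = [] then {σ v} else Set.univ)).toReal = _
        split_ifs
        · rw [PMF.toMeasure_apply_singleton _ _ (measurableSet_singleton _),
            PMF.uniformOfFintype_apply, Fintype.card_fin, ENNReal.toReal_inv,
            ENNReal.toReal_natCast, one_div]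
        · rw [measure_univ, ENNReal.toReal_one]
      · change ((Measure.pi fun i => (K i).toMeasure) (if v ∈ F.erase [] then
          {φ | φ (σ v.tail) = σ v} else Set.univ)).toReal = _
        split_ifs with h1 h2
        · rw [pi_eval_eq, hK, if_pos h2]
        · rw [pi_eval_eq, hK, if_neg h2]
        · rw [measure_univ, ENNReal.toReal_one]
  rw [Finset.prod_congr rfl key, Finset.prod_mul_distrib, Finset.prod_mul_distrib]
  congr 1
  · rw [Finset.prod_ite_mem, Finset.union_inter_cancel_left]
  · congr 1
    · rw [Finset.prod_ite_eq' (E ∪ F) [] (fun _ => 1 / (q : ℝ))]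
      rw [if_pos (Finset.mem_union_right _ h0)]
    · rw [Finset.prod_ite_mem]
      congr 1
      rw [Finset.inter_eq_right]
      exact (Finset.erase_subset _ _).trans Finset.subset_union_right

theorem exists_broadcast [NeZero q] {lam : ℝ} {p : ℕ → ℝ} {N : PMF ℕ} {K : Fin q → PMF (Fin q)}
    (hN : ∀ m, (N m).toReal = p m)
    (hK : ∀ i j, (K i j).toReal = lam * (if i = j then 1 else 0) + (1 - lam) / q) :
    IsBroadcast (Measure.infinitePi fun _ : List ℕ => srcLaw N K) q lam p (kk q) (ss q) where
  meas_k v := (measurable_pi_apply v).fst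
  meas_s v := measurable_ss q v
  law E F h0 hcl κ σ := law_ss hN hK E F h0 hcl κ σ

end Vale.Agent.P154.Rv
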